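import Crest.Agent.R073.GL4
import Crest.Agent.R073.Stmts

/-!
Row 73, M8b: `StmtGroup p`.  The permutation representation of a group `G` acting on a set `X` on
`ℓ²(X)`, and an eigenvector of `a, b, c, d` for the action of `GL_4(F_p[x,1/x])` on subsets of
`F_p[x,1/x]^4`.
-/

set_option autoImplicit false

namespace Crest.Agent.R073

open scoped ComplexConjugate ENNReal
open Crest.AnalysisR.CStarEmbedding

noncomputable section

section Perm

variable {X : Type}

/-- `ℓ²(X)` -/
abbrev L2 (X : Type) : Type := lp (fun _ : X => ℂ) 2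

theorem memlp_comp (e : X ≃ X) (f : L2 X) : Memℓp (fun x => (f : X → ℂ) (e x)) 2 := by
  have h2 : (0 : ℝ) < (2 : ℝ≥0∞).toReal := by norm_num
  have hf := (memℓp_gen_iff h2).mp (lp.memℓp f)
  exact (memℓp_gen_iff h2).mpr (e.summable_iff.mpr hf)

/-- composition with a permutation is a linear isometry of `ℓ²(X)` -/
def permL (e : X ≃ X) : L2 X ≃ₗᵢ[ℂ] L2 X where
  toFun f := ⟨fun x => (f : X → ℂ) (e.symm x), memlp_comp e.symm f⟩
  invFun f := ⟨fun x => (f : X → ℂ) (e x), memlp_comp e f⟩
  map_add' f g := by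
    apply lp.ext; funext x; rfl
  map_smul' c f := by
    apply lp.ext; funext x; rfl
  left_inv f := by
    apply lp.ext; funext x
    change (f : X → ℂ) (e.symm (e x)) = _
    rw [Equiv.symm_apply_apply]
  right_inv f := by
    apply lp.ext; funext x
    change (f : X → ℂ) (e (e.symm x)) = _
    rw [Equiv.apply_symm_apply]
  norm_map' f := by
    have h2 : (0 : ℝ) < (2 : ℝ≥0∞).toReal := by norm_num
    have h := lp.norm_eq_tsum_rpow h2 f
    refine (lp.norm_eq_tsum_rpow h2 _).trans ?_
    rw [h]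
    congr 1
    exact e.symm.tsum_eq (fun x => ‖(f : X → ℂ) x‖ ^ (2 : ℝ≥0∞).toReal)

theorem permL_apply (e : X ≃ X) (f : L2 X) (x : X) :
    (permL e f : X → ℂ) x = (f : X → ℂ) (e.symm x) := rfl

theorem permL_single [DecidableEq X] (e : X ≃ X) (x : X) (c : ℂ) :
    permL e (lp.single 2 x c) = lp.single 2 (e x) c := by
  apply lp.ext; funext y
  rw [permL_apply, lp.single_apply, lp.single_apply]
  by_cases h : y = e x
  · subst h
    rw [Equiv.symm_apply_apply, Pi.single_eq_same, Pi.single_eq_same]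
  · rw [Pi.single_eq_of_ne h, Pi.single_eq_of_ne]
    intro h'
    apply h
    rw [← h', Equiv.apply_symm_apply]

/-- the permutation representation -/
def permRep (G : Type) [Group G] (X : Type) [MulAction G X] : G →* unitary (L2 X →L[ℂ] L2 X) :=
  (Unitary.linearIsometryEquiv (𝕜 := ℂ) (H := L2 X)).symm.toMonoidHom.comp
    { toFun := fun g => permL (MulAction.toPerm g)
      map_one' := by
        ext f x
        rw [permL_apply]
        simp
      map_mul' := fun g h => by
        ext f x
        rw [permL_apply]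
        change _ = (permL (MulAction.toPerm g) (permL (MulAction.toPerm h) f) : X → ℂ) x
        rw [permL_apply, permL_apply]
        simp [mul_smul] }

theorem permRep_apply (G : Type) [Group G] (X : Type) [MulAction G X] (g : G) (f : L2 X) :
    ((permRep G X g : unitary (L2 X →L[ℂ] L2 X)) : L2 X →L[ℂ] L2 X) f =
      permL (MulAction.toPerm g) f := rfl

end Perm

section Bound

variable {p : ℕ} [Fact p.Prime] {G : Type} [Group G] (K : KGroup p G)

/-- if `G` acts on `X` with points `x_j` (`j ∈ F_p`), pairwise distinct, fixed by `a, b, c` and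
permuted cyclically by `d`, then the norm in the full group C*-algebra is at least `5` -/
theorem norm_ge_five (X : Type) [MulAction G X] (x : ZMod p → X) (hx : Function.Injective x)
    (ha : ∀ j, K.a • x j = x j) (hb : ∀ j, K.b • x j = x j) (hc : ∀ j, K.c • x j = x j)
    (hd : ∀ j, K.D (Multiplicative.ofAdd ![0, 0, 1]) • x j = x (j + 1))
    (A : Type) [CStarAlgebra A] (u : G →* unitary A) (hu : IsFullGroupCStar A u) :
    5 ≤ ‖(1 : A) + (u K.a : A) + (u K.b : A) + (u K.c : A)
        + conj (psi p 1) • (u (K.D (Multiplicative.ofAdd ![0, 0, 1])) : A)‖ := by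
  classical
  obtain ⟨φ, hφ⟩ := hu.2 (L2 X →L[ℂ] L2 X) (permRep G X)
  set d := K.D (Multiplicative.ofAdd ![0, 0, 1]) with hddef
  let ζ : L2 X := ∑ j : ZMod p, conj (psi p j) • lp.single 2 (x j) (1 : ℂ)
  have hw : ∀ g : G, φ (u g : A) ζ =
      ∑ j : ZMod p, conj (psi p j) • lp.single 2 (g • x j) (1 : ℂ) := by
    intro g
    rw [hφ]
    change ((permRep G X g : unitary (L2 X →L[ℂ] L2 X)) : L2 X →L[ℂ] L2 X) ζ = _
    rw [map_sum]
    refine Finset.sum_congr rfl fun j _ => ?_
    rw [map_smul, permRep_apply, permL_single]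
    rfl
  have hζa : φ (u K.a : A) ζ = ζ := by rw [hw]; simp only [ha, ζ]
  have hζb : φ (u K.b : A) ζ = ζ := by rw [hw]; simp only [hb, ζ]
  have hζc : φ (u K.c : A) ζ = ζ := by rw [hw]; simp only [hc, ζ]
  have hζd : φ (u d : A) ζ = psi p 1 • ζ := by
    rw [hw]
    simp only [hd, ζ]
    rw [Finset.smul_sum]
    have hs := Equiv.sum_comp (Equiv.addRight (1 : ZMod p))
      (fun j => (psi p 1 • conj (psi p j) • lp.single 2 (x j) (1 : ℂ) : L2 X))
    refine Eq.trans ?_ hs
    refine Finset.sum_congr rfl fun j _ => ?_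
    simp only [Equiv.coe_addRight]
    rw [smul_smul]
    congr 1
    have h1 : psi p (j + 1) = psi p j * psi p 1 := by
      unfold psi; exact AddChar.map_add_eq_mul _ _ _
    have h2 : psi p 1 * conj (psi p 1) = 1 := by
      rw [Complex.mul_conj, Complex.normSq_eq_norm_sq, norm_psi]
      simp
    rw [h1, map_mul, mul_left_comm, h2, mul_one]
  have hζ0 : ζ ≠ 0 := by
    intro h0
    have h1 : (ζ : X → ℂ) (x 0) = 1 := by
      have e1 : (ζ : X → ℂ) (x 0) =
          ∑ j : ZMod p, (conj (psi p j) • lp.single 2 (x j) (1 : ℂ) : L2 X) (x 0) := by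
        simp only [ζ]
        rw [lp.coeFn_sum, Finset.sum_apply]
      rw [e1, Finset.sum_eq_single 0]
      · rw [lp.coeFn_smul, Pi.smul_apply, lp.single_apply, Pi.single_eq_same]
        simp [psi]
      · intro j _ hj
        rw [lp.coeFn_smul, Pi.smul_apply, lp.single_apply, Pi.single_eq_of_ne, smul_zero]
        exact fun h => hj (hx h).symm
      · simp
    rw [h0] at h1
    simp at h1
  set h : A := (1 : A) + (u K.a : A) + (u K.b : A) + (u K.c : A) + conj (psi p 1) • (u d : A)
    with hh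
  have hφh : φ h ζ = (5 : ℂ) • ζ := by
    rw [hh, map_add, map_add, map_add, map_add, map_one, map_smul]
    simp only [_root_.add_apply, _root_.smul_apply,
      one_apply_eq_self, hζa, hζb, hζc, hζd]
    rw [smul_smul]
    have h2 : conj (psi p 1) * psi p 1 = 1 := by
      rw [mul_comm, Complex.mul_conj, Complex.normSq_eq_norm_sq, norm_psi]
      simp
    rw [h2, one_smul]
    module
  have h3 : ‖φ h ζ‖ = 5 * ‖ζ‖ := by
    rw [hφh, norm_smul]; simp
  have h4 : ‖φ h ζ‖ ≤ ‖h‖ * ‖ζ‖ :=
    ((φ h).le_opNorm ζ).trans (mul_le_mul_of_nonneg_right (NonUnitalStarAlgHom.norm_apply_le φ h)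
      (norm_nonneg _))
  rw [h3] at h4
  exact le_of_mul_le_mul_right h4 (norm_pos_iff.mpr hζ0)

end Bound

section Action

open LaurentPolynomial

/-- action of `GL_4(R)` on subsets of `R^4` -/
@[reducible] def setAct (R : Type) [CommRing R] : MulAction (GL4 R) (Set (Fin 4 → R)) where
  smul g S := (fun v => (g : Matrix (Fin 4) (Fin 4) R).mulVec v) '' S
  one_smul S := by
    change (fun v => ((1 : GL4 R) : Matrix (Fin 4) (Fin 4) R).mulVec v) '' S = S
    simp
  mul_smul g h S := by
    change (fun v => ((g * h : GL4 R) : Matrix (Fin 4) (Fin 4) R).mulVec v) '' S =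
      (fun v => (g : Matrix (Fin 4) (Fin 4) R).mulVec v) ''
        ((fun v => (h : Matrix (Fin 4) (Fin 4) R).mulVec v) '' S)
    rw [Set.image_image]
    simp [Matrix.mulVec_mulVec]

attribute [local instance] setAct

theorem smul_eq {R : Type} [CommRing R] (g : GL4 R) (S T : Set (Fin 4 → R))
    (h1 : ∀ v ∈ S, (g : Matrix (Fin 4) (Fin 4) R).mulVec v ∈ T)
    (h2 : ∀ v ∈ T, ((g⁻¹ : GL4 R) : Matrix (Fin 4) (Fin 4) R).mulVec v ∈ S) : g • S = T := by
  apply Set.Subset.antisymm
  · rintro _ ⟨v, hv, rfl⟩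
    exact h1 v hv
  · intro v hv
    refine ⟨_, h2 v hv, ?_⟩
    change (g : Matrix (Fin 4) (Fin 4) R).mulVec
      (((g⁻¹ : GL4 R) : Matrix (Fin 4) (Fin 4) R).mulVec v) = v
    rw [Matrix.mulVec_mulVec, Units.mul_inv, Matrix.one_mulVec]

theorem M12_mulVec {R : Type} [CommRing R] (f : R) (v : Fin 4 → R) :
    (M12 f).mulVec v = ![v 0 + f * v 1, v 1, v 2, v 3] := by
  funext i; fin_cases i <;> simp [M12, Matrix.mulVec, dotProduct, Fin.sum_univ_four]
theorem M23_mulVec {R : Type} [CommRing R] (f : R) (v : Fin 4 → R) :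
    (M23 f).mulVec v = ![v 0, v 1 + f * v 2, v 2, v 3] := by
  funext i; fin_cases i <;> simp [M23, Matrix.mulVec, dotProduct, Fin.sum_univ_four]
theorem M31_mulVec {R : Type} [CommRing R] (f : R) (v : Fin 4 → R) :
    (M31 f).mulVec v = ![v 0, v 1, f * v 0 + v 2, v 3] := by
  funext i; fin_cases i <;> simp [M31, Matrix.mulVec, dotProduct, Fin.sum_univ_four]
theorem MC_mulVec {R : Type} [CommRing R] (f : R) (v : Fin 4 → R) :
    (MC 0 0 f).mulVec v = ![v 0, v 1, v 2 + f * v 3, v 3] := by
  funext i; fin_cases i <;> simp [MC, Matrix.mulVec, dotProduct, Fin.sum_univ_four]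

/-- `{v ∈ F_p[x]^4 : v_3(0) - j v_4(0) = 1}` -/
def pt (p : ℕ) (j : ZMod p) : Set (Fin 4 → LaurentPolynomial (ZMod p)) :=
  {v | ∃ P : Fin 4 → Polynomial (ZMod p), v = (fun i => Polynomial.toLaurent (P i)) ∧
    (P 2).eval 0 - j * (P 3).eval 0 = 1}

variable {p : ℕ}

theorem pt_M12 (f : Polynomial (ZMod p)) (j : ZMod p) (v : Fin 4 → LaurentPolynomial (ZMod p))
    (hv : v ∈ pt p j) : (M12 (Polynomial.toLaurent f)).mulVec v ∈ pt p j := by
  obtain ⟨P, rfl, hP⟩ := hv
  refine ⟨![P 0 + f * P 1, P 1, P 2, P 3], ?_, by simpa using hP⟩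
  rw [M12_mulVec]
  funext i; fin_cases i <;> simp

theorem pt_M23 (f : Polynomial (ZMod p)) (j : ZMod p) (v : Fin 4 → LaurentPolynomial (ZMod p))
    (hv : v ∈ pt p j) : (M23 (Polynomial.toLaurent f)).mulVec v ∈ pt p j := by
  obtain ⟨P, rfl, hP⟩ := hv
  refine ⟨![P 0, P 1 + f * P 2, P 2, P 3], ?_, by simpa using hP⟩
  rw [M23_mulVec]
  funext i; fin_cases i <;> simp

theorem pt_M31 (f : Polynomial (ZMod p)) (hf : f.eval 0 = 0) (j : ZMod p)
    (v : Fin 4 → LaurentPolynomial (ZMod p))
    (hv : v ∈ pt p j) : (M31 (Polynomial.toLaurent f)).mulVec v ∈ pt p j := by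
  obtain ⟨P, rfl, hP⟩ := hv
  refine ⟨![P 0, P 1, f * P 0 + P 2, P 3], ?_, by simpa [hf] using hP⟩
  rw [M31_mulVec]
  funext i; fin_cases i <;> simp

theorem pt_MC (f j : ZMod p)
    (v : Fin 4 → LaurentPolynomial (ZMod p))
    (hv : v ∈ pt p j) : (MC 0 0 (LaurentPolynomial.C f)).mulVec v ∈ pt p (j + f) := by
  obtain ⟨P, rfl, hP⟩ := hv
  refine ⟨![P 0, P 1, P 2 + Polynomial.C f * P 3, P 3], ?_, ?_⟩
  · rw [MC_mulVec]
    funext i; fin_cases i <;> simp
  · rw [← hP]
    simp
    ring

theorem pt_injective : Function.Injective (pt p) := by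
  intro j j' h
  have h1 : (fun i => Polynomial.toLaurent ((![0, 0, Polynomial.C (1 + j), 1] :
      Fin 4 → Polynomial (ZMod p)) i)) ∈ pt p j := ⟨_, rfl, by simp⟩
  rw [h] at h1
  obtain ⟨P, hP, hP'⟩ := h1
  have e2 := congrFun hP 2
  have e3 := congrFun hP 3
  have e2' := Polynomial.toLaurent_injective e2
  have e3' := Polynomial.toLaurent_injective e3
  rw [← e2', ← e3'] at hP'
  simp at hP'
  have : j - j' = 0 := by linear_combination hP'
  exact sub_eq_zero.mp this

/-- the variable as a unit -/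
def xU (p : ℕ) : (LaurentPolynomial (ZMod p))ˣ where
  val := T 1
  inv := T (-1)
  val_inv := by rw [← T_add]; simp
  inv_val := by rw [← T_add]; simp

instance countable_laurent (p : ℕ) [Fact p.Prime] : Countable (LaurentPolynomial (ZMod p)) := by
  have : Function.Injective
      (fun f : LaurentPolynomial (ZMod p) => (f.coeff : ℤ →₀ ZMod p)) := by
    intro f g h
    apply LaurentPolynomial.ext
    intro a
    exact DFunLike.congr_fun h a
  exact this.countable

theorem stmtGroup (p : ℕ) [Fact p.Prime] : StmtGroup p := by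
  have hcM : Countable (Matrix (Fin 4) (Fin 4) (LaurentPolynomial (ZMod p))) :=
    inferInstanceAs (Countable (Fin 4 → Fin 4 → LaurentPolynomial (ZMod p)))
  have hcount : Countable (GL4 (LaurentPolynomial (ZMod p))) :=
    (Units.val_injective (α := Matrix (Fin 4) (Fin 4) (LaurentPolynomial (ZMod p)))).countable
  refine ⟨GL4 (LaurentPolynomial (ZMod p)), inferInstance, hcount,
    glK (C : ZMod p →+* LaurentPolynomial (ZMod p)) (xU p), ?_⟩
  intro A _ u hu
  have hone : (Polynomial.toLaurent (1 : Polynomial (ZMod p))) = 1 := map_one _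
  have hneg : (Polynomial.toLaurent (-1 : Polynomial (ZMod p))) = -1 := by
    rw [map_neg, map_one]
  refine norm_ge_five (glK (C : ZMod p →+* LaurentPolynomial (ZMod p)) (xU p))
    (Set (Fin 4 → LaurentPolynomial (ZMod p))) (pt p) pt_injective ?_ ?_ ?_ ?_ A u hu
  · intro j
    refine smul_eq _ _ _ (fun v hv => ?_) (fun v hv => ?_)
    · have := pt_M12 1 j v hv
      rw [hone] at this
      exact this
    · have := pt_M12 (-1) j v hv
      rw [hneg] at this
      exact this
  · intro j
    refine smul_eq _ _ _ (fun v hv => ?_) (fun v hv => ?_)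
    · have := pt_M23 1 j v hv
      rw [hone] at this
      exact this
    · have := pt_M23 (-1) j v hv
      rw [hneg] at this
      exact this
  · intro j
    refine smul_eq _ _ _ (fun v hv => ?_) (fun v hv => ?_)
    · have := pt_M31 Polynomial.X (by simp) j v hv
      rw [Polynomial.toLaurent_X] at this
      exact this
    · have := pt_M31 (-Polynomial.X) (by simp) j v hv
      rw [map_neg, Polynomial.toLaurent_X] at this
      exact this
  · intro j
    refine smul_eq _ _ _ (fun v hv => ?_) (fun v hv => ?_)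
    · have := pt_MC 1 j v hv
      have e : MC (C ((![0, 0, 1] : V3 p) 0)) (C ((![0, 0, 1] : V3 p) 1))
          (C ((![0, 0, 1] : V3 p) 2)) = MC 0 0 (C (1 : ZMod p)) := by simp
      change (MC (C ((![0, 0, 1] : V3 p) 0)) (C ((![0, 0, 1] : V3 p) 1))
          (C ((![0, 0, 1] : V3 p) 2))).mulVec v ∈ _
      rw [e]
      exact this
    · have := pt_MC (-1) (j + 1) v hv
      have e : MC (-C ((![0, 0, 1] : V3 p) 0)) (-C ((![0, 0, 1] : V3 p) 1))
          (-C ((![0, 0, 1] : V3 p) 2)) = MC 0 0 (C (-1 : ZMod p)) := by simp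
      change (MC (-C ((![0, 0, 1] : V3 p) 0)) (-C ((![0, 0, 1] : V3 p) 1))
          (-C ((![0, 0, 1] : V3 p) 2))).mulVec v ∈ _
      rw [e]
      have ej : j + 1 + -1 = j := by ring
      rw [ej] at this
      exact this

end Action

end

end Crest.Agent.R073
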