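import Crest.Agent.R073.Stmts

/-!
Row 73, module M3: matrix approximation of the Cuntz algebra `O_2` (`StmtCuntz`).
-/

set_option autoImplicit false

namespace Crest.Agent.R073.Cuntz

open scoped Matrix ComplexConjugate

noncomputable section

/-- words (in the letters `0, 1`) of length `< n` -/
def I : ℕ → Type
  | 0 => Empty
  | n + 1 => Option (Fin 2 × I n)

instance instFintypeI : ∀ n, Fintype (I n)
  | 0 => inferInstanceAs (Fintype Empty)
  | n + 1 => by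
      haveI := instFintypeI n
      exact inferInstanceAs (Fintype (Option (Fin 2 × I n)))

instance instDecidableEqI : ∀ n, DecidableEq (I n)
  | 0 => inferInstanceAs (DecidableEq Empty)
  | n + 1 => by
      haveI := instDecidableEqI n
      exact inferInstanceAs (DecidableEq (Option (Fin 2 × I n)))

/-- empty word -/
def nil (n : ℕ) : I (n + 1) := (none : Option (Fin 2 × I n))

/-- add a letter in front -/
def cons {n : ℕ} (i : Fin 2) (w : I n) : I (n + 1) := (some (i, w) : Option (Fin 2 × I n))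

theorem I_cases {n : ℕ} {P : I (n + 1) → Prop} (h0 : P (nil n)) (h1 : ∀ i w, P (cons i w)) :
    ∀ μ, P μ := by
  intro μ
  change Option (Fin 2 × I n) at μ
  rcases μ with _ | ⟨i, w⟩
  · exact h0
  · exact h1 i w

theorem sum_I {n : ℕ} {M : Type*} [AddCommMonoid M] (f : I (n + 1) → M) :
    ∑ μ, f μ = f (nil n) + ∑ i, ∑ w, f (cons i w) := by
  have h := Fintype.sum_option (α := Fin 2 × I n) (fun μ => f μ)
  rw [Fintype.sum_prod_type] at h
  exact h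

/-- eliminator into types -/
def elimI {n : ℕ} {γ : Type*} (a : γ) (b : Fin 2 → I n → γ) (μ : I (n + 1)) : γ :=
  (Option.elim (μ : Option (Fin 2 × I n)) a (fun q => b q.1 q.2))

@[simp] theorem elimI_nil {n : ℕ} {γ : Type*} (a : γ) (b : Fin 2 → I n → γ) :
    elimI a b (nil n) = a := rfl

@[simp] theorem elimI_cons {n : ℕ} {γ : Type*} (a : γ) (b : Fin 2 → I n → γ) (i : Fin 2) (w : I n) :
    elimI a b (cons i w) = b i w := rfl

/-- words of length `< n` are words of length `< n + 1` -/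
def emb : ∀ n, I n → I (n + 1)
  | 0 => fun x => (x : Empty).elim
  | n + 1 => elimI (nil (n + 1)) (fun i w => cons i (emb n w))

theorem cons_inj {n : ℕ} {i j : Fin 2} {w v : I n} (h : cons i w = cons j v) : i = j ∧ w = v := by
  have := Option.some.inj (show (some (i, w) : Option (Fin 2 × I n)) = some (j, v) from h)
  exact ⟨congrArg Prod.fst this, congrArg Prod.snd this⟩

theorem nil_ne_cons {n : ℕ} (i : Fin 2) (w : I n) : nil n ≠ cons i w := by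
  intro h
  exact (Option.some_ne_none (i, w)) (show some (i, w) = (none : Option (Fin 2 × I n)) from h.symm)

theorem emb_injective : ∀ n, Function.Injective (emb n)
  | 0 => fun x => (x : Empty).elim
  | n + 1 => by
      intro x y
      revert x y
      refine I_cases ?_ ?_
      · refine I_cases ?_ ?_
        · intro _; rfl
        · intro i w h
          exact absurd h (nil_ne_cons i _)
      · intro i w
        refine I_cases ?_ ?_
        · intro h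
          exact absurd h.symm (nil_ne_cons i _)
        · intro j v h
          obtain ⟨h1, h2⟩ := cons_inj (show cons i (emb n w) = cons j (emb n v) from h)
          rw [h1, emb_injective n h2]

section ops

variable {H : Type} [NormedAddCommGroup H] [InnerProductSpace ℂ H]

/-- `W N μ = S_μ^*` -/
def W (ts : Fin 2 → H →L[ℂ] H) : ∀ N, I N → (H →L[ℂ] H)
  | 0 => fun _ => 0
  | N + 1 => elimI 1 (fun i w => (W ts N w) ∘L ts i)

@[simp] theorem W_nil (ts : Fin 2 → H →L[ℂ] H) (N : ℕ) : W ts (N + 1) (nil N) = 1 := rfl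

@[simp] theorem W_cons (ts : Fin 2 → H →L[ℂ] H) (N : ℕ) (i : Fin 2) (w : I N) :
    W ts (N + 1) (cons i w) = (W ts N w) ∘L ts i := rfl

theorem W_emb (ts : Fin 2 → H →L[ℂ] H) : ∀ (N : ℕ) (w : I N), W ts (N + 1) (emb N w) = W ts N w
  | 0 => fun w => (w : Empty).elim
  | N + 1 => by
      refine I_cases ?_ ?_
      · rfl
      · intro i w
        change (W ts (N + 1) (emb N w)) ∘L ts i = (W ts N w) ∘L ts i
        rw [W_emb ts N w]

theorem sum_W (ts : Fin 2 → H →L[ℂ] H) (h1 : ∀ ξ, ∑ i, ‖ts i ξ‖ ^ 2 = ‖ξ‖ ^ 2) :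
    ∀ (N : ℕ) (ξ : H), ∑ μ, ‖W ts N μ ξ‖ ^ 2 = N * ‖ξ‖ ^ 2
  | 0, ξ => by simp [W]
  | N + 1, ξ => by
      rw [sum_I]
      have : ∀ i, ∑ w, ‖W ts (N + 1) (cons i w) ξ‖ ^ 2 = N * ‖ts i ξ‖ ^ 2 := by
        intro i
        exact sum_W ts h1 N (ts i ξ)
      simp only [this]
      rw [← Finset.mul_sum, h1]
      simp
      ring

/-- the Hilbert space `H ⊗ ℂ^ι` -/
abbrev HI (H : Type) [NormedAddCommGroup H] (ι : Type) [Fintype ι] : Type := PiLp 2 (fun _ : ι => H)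

/-- `α ⊗ 1` -/
def amp {ι : Type} [Fintype ι] (α : Matrix ι ι ℂ) (T : HI H ι) : HI H ι :=
  WithLp.toLp 2 (fun i => ∑ j, α i j • T j)

@[simp] theorem amp_apply {ι : Type} [Fintype ι] (α : Matrix ι ι ℂ) (T : HI H ι) (i : ι) :
    amp α T i = ∑ j, α i j • T j := rfl

theorem amp_sub {ι : Type} [Fintype ι] (α : Matrix ι ι ℂ) (S T : HI H ι) :
    amp α (S - T) = amp α S - amp α T := by
  ext i
  simp [smul_sub, Finset.sum_sub_distrib]

theorem amp_add_left {ι : Type} [Fintype ι] (α β : Matrix ι ι ℂ) (T : HI H ι) :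
    amp (α + β) T = amp α T + amp β T := by
  ext i
  simp [add_smul, Finset.sum_add_distrib]

theorem amp_mul {ι : Type} [Fintype ι] (α β : Matrix ι ι ℂ) (T : HI H ι) :
    amp (α * β) T = amp α (amp β T) := by
  ext i
  simp only [amp_apply, Matrix.mul_apply, Finset.sum_smul, Finset.smul_sum, smul_smul]
  rw [Finset.sum_comm]

theorem amp_smul_one {ι : Type} [Fintype ι] [DecidableEq ι] (c : ℂ) (T : HI H ι) :
    amp (c • (1 : Matrix ι ι ℂ)) T = c • T := by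
  ext i
  simp [Matrix.one_apply]

/-- the normalised map `V_N` -/
def VV (ts : Fin 2 → H →L[ℂ] H) (N : ℕ) (ξ : H) : HI H (I N) :=
  WithLp.toLp 2 (fun μ => (((Real.sqrt N)⁻¹ : ℝ) : ℂ) • W ts N μ ξ)

theorem VV_apply (ts : Fin 2 → H →L[ℂ] H) (N : ℕ) (ξ : H) (μ : I N) :
    VV ts N ξ μ = (((Real.sqrt N)⁻¹ : ℝ) : ℂ) • W ts N μ ξ := rfl

theorem VV_add (ts : Fin 2 → H →L[ℂ] H) (N : ℕ) (ξ ζ : H) :
    VV ts N (ξ + ζ) = VV ts N ξ + VV ts N ζ := by
  ext i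
  simp [VV_apply]

theorem VV_sub (ts : Fin 2 → H →L[ℂ] H) (N : ℕ) (ξ ζ : H) :
    VV ts N (ξ - ζ) = VV ts N ξ - VV ts N ζ := by
  ext i
  simp [VV_apply, smul_sub]

theorem VV_smul (ts : Fin 2 → H →L[ℂ] H) (N : ℕ) (c : ℂ) (ξ : H) :
    VV ts N (c • ξ) = c • VV ts N ξ := by
  ext i
  simp [VV_apply, smul_comm c]

omit [InnerProductSpace ℂ H] in
theorem norm_sq_eq {ι : Type} [Fintype ι] (T : HI H ι) : ‖T‖ ^ 2 = ∑ i, ‖T i‖ ^ 2 :=
  PiLp.norm_sq_eq_of_L2 _ T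

theorem VV_norm_sq (ts : Fin 2 → H →L[ℂ] H) (h1 : ∀ ξ, ∑ i, ‖ts i ξ‖ ^ 2 = ‖ξ‖ ^ 2) (N : ℕ)
    (hN : 0 < N) (ξ : H) : ‖VV ts N ξ‖ ^ 2 = ‖ξ‖ ^ 2 := by
  rw [norm_sq_eq]
  have hN' : (0 : ℝ) < N := by exact_mod_cast hN
  have : ∀ μ, ‖VV ts N ξ μ‖ ^ 2 = (N : ℝ)⁻¹ * ‖W ts N μ ξ‖ ^ 2 := by
    intro μ
    rw [VV_apply, norm_smul, mul_pow, Complex.norm_real, norm_inv, Real.norm_eq_abs, inv_pow,
      sq_abs, Real.sq_sqrt hN'.le]
  simp only [this]
  rw [← Finset.mul_sum, sum_W ts h1]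
  field_simp

theorem VV_norm (ts : Fin 2 → H →L[ℂ] H) (h1 : ∀ ξ, ∑ i, ‖ts i ξ‖ ^ 2 = ‖ξ‖ ^ 2) (N : ℕ)
    (hN : 0 < N) (ξ : H) : ‖VV ts N ξ‖ = ‖ξ‖ := by
  have := VV_norm_sq ts h1 N hN ξ
  exact (pow_left_inj₀ (norm_nonneg _) (norm_nonneg _) two_ne_zero).1 this

/-- shift matrix: `δ_w ↦ δ_{iw}` for `|w| < n` -/
def sh (n : ℕ) (i : Fin 2) : Matrix (I (n + 1)) (I (n + 1)) ℂ :=
  Matrix.of fun μ ν => elimI 0 (fun j w => if j = i ∧ emb n w = ν then 1 else 0) μ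

@[simp] theorem sh_nil (n : ℕ) (i : Fin 2) (ν : I (n + 1)) : sh n i (nil n) ν = 0 := rfl

@[simp] theorem sh_cons (n : ℕ) (i j : Fin 2) (w : I n) (ν : I (n + 1)) :
    sh n i (cons j w) ν = if j = i ∧ emb n w = ν then 1 else 0 := rfl

theorem amp_sh_nil (n : ℕ) (i : Fin 2) (T : HI H (I (n + 1))) : amp (sh n i) T (nil n) = 0 := by
  simp

theorem amp_sh_cons (n : ℕ) (i j : Fin 2) (w : I n) (T : HI H (I (n + 1))) :
    amp (sh n i) T (cons j w) = if j = i then T (emb n w) else 0 := by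
  simp only [amp_apply, sh_cons]
  by_cases h : j = i
  · simp [h]
  · simp [h]

theorem amp_shH_emb (n : ℕ) (i : Fin 2) (w : I n) (T : HI H (I (n + 1))) :
    amp (sh n i)ᴴ T (emb n w) = T (cons i w) := by
  simp only [amp_apply, Matrix.conjTranspose_apply]
  rw [sum_I]
  simp only [sh_nil, star_zero, zero_smul, zero_add, sh_cons]
  rw [Finset.sum_eq_single i]
  · rw [Finset.sum_eq_single w]
    · simp
    · intro v _ hv
      have : emb n v ≠ emb n w := fun h => hv (emb_injective n h)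
      simp [this]
    · simp
  · intro j _ hj
    simp [hj]
  · simp

theorem amp_shH_notin (n : ℕ) (i : Fin 2) (ν : I (n + 1)) (hν : ν ∉ Set.range (emb n))
    (T : HI H (I (n + 1))) : amp (sh n i)ᴴ T ν = 0 := by
  simp only [amp_apply, Matrix.conjTranspose_apply]
  rw [sum_I]
  simp only [sh_nil, star_zero, zero_smul, zero_add, sh_cons]
  refine Finset.sum_eq_zero fun j _ => Finset.sum_eq_zero fun w _ => ?_
  have : emb n w ≠ ν := fun h => hν ⟨w, h⟩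
  simp [this]

/-- sum over `I (n+1)` of a nonnegative function dominates the sum over the image of `emb` -/
theorem sum_emb_add (n : ℕ) (f : I (n + 1) → ℝ) :
    ∑ ν, f ν = ∑ w, f (emb n w) + ∑ ν ∈ (Finset.univ.filter fun ν => ν ∉ Set.range (emb n)), f ν := by
  classical
  rw [← Finset.sum_filter_add_sum_filter_not Finset.univ (fun ν => ν ∈ Set.range (emb n)) f]
  congr 1
  rw [← Finset.sum_image (f := f) (s := (Finset.univ : Finset (I n))) (g := emb n)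
    (fun x _ y _ h => emb_injective n h)]
  congr 1
  ext ν
  simp

theorem norm_amp_sh (n : ℕ) (i : Fin 2) (T : HI H (I (n + 1))) : ‖amp (sh n i) T‖ ≤ ‖T‖ := by
  refine le_of_sq_le_sq ?_ (norm_nonneg _)
  rw [norm_sq_eq, norm_sq_eq, sum_I, amp_sh_nil]
  simp only [amp_sh_cons]
  rw [Finset.sum_eq_single i]
  · simp only [if_true, norm_zero]
    rw [sum_emb_add n (fun ν => ‖T ν‖ ^ 2)]
    have : 0 ≤ ∑ ν ∈ (Finset.univ.filter fun ν => ν ∉ Set.range (emb n)), ‖T ν‖ ^ 2 :=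
      Finset.sum_nonneg fun _ _ => by positivity
    simp only [ne_eq, OfNat.ofNat_ne_zero, not_false_eq_true, zero_pow, zero_add]
    linarith
  · intro j _ hj
    simp [hj]
  · simp

theorem norm_amp_shH (n : ℕ) (i : Fin 2) (T : HI H (I (n + 1))) : ‖amp (sh n i)ᴴ T‖ ≤ ‖T‖ := by
  refine le_of_sq_le_sq ?_ (norm_nonneg _)
  rw [norm_sq_eq, norm_sq_eq, sum_emb_add n]
  simp only [amp_shH_emb]
  have h0 : ∑ ν ∈ (Finset.univ.filter fun ν => ν ∉ Set.range (emb n)), ‖amp (sh n i)ᴴ T ν‖ ^ 2 = 0 := by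
    refine Finset.sum_eq_zero fun ν hν => ?_
    rw [amp_shH_notin n i ν (by simpa using hν)]
    simp
  rw [h0, add_zero, sum_I]
  have h1 : ∑ w, ‖T (cons i w)‖ ^ 2 ≤ ∑ j, ∑ w, ‖T (cons j w)‖ ^ 2 :=
    Finset.single_le_sum (f := fun j => ∑ w, ‖T (cons j w)‖ ^ 2)
      (fun _ _ => Finset.sum_nonneg fun _ _ => by positivity) (Finset.mem_univ i)
  have h2 : 0 ≤ ‖T (nil n)‖ ^ 2 := by positivity
  linarith

/-- approximation of an operator `X` (with adjoint `Xs`) by a matrix -/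
structure Apx (ts : Fin 2 → H →L[ℂ] H) (N : ℕ) (X Xs : H →L[ℂ] H) (C ε : ℝ)
    (α : Matrix (I N) (I N) ℂ) : Prop where
  b1 : ∀ T : HI H (I N), ‖amp α T‖ ≤ C * ‖T‖
  b2 : ∀ T : HI H (I N), ‖amp αᴴ T‖ ≤ C * ‖T‖
  e1 : ∀ ξ, ‖VV ts N (X ξ) - amp α (VV ts N ξ)‖ ≤ ε * ‖ξ‖
  e2 : ∀ ξ, ‖VV ts N (Xs ξ) - amp αᴴ (VV ts N ξ)‖ ≤ ε * ‖ξ‖

theorem Apx.star {ts : Fin 2 → H →L[ℂ] H} {N : ℕ} {X Xs : H →L[ℂ] H} {C ε : ℝ}
    {α : Matrix (I N) (I N) ℂ} (h : Apx ts N X Xs C ε α) : Apx ts N Xs X C ε αᴴ :=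
  ⟨h.b2, by simpa using h.b1, h.e2, by simpa using h.e1⟩

theorem Apx.add {ts : Fin 2 → H →L[ℂ] H} {N : ℕ} {X Xs Y Ys : H →L[ℂ] H} {C D ε δ : ℝ}
    {α β : Matrix (I N) (I N) ℂ} (h : Apx ts N X Xs C ε α) (g : Apx ts N Y Ys D δ β) :
    Apx ts N (X + Y) (Xs + Ys) (C + D) (ε + δ) (α + β) := by
  refine ⟨fun T => ?_, fun T => ?_, fun ξ => ?_, fun ξ => ?_⟩
  · rw [amp_add_left, add_mul]
    exact (norm_add_le _ _).trans (add_le_add (h.b1 T) (g.b1 T))
  · rw [Matrix.conjTranspose_add, amp_add_left, add_mul]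
    exact (norm_add_le _ _).trans (add_le_add (h.b2 T) (g.b2 T))
  · rw [add_apply, VV_add, amp_add_left, add_sub_add_comm, add_mul]
    exact (norm_add_le _ _).trans (add_le_add (h.e1 ξ) (g.e1 ξ))
  · rw [add_apply, VV_add, Matrix.conjTranspose_add, amp_add_left,
      add_sub_add_comm, add_mul]
    exact (norm_add_le _ _).trans (add_le_add (h.e2 ξ) (g.e2 ξ))

theorem Apx.mul {ts : Fin 2 → H →L[ℂ] H} {N : ℕ} {X Xs Y Ys : H →L[ℂ] H} {C D ε δ A B : ℝ}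
    {α β : Matrix (I N) (I N) ℂ} (h : Apx ts N X Xs C ε α) (g : Apx ts N Y Ys D δ β)
    (hC : 0 ≤ C) (hD : 0 ≤ D) (hε : 0 ≤ ε) (hδ : 0 ≤ δ)
    (hX : ∀ ξ, ‖Xs ξ‖ ≤ A * ‖ξ‖) (hY : ∀ ξ, ‖Y ξ‖ ≤ B * ‖ξ‖) :
    Apx ts N (X * Y) (Ys * Xs) (C * D) (ε * B + C * δ + (δ * A + D * ε)) (α * β) := by
  have hA : 0 ≤ A ∨ ∀ ξ : H, ‖ξ‖ = 0 := by
    by_cases hA : 0 ≤ A
    · exact Or.inl hA
    · right
      intro ξ
      by_contra hξ
      have h0 : 0 < ‖ξ‖ := lt_of_le_of_ne (norm_nonneg _) (Ne.symm hξ)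
      have := (norm_nonneg _).trans (hX ξ)
      push Not at hA
      nlinarith
  have hB : 0 ≤ B ∨ ∀ ξ : H, ‖ξ‖ = 0 := by
    by_cases hB : 0 ≤ B
    · exact Or.inl hB
    · right
      intro ξ
      by_contra hξ
      have h0 : 0 < ‖ξ‖ := lt_of_le_of_ne (norm_nonneg _) (Ne.symm hξ)
      have := (norm_nonneg _).trans (hY ξ)
      push Not at hB
      nlinarith
  have hA' : ∀ ξ : H, 0 ≤ A * ‖ξ‖ := fun ξ => (norm_nonneg _).trans (hX ξ)
  have hB' : ∀ ξ : H, 0 ≤ B * ‖ξ‖ := fun ξ => (norm_nonneg _).trans (hY ξ)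
  refine ⟨fun T => ?_, fun T => ?_, fun ξ => ?_, fun ξ => ?_⟩
  · rw [amp_mul]
    calc ‖amp α (amp β T)‖ ≤ C * ‖amp β T‖ := h.b1 _
      _ ≤ C * (D * ‖T‖) := mul_le_mul_of_nonneg_left (g.b1 T) hC
      _ = C * D * ‖T‖ := by ring
  · rw [Matrix.conjTranspose_mul, amp_mul]
    calc ‖amp βᴴ (amp αᴴ T)‖ ≤ D * ‖amp αᴴ T‖ := g.b2 _
      _ ≤ D * (C * ‖T‖) := mul_le_mul_of_nonneg_left (h.b2 T) hD
      _ = C * D * ‖T‖ := by ring
  · rw [amp_mul]
    have e : VV ts N ((X * Y) ξ) - amp α (amp β (VV ts N ξ))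
        = (VV ts N (X (Y ξ)) - amp α (VV ts N (Y ξ)))
          + amp α (VV ts N (Y ξ) - amp β (VV ts N ξ)) := by
      rw [amp_sub]
      change VV ts N (X (Y ξ)) - _ = _
      abel
    rw [e]
    refine (norm_add_le _ _).trans ?_
    have i1 : ‖VV ts N (X (Y ξ)) - amp α (VV ts N (Y ξ))‖ ≤ ε * (B * ‖ξ‖) :=
      (h.e1 (Y ξ)).trans (mul_le_mul_of_nonneg_left (hY ξ) hε)
    have i2 : ‖amp α (VV ts N (Y ξ) - amp β (VV ts N ξ))‖ ≤ C * (δ * ‖ξ‖) :=
      (h.b1 _).trans (mul_le_mul_of_nonneg_left (g.e1 ξ) hC)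
    have i3 : 0 ≤ δ * (A * ‖ξ‖) := mul_nonneg hδ (hA' ξ)
    have i4 : 0 ≤ D * ε * ‖ξ‖ := by positivity
    calc _ ≤ ε * (B * ‖ξ‖) + C * (δ * ‖ξ‖) := add_le_add i1 i2
      _ ≤ ε * (B * ‖ξ‖) + C * (δ * ‖ξ‖) + (δ * (A * ‖ξ‖) + D * ε * ‖ξ‖) := by linarith
      _ = _ := by ring
  · rw [Matrix.conjTranspose_mul, amp_mul]
    have e : VV ts N ((Ys * Xs) ξ) - amp βᴴ (amp αᴴ (VV ts N ξ))
        = (VV ts N (Ys (Xs ξ)) - amp βᴴ (VV ts N (Xs ξ)))
          + amp βᴴ (VV ts N (Xs ξ) - amp αᴴ (VV ts N ξ)) := by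
      rw [amp_sub]
      change VV ts N (Ys (Xs ξ)) - _ = _
      abel
    rw [e]
    refine (norm_add_le _ _).trans ?_
    have i1 : ‖VV ts N (Ys (Xs ξ)) - amp βᴴ (VV ts N (Xs ξ))‖ ≤ δ * (A * ‖ξ‖) :=
      (g.e2 (Xs ξ)).trans (mul_le_mul_of_nonneg_left (hX ξ) hδ)
    have i2 : ‖amp βᴴ (VV ts N (Xs ξ) - amp αᴴ (VV ts N ξ))‖ ≤ D * (ε * ‖ξ‖) :=
      (g.b2 _).trans (mul_le_mul_of_nonneg_left (h.e2 ξ) hD)
    have i3 : 0 ≤ ε * (B * ‖ξ‖) := mul_nonneg hε (hB' ξ)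
    have i4 : 0 ≤ C * δ * ‖ξ‖ := by positivity
    calc _ ≤ δ * (A * ‖ξ‖) + D * (ε * ‖ξ‖) := add_le_add i1 i2
      _ ≤ ε * (B * ‖ξ‖) + C * δ * ‖ξ‖ + (δ * (A * ‖ξ‖) + D * (ε * ‖ξ‖)) := by linarith
      _ = _ := by ring

theorem Apx.const (ts : Fin 2 → H →L[ℂ] H) (N : ℕ) (c : ℂ) :
    Apx ts N (c • (1 : H →L[ℂ] H)) (starRingEnd ℂ c • (1 : H →L[ℂ] H)) ‖c‖ 0
      (c • (1 : Matrix (I N) (I N) ℂ)) := by
  refine ⟨fun T => ?_, fun T => ?_, fun ξ => ?_, fun ξ => ?_⟩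
  · rw [amp_smul_one, norm_smul]
  · rw [Matrix.conjTranspose_smul, Matrix.conjTranspose_one, amp_smul_one, norm_smul, norm_star]
  · rw [amp_smul_one]
    simp [VV_smul]
  · rw [Matrix.conjTranspose_smul, Matrix.conjTranspose_one, amp_smul_one]
    simp [VV_smul]

/-- enlarging the constants -/
theorem Apx.mono {ts : Fin 2 → H →L[ℂ] H} {N : ℕ} {X Xs : H →L[ℂ] H} {C ε C' ε' : ℝ}
    {α : Matrix (I N) (I N) ℂ} (h : Apx ts N X Xs C ε α) (hC : C ≤ C') (hε : ε ≤ ε') :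
    Apx ts N X Xs C' ε' α :=
  ⟨fun T => (h.b1 T).trans (mul_le_mul_of_nonneg_right hC (norm_nonneg _)),
    fun T => (h.b2 T).trans (mul_le_mul_of_nonneg_right hC (norm_nonneg _)),
    fun T => (h.e1 T).trans (mul_le_mul_of_nonneg_right hε (norm_nonneg _)),
    fun T => (h.e2 T).trans (mul_le_mul_of_nonneg_right hε (norm_nonneg _))⟩

/-- the generators -/
theorem Apx.gen (t ts : Fin 2 → H →L[ℂ] H) (h1 : ∀ ξ, ∑ i, ‖ts i ξ‖ ^ 2 = ‖ξ‖ ^ 2)
    (h2 : ∀ i j ξ, ts j (t i ξ) = if j = i then ξ else 0) (n : ℕ) (i : Fin 2) :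
    Apx ts (n + 1) (t i) (ts i) 1 ((Real.sqrt ((n + 1 : ℕ) : ℝ))⁻¹) (sh n i) := by
  have hn : (0 : ℝ) < ((n + 1 : ℕ) : ℝ) := by positivity
  have ht : ∀ ξ, ‖t i ξ‖ ^ 2 = ‖ξ‖ ^ 2 := by
    intro ξ
    rw [← h1 (t i ξ)]
    rw [Finset.sum_eq_single i]
    · rw [h2]; simp
    · intro j _ hj
      rw [h2]; simp [hj]
    · simp
  have hts : ∀ ξ, ‖ts i ξ‖ ^ 2 ≤ ‖ξ‖ ^ 2 := by
    intro ξ
    rw [← h1 ξ]
    exact Finset.single_le_sum (f := fun j => ‖ts j ξ‖ ^ 2) (fun _ _ => by positivity)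
      (Finset.mem_univ i)
  have key : ∀ (D : HI H (I (n + 1))) (ξ : H),
      ‖D‖ ^ 2 ≤ ((n + 1 : ℕ) : ℝ)⁻¹ * ‖ξ‖ ^ 2 →
      ‖D‖ ≤ (Real.sqrt ((n + 1 : ℕ) : ℝ))⁻¹ * ‖ξ‖ := by
    intro D ξ h
    refine le_of_sq_le_sq ?_ (by positivity)
    rw [mul_pow, inv_pow, Real.sq_sqrt hn.le]
    exact h
  refine ⟨fun T => ?_, fun T => ?_, fun ξ => ?_, fun ξ => ?_⟩
  · rw [one_mul]; exact norm_amp_sh n i T
  · rw [one_mul]; exact norm_amp_shH n i T
  · apply key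
    rw [norm_sq_eq, sum_I]
    have z : ∀ j w, (VV ts (n + 1) (t i ξ) - amp (sh n i) (VV ts (n + 1) ξ)) (cons j w) = 0 := by
      intro j w
      rw [PiLp.sub_apply, amp_sh_cons, VV_apply, VV_apply, W_cons, W_emb,
        ContinuousLinearMap.comp_apply, h2]
      by_cases hj : j = i
      · simp [hj]
      · simp [hj]
    simp only [z, norm_zero]
    rw [PiLp.sub_apply, amp_sh_nil, VV_apply, W_nil, sub_zero, norm_smul, mul_pow,
      Complex.norm_real, norm_inv, Real.norm_eq_abs, inv_pow, sq_abs, Real.sq_sqrt hn.le,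
      one_apply_eq_self, ht]
    simp
  · apply key
    rw [norm_sq_eq, sum_emb_add]
    have z : ∀ w, (VV ts (n + 1) (ts i ξ) - amp (sh n i)ᴴ (VV ts (n + 1) ξ)) (emb n w) = 0 := by
      intro w
      rw [PiLp.sub_apply, amp_shH_emb, VV_apply, VV_apply, W_cons, W_emb,
        ContinuousLinearMap.comp_apply, sub_self]
    simp only [z, norm_zero, ne_eq, OfNat.ofNat_ne_zero, not_false_eq_true, zero_pow,
      Finset.sum_const_zero, zero_add]
    have z2 : ∀ ν ∈ (Finset.univ.filter fun ν => ν ∉ Set.range (emb n)),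
        ‖(VV ts (n + 1) (ts i ξ) - amp (sh n i)ᴴ (VV ts (n + 1) ξ)) ν‖ ^ 2
          = ((n + 1 : ℕ) : ℝ)⁻¹ * ‖W ts (n + 1) ν (ts i ξ)‖ ^ 2 := by
      intro ν hν
      rw [PiLp.sub_apply, amp_shH_notin n i ν (by simpa using hν), sub_zero, VV_apply, norm_smul,
        mul_pow, Complex.norm_real, norm_inv, Real.norm_eq_abs, inv_pow, sq_abs,
        Real.sq_sqrt hn.le]
    rw [Finset.sum_congr rfl z2, ← Finset.mul_sum]
    refine mul_le_mul_of_nonneg_left ?_ (by positivity)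
    have s1 := sum_emb_add n (fun ν => ‖W ts (n + 1) ν (ts i ξ)‖ ^ 2)
    simp only [W_emb] at s1
    rw [sum_W ts h1, sum_W ts h1] at s1
    push_cast at s1
    have := hts ξ
    linarith

end ops

/-- approximable elements -/
def Good {O : Type} [CStarAlgebra O] {H : Type} [NormedAddCommGroup H] [InnerProductSpace ℂ H]
    [CompleteSpace H] (π : O →⋆ₐ[ℂ] (H →L[ℂ] H)) (ts : Fin 2 → H →L[ℂ] H) (x : O) : Prop :=
  ∃ C : ℝ, 0 ≤ C ∧ ∀ ε : ℝ, 0 < ε → ∃ N₀ : ℕ, ∀ N, N₀ ≤ N → 0 < N →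
    ∃ α : Matrix (I N) (I N) ℂ, Apx ts N (π x) (π (star x)) C ε α

theorem norm_map_le {O : Type} [CStarAlgebra O] {H : Type} [NormedAddCommGroup H]
    [InnerProductSpace ℂ H] [CompleteSpace H] (π : O →⋆ₐ[ℂ] (H →L[ℂ] H)) (x : O) (ξ : H) :
    ‖π x ξ‖ ≤ ‖x‖ * ‖ξ‖ := by
  refine (ContinuousLinearMap.le_opNorm _ _).trans (mul_le_mul_of_nonneg_right ?_ (norm_nonneg _))
  exact NonUnitalStarAlgHom.norm_apply_le π x

theorem good_adjoin {O : Type} [CStarAlgebra O] {H : Type} [NormedAddCommGroup H]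
    [InnerProductSpace ℂ H] [CompleteSpace H] (π : O →⋆ₐ[ℂ] (H →L[ℂ] H)) (s₁ s₂ : O)
    (ts : Fin 2 → H →L[ℂ] H) (hg1 : Good π ts s₁) (hg2 : Good π ts s₂) (x : O)
    (hx : x ∈ StarAlgebra.adjoin ℂ ({s₁, s₂} : Set O)) : Good π ts x := by
  induction hx using StarAlgebra.adjoin_induction with
  | mem x hx =>
    rcases hx with rfl | rfl
    · exact hg1
    · exact hg2
  | algebraMap r =>
    refine ⟨‖r‖, norm_nonneg _, fun ε hε => ⟨0, fun N _ _ => ⟨r • 1, ?_⟩⟩⟩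
    have h1 : π (algebraMap ℂ O r) = r • (1 : H →L[ℂ] H) := by
      rw [Algebra.algebraMap_eq_smul_one, map_smul, map_one]
    have h2 : π (star (algebraMap ℂ O r)) = starRingEnd ℂ r • (1 : H →L[ℂ] H) := by
      rw [Algebra.algebraMap_eq_smul_one, star_smul, map_smul, star_one, map_one]
      rfl
    rw [h1, h2]
    exact (Apx.const ts N r).mono le_rfl hε.le
  | add x y _ _ hx hy =>
    obtain ⟨C, hC, hx⟩ := hx
    obtain ⟨D, hD, hy⟩ := hy
    refine ⟨C + D, by positivity, fun ε hε => ?_⟩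
    obtain ⟨N₁, h₁⟩ := hx (ε / 2) (by positivity)
    obtain ⟨N₂, h₂⟩ := hy (ε / 2) (by positivity)
    refine ⟨max N₁ N₂, fun N hN hN0 => ?_⟩
    obtain ⟨α, hα⟩ := h₁ N ((le_max_left _ _).trans hN) hN0
    obtain ⟨β, hβ⟩ := h₂ N ((le_max_right _ _).trans hN) hN0
    refine ⟨α + β, ?_⟩
    have := (hα.add hβ).mono le_rfl (le_of_eq (add_halves ε))
    rwa [← map_add, ← map_add, ← star_add] at this
  | mul x y _ _ hx hy =>
    obtain ⟨C, hC, hx⟩ := hx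
    obtain ⟨D, hD, hy⟩ := hy
    refine ⟨C * D, by positivity, fun ε hε => ?_⟩
    set K : ℝ := ‖y‖ + C + ‖star x‖ + D + 1 with hK
    have hK0 : 0 < K := by positivity
    obtain ⟨N₁, h₁⟩ := hx (ε / K) (by positivity)
    obtain ⟨N₂, h₂⟩ := hy (ε / K) (by positivity)
    refine ⟨max N₁ N₂, fun N hN hN0 => ?_⟩
    obtain ⟨α, hα⟩ := h₁ N ((le_max_left _ _).trans hN) hN0
    obtain ⟨β, hβ⟩ := h₂ N ((le_max_right _ _).trans hN) hN0
    refine ⟨α * β, ?_⟩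
    have h := Apx.mul hα hβ hC hD (by positivity) (by positivity)
      (fun ξ => norm_map_le π (star x) ξ) (fun ξ => norm_map_le π y ξ)
    have h' := h.mono (C' := C * D) (ε' := ε) le_rfl (by
      have : ε / K * ‖y‖ + C * (ε / K) + (ε / K * ‖star x‖ + D * (ε / K)) = ε * ((K - 1) / K) := by
        rw [hK]; ring
      rw [this]
      have : (K - 1) / K ≤ 1 := by rw [div_le_one hK0]; linarith
      nlinarith)
    rwa [← map_mul, ← map_mul, ← star_mul] at h'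
  | star x _ hx =>
    obtain ⟨C, hC, hx⟩ := hx
    refine ⟨C, hC, fun ε hε => ?_⟩
    obtain ⟨N₁, h₁⟩ := hx ε hε
    refine ⟨N₁, fun N hN hN0 => ?_⟩
    obtain ⟨α, hα⟩ := h₁ N hN hN0
    refine ⟨αᴴ, ?_⟩
    rw [star_star]
    exact hα.star

theorem good_gen {O : Type} [CStarAlgebra O] {H : Type} [NormedAddCommGroup H]
    [InnerProductSpace ℂ H] [CompleteSpace H] (π : O →⋆ₐ[ℂ] (H →L[ℂ] H)) (s : Fin 2 → O)
    (h1 : ∀ ξ : H, ∑ i, ‖π (star (s i)) ξ‖ ^ 2 = ‖ξ‖ ^ 2)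
    (h2 : ∀ (i j) (ξ : H), π (star (s j)) (π (s i) ξ) = if j = i then ξ else 0) (i : Fin 2) :
    Good π (fun i => π (star (s i))) (s i) := by
  refine ⟨1, zero_le_one, fun ε hε => ?_⟩
  obtain ⟨N₀, hN₀⟩ := exists_nat_gt ((ε⁻¹) ^ 2)
  refine ⟨N₀, fun N hN hN0 => ?_⟩
  obtain ⟨n, rfl⟩ := Nat.exists_eq_succ_of_ne_zero hN0.ne'
  refine ⟨sh n i, (Apx.gen (fun i => π (s i)) (fun i => π (star (s i))) h1 h2 n i).mono le_rfl ?_⟩
  have h : (ε⁻¹) ^ 2 ≤ ((n + 1 : ℕ) : ℝ) := by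
    have : (N₀ : ℝ) ≤ ((n + 1 : ℕ) : ℝ) := by exact_mod_cast hN
    linarith
  have h' : ε⁻¹ ≤ Real.sqrt ((n + 1 : ℕ) : ℝ) := Real.le_sqrt_of_sq_le h
  exact inv_le_of_inv_le₀ hε h'

theorem cuntz_zero {O : Type} [CStarAlgebra O] (s₁ s₂ : O) (a1 : star s₁ * s₁ = 1)
    (a2 : star s₂ * s₂ = 1) (a3 : s₁ * star s₁ + s₂ * star s₂ = 1) : star s₁ * s₂ = 0 := by
  have h : star s₁ * (s₁ * star s₁ + s₂ * star s₂) * s₂ = star s₁ * s₂ := by rw [a3, mul_one]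
  have h' : star s₁ * (s₁ * star s₁ + s₂ * star s₂) * s₂
      = (star s₁ * s₁) * (star s₁ * s₂) + (star s₁ * s₂) * (star s₂ * s₂) := by noncomm_ring
  rw [h', a1, a2, one_mul, mul_one] at h
  exact add_eq_left.1 h

end

end Crest.Agent.R073.Cuntz

namespace Crest.Agent.R073

open scoped Matrix ComplexConjugate
open Cuntz

/-- module M3 -/
theorem stmtCuntz : StmtCuntz := by
  classical
  intro O _ s₁ s₂ a1 a2 a3 hden H _ _ _ π x η hη
  set s : Fin 2 → O := ![s₁, s₂] with hs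
  set ts : Fin 2 → H →L[ℂ] H := fun i => π (star (s i)) with hts
  have hadj : ∀ y : O, π (star y) = ContinuousLinearMap.adjoint (π y) := by
    intro y
    rw [map_star]
    rfl
  have h1 : ∀ ξ : H, ∑ i, ‖π (star (s i)) ξ‖ ^ 2 = ‖ξ‖ ^ 2 := by
    intro ξ
    have e : ∀ y : O, ‖π (star y) ξ‖ ^ 2 = (inner ℂ ξ (π (y * star y) ξ)).re := by
      intro y
      rw [map_mul, mul_apply_eq_comp, hadj y, ← ContinuousLinearMap.adjoint_inner_left]
      rw [inner_self_eq_norm_sq_to_K]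
      norm_cast
    rw [Fin.sum_univ_two]
    simp only [hs, Matrix.cons_val_zero, Matrix.cons_val_one]
    rw [e, e, ← Complex.add_re, ← inner_add_right, ← add_apply, ← map_add, a3, map_one]
    rw [one_apply_eq_self, inner_self_eq_norm_sq_to_K]
    norm_cast
  have z12 := cuntz_zero s₁ s₂ a1 a2 a3
  have z21 : star s₂ * s₁ = 0 := by
    have := congrArg star z12
    simpa using this
  have h2 : ∀ (i j) (ξ : H), π (star (s j)) (π (s i) ξ) = if j = i then ξ else 0 := by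
    intro i j ξ
    rw [← mul_apply_eq_comp, ← map_mul]
    fin_cases i <;> fin_cases j <;> simp [hs, a1, a2, z12, z21]
  have hg : ∀ i, Good π ts (s i) := good_gen π s h1 h2
  have hgood : ∀ y ∈ StarAlgebra.adjoin ℂ ({s₁, s₂} : Set O), Good π ts y :=
    good_adjoin π s₁ s₂ ts (hg 0) (hg 1)
  -- approximation by elements of the *-algebra
  set B : ℝ := ∑ i, ‖x i‖ with hB
  have hB0 : 0 ≤ B := Finset.sum_nonneg fun _ _ => norm_nonneg _
  have hxB : ∀ i, ‖x i‖ ≤ B := fun i =>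
    Finset.single_le_sum (f := fun i => ‖x i‖) (fun _ _ => norm_nonneg _) (Finset.mem_univ i)
  set ε₁ : ℝ := min 1 (η / (2 * (2 * B + 2))) with hε₁
  have hε₁0 : 0 < ε₁ := lt_min one_pos (by positivity)
  have hap : ∀ i, ∃ y ∈ StarAlgebra.adjoin ℂ ({s₁, s₂} : Set O), ‖x i - y‖ ≤ ε₁ := by
    intro i
    have hi : x i ∈ (StarAlgebra.adjoin ℂ ({s₁, s₂} : Set O)).topologicalClosure := by
      rw [hden]; trivial
    have hi' : x i ∈ closure ((StarAlgebra.adjoin ℂ ({s₁, s₂} : Set O) : StarSubalgebra ℂ O) : Set O) := by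
      rw [← StarSubalgebra.topologicalClosure_coe]
      exact hi
    obtain ⟨y, hy, hd⟩ := Metric.mem_closure_iff.1 hi' ε₁ hε₁0
    exact ⟨y, hy, by rw [← dist_eq_norm]; exact hd.le⟩
  choose y hy hxy using hap
  have hG : ∀ i, Good π ts (y i) := fun i => hgood _ (hy i)
  choose C hC hG using hG
  set D : ℝ := ∑ i, C i with hD
  have hD0 : 0 ≤ D := Finset.sum_nonneg fun _ _ => hC _
  have hCD : ∀ i, C i ≤ D := fun i =>
    Finset.single_le_sum (f := C) (fun _ _ => hC _) (Finset.mem_univ i)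
  set ε₂ : ℝ := η / (2 * (B + 2 + D)) with hε₂
  have hε₂0 : 0 < ε₂ := by positivity
  choose N₀ hN₀ using fun i => hG i ε₂ hε₂0
  set N : ℕ := (∑ i, N₀ i) + 1 with hN
  have hN0 : 0 < N := Nat.succ_pos _
  have hNi : ∀ i, N₀ i ≤ N := fun i =>
    (Finset.single_le_sum (f := N₀) (fun _ _ => Nat.zero_le _) (Finset.mem_univ i)).trans
      (Nat.le_succ _)
  choose α hα using fun i => hN₀ i N (hNi i) hN0
  have hyB : ∀ i, ‖y i‖ ≤ B + 1 := by
    intro i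
    have : ‖y i‖ ≤ ‖x i‖ + ‖x i - y i‖ := by
      have := norm_sub_le (x i) (x i - y i)
      simpa using this
    have h3 : ε₁ ≤ 1 := min_le_left _ _
    linarith [hxB i, hxy i]
  have hVV := VV_norm ts h1 N hN0
  -- the two estimates
  have E1 : ∀ i ξ, ‖VV ts N (π (x i) ξ) - amp (α i) (VV ts N ξ)‖ ≤ η * ‖ξ‖ := by
    intro i ξ
    have e : VV ts N (π (x i) ξ) - amp (α i) (VV ts N ξ)
        = VV ts N (π (x i - y i) ξ) + (VV ts N (π (y i) ξ) - amp (α i) (VV ts N ξ)) := by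
      rw [map_sub, sub_apply, VV_sub]
      abel
    rw [e]
    have b1 : ‖VV ts N (π (x i - y i) ξ)‖ ≤ ε₁ * ‖ξ‖ := by
      rw [hVV]
      exact (norm_map_le π _ ξ).trans (mul_le_mul_of_nonneg_right (hxy i) (norm_nonneg _))
    have b2 := (hα i).e1 ξ
    have c1 : ε₁ ≤ η / 2 := by
      refine (min_le_right _ _).trans ?_
      rw [div_le_div_iff₀ (by positivity) (by norm_num)]
      nlinarith
    have c2 : ε₂ ≤ η / 2 := by
      rw [hε₂, div_le_div_iff₀ (by positivity) (by norm_num)]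
      nlinarith
    calc _ ≤ ε₁ * ‖ξ‖ + ε₂ * ‖ξ‖ := (norm_add_le _ _).trans (add_le_add b1 b2)
      _ = (ε₁ + ε₂) * ‖ξ‖ := by ring
      _ ≤ η * ‖ξ‖ := mul_le_mul_of_nonneg_right (by linarith) (norm_nonneg _)
  have E2 : ∀ i ξ, ‖VV ts N (π (star (x i) * x i) ξ) - amp ((α i)ᴴ * α i) (VV ts N ξ)‖
      ≤ η * ‖ξ‖ := by
    intro i ξ
    have e : VV ts N (π (star (x i) * x i) ξ) - amp ((α i)ᴴ * α i) (VV ts N ξ)
        = VV ts N (π (star (x i) * x i - star (y i) * y i) ξ)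
          + (VV ts N (π (star (y i)) (π (y i) ξ)) - amp (α i)ᴴ (VV ts N (π (y i) ξ)))
          + amp (α i)ᴴ (VV ts N (π (y i) ξ) - amp (α i) (VV ts N ξ)) := by
      rw [map_sub, sub_apply, VV_sub, amp_sub, amp_mul,
        map_mul π (star (y i)), mul_apply_eq_comp]
      abel
    rw [e]
    have b0 : ‖star (x i) * x i - star (y i) * y i‖ ≤ ε₁ * (2 * B + 1) := by
      have e' : star (x i) * x i - star (y i) * y i
          = star (x i) * (x i - y i) + star (x i - y i) * y i := by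
        rw [star_sub]; noncomm_ring
      rw [e']
      refine (norm_add_le _ _).trans ?_
      have u1 : ‖star (x i) * (x i - y i)‖ ≤ B * ε₁ := by
        refine (norm_mul_le _ _).trans ?_
        rw [norm_star]
        exact mul_le_mul (hxB i) (hxy i) (norm_nonneg _) hB0
      have u2 : ‖star (x i - y i) * y i‖ ≤ ε₁ * (B + 1) := by
        refine (norm_mul_le _ _).trans ?_
        rw [norm_star]
        exact mul_le_mul (hxy i) (hyB i) (norm_nonneg _) hε₁0.le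
      linarith
    have b1 : ‖VV ts N (π (star (x i) * x i - star (y i) * y i) ξ)‖ ≤ ε₁ * (2 * B + 1) * ‖ξ‖ := by
      rw [hVV]
      exact (norm_map_le π _ ξ).trans (mul_le_mul_of_nonneg_right b0 (norm_nonneg _))
    have b2 : ‖VV ts N (π (star (y i)) (π (y i) ξ)) - amp (α i)ᴴ (VV ts N (π (y i) ξ))‖
        ≤ ε₂ * ((B + 1) * ‖ξ‖) := by
      refine ((hα i).e2 _).trans (mul_le_mul_of_nonneg_left ?_ hε₂0.le)
      exact (norm_map_le π _ ξ).trans (mul_le_mul_of_nonneg_right (hyB i) (norm_nonneg _))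
    have b3 : ‖amp (α i)ᴴ (VV ts N (π (y i) ξ) - amp (α i) (VV ts N ξ))‖ ≤ D * (ε₂ * ‖ξ‖) := by
      refine ((hα i).b2 _).trans ?_
      exact mul_le_mul (hCD i) ((hα i).e1 ξ) (norm_nonneg _) hD0
    have c1 : ε₁ * (2 * B + 1) ≤ η / 2 := by
      have : ε₁ ≤ η / (2 * (2 * B + 2)) := min_le_right _ _
      calc ε₁ * (2 * B + 1) ≤ η / (2 * (2 * B + 2)) * (2 * B + 2) :=
            mul_le_mul this (by linarith) (by positivity) (by positivity)
        _ = η / 2 := by field_simp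
    have c2 : ε₂ * (B + 1) + D * ε₂ ≤ η / 2 := by
      have : ε₂ * (B + 2 + D) = η / 2 := by rw [hε₂]; field_simp
      nlinarith
    calc _ ≤ ε₁ * (2 * B + 1) * ‖ξ‖ + ε₂ * ((B + 1) * ‖ξ‖) + D * (ε₂ * ‖ξ‖) :=
          (norm_add_le _ _).trans (add_le_add ((norm_add_le _ _).trans (add_le_add b1 b2)) b3)
      _ = (ε₁ * (2 * B + 1) + (ε₂ * (B + 1) + D * ε₂)) * ‖ξ‖ := by ring
      _ ≤ η * ‖ξ‖ := mul_le_mul_of_nonneg_right (by linarith) (norm_nonneg _)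
  -- reindexing
  set e : I N ≃ Fin (Fintype.card (I N)) := Fintype.equivFin (I N) with he
  refine ⟨Fintype.card (I N), fun i => (((Real.sqrt N)⁻¹ : ℝ) : ℂ) • W ts N (e.symm i),
    fun i => (α i).submatrix e.symm e.symm, ?_, ?_, ?_⟩
  · intro ξ
    have := VV_norm_sq ts h1 N hN0 ξ
    rw [norm_sq_eq] at this
    rw [← this, ← e.symm.sum_comp]
    rfl
  · intro i ξ
    have h3 := pow_le_pow_left₀ (norm_nonneg _) (E1 i ξ) 2
    rw [norm_sq_eq, mul_pow] at h3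
    refine le_trans (le_of_eq ?_) h3
    rw [← e.symm.sum_comp]
    refine Finset.sum_congr rfl fun a _ => ?_
    rw [PiLp.sub_apply, amp_apply, ← e.symm.sum_comp]
    rfl
  · intro i ξ
    have h3 := pow_le_pow_left₀ (norm_nonneg _) (E2 i ξ) 2
    rw [norm_sq_eq, mul_pow] at h3
    refine le_trans (le_of_eq ?_) h3
    rw [← e.symm.sum_comp]
    refine Finset.sum_congr rfl fun a _ => ?_
    rw [PiLp.sub_apply, amp_apply, ← e.symm.sum_comp, Matrix.conjTranspose_submatrix,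
      Matrix.submatrix_mul_equiv]
    rfl

end Crest.Agent.R073
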