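import Mathlib

/-!
Row 73 (S0098): definitions shared by all modules.  See the blueprint note (rid 73).
-/

set_option autoImplicit false

namespace Crest.Agent.R073

open scoped Matrix ComplexConjugate

noncomputable section

/-- letters `F_p^3` -/
abbrev V3 (p : ℕ) : Type := Fin 3 → ZMod p

/-- `Y p n`: words of `n` letters, the index set of the representation `σ_n`. -/
def Y (p : ℕ) : ℕ → Type
  | 0 => Unit
  | n + 1 => V3 p × Y p n

instance instFintypeY (p : ℕ) [Fact p.Prime] : ∀ n, Fintype (Y p n)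
  | 0 => inferInstanceAs (Fintype Unit)
  | n + 1 => by
      haveI := instFintypeY p n
      exact inferInstanceAs (Fintype (V3 p × Y p n))

instance instDecidableEqY (p : ℕ) : ∀ n, DecidableEq (Y p n)
  | 0 => inferInstanceAs (DecidableEq Unit)
  | n + 1 => by
      haveI := instDecidableEqY p n
      exact inferInstanceAs (DecidableEq (V3 p × Y p n))

instance instNonemptyY (p : ℕ) : ∀ n, Nonempty (Y p n)
  | 0 => inferInstanceAs (Nonempty Unit)
  | n + 1 => by
      have := instNonemptyY p n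
      exact inferInstanceAs (Nonempty (V3 p × Y p n))

/-- first letter; the empty word is continued by the fixed letter `(0,0,1)`. -/
def hd {p : ℕ} : ∀ {n : ℕ}, Y p n → V3 p
  | 0, _ => ![0, 0, 1]
  | _ + 1, y => y.1

/-- action of `a = e_12(1)` on `F_p^3` (primal) -/
def e12 {p : ℕ} (m : V3 p) : V3 p := ![m 0 + m 1, m 1, m 2]
/-- action of `b = e_23(1)` on `F_p^3` (primal) -/
def e23 {p : ℕ} (m : V3 p) : V3 p := ![m 0, m 1 + m 2, m 2]

/-- dual action of `a` on letters -/
def letA (p : ℕ) : Equiv.Perm (V3 p) where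
  toFun q := ![q 0, q 1 - q 0, q 2]
  invFun q := ![q 0, q 1 + q 0, q 2]
  left_inv q := by funext i; fin_cases i <;> simp
  right_inv q := by funext i; fin_cases i <;> simp

/-- dual action of `b` on letters -/
def letB (p : ℕ) : Equiv.Perm (V3 p) where
  toFun q := ![q 0, q 1, q 2 - q 1]
  invFun q := ![q 0, q 1, q 2 + q 1]
  left_inv q := by funext i; fin_cases i <;> simp
  right_inv q := by funext i; fin_cases i <;> simp

/-- subtract `r` from the first coordinate -/
def letC (p : ℕ) (r : ZMod p) : Equiv.Perm (V3 p) where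
  toFun q := ![q 0 - r, q 1, q 2]
  invFun q := ![q 0 + r, q 1, q 2]
  left_inv q := by funext i; fin_cases i <;> simp
  right_inv q := by funext i; fin_cases i <;> simp

/-- action of `a` on words: letterwise -/
def permA (p : ℕ) : ∀ n, Equiv.Perm (Y p n)
  | 0 => Equiv.refl Unit
  | n + 1 => (Equiv.prodCongr (letA p) (permA p n) : V3 p × Y p n ≃ V3 p × Y p n)

/-- action of `b` on words: letterwise -/
def permB (p : ℕ) : ∀ n, Equiv.Perm (Y p n)
  | 0 => Equiv.refl Unit
  | n + 1 => (Equiv.prodCongr (letB p) (permB p n) : V3 p × Y p n ≃ V3 p × Y p n)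

/-- action of `c` on words: the first coordinate of each letter is decreased by the third
coordinate of the next letter (the last letter is followed by `(0,0,1)`). -/
def permC (p : ℕ) : ∀ n, Equiv.Perm (Y p n)
  | 0 => Equiv.refl Unit
  | n + 1 =>
    ({ toFun := fun y => (letC p (hd y.2 2) y.1, permC p n y.2)
       invFun := fun y => ((letC p (hd ((permC p n).symm y.2) 2)).symm y.1, (permC p n).symm y.2)
       left_inv := fun y => by ext1 <;> simp
       right_inv := fun y => by ext1 <;> simp } : V3 p × Y p n ≃ V3 p × Y p n)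

/-- monomial matrix: `δ_y ↦ lam y • δ_{σ y}` -/
def monoM {ι : Type} [DecidableEq ι] (σ : Equiv.Perm ι) (lam : ι → ℂ) : Matrix ι ι ℂ :=
  Matrix.of fun i j => if i = σ j then lam j else 0

theorem monoM_mem {ι : Type} [Fintype ι] [DecidableEq ι] (σ : Equiv.Perm ι) (lam : ι → ℂ)
    (h : ∀ i, ‖lam i‖ = 1) : monoM σ lam ∈ Matrix.unitaryGroup ι ℂ := by
  rw [Matrix.mem_unitaryGroup_iff']
  ext i j
  rw [Matrix.mul_apply, Matrix.one_apply]
  simp only [Matrix.star_apply, monoM, Matrix.of_apply]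
  rw [Finset.sum_eq_single (σ j)]
  · by_cases hij : i = j
    · subst hij
      simp only [if_true]
      have := Complex.mul_conj (lam i)
      rw [mul_comm] at this
      rw [Complex.star_def, this, Complex.normSq_eq_norm_sq, h]
      simp
    · have : σ j ≠ σ i := fun e => hij (σ.injective e).symm
      simp [hij, this]
  · intro k _ hk
    simp [hk]
  · simp

/-- the additive character `j ↦ exp(2 π i j / p)` -/
def psi (p : ℕ) [Fact p.Prime] (j : ZMod p) : ℂ := ZMod.stdAddChar j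

theorem norm_psi (p : ℕ) [Fact p.Prime] (j : ZMod p) : ‖psi p j‖ = 1 := by
  unfold psi
  rw [ZMod.stdAddChar_apply]
  exact Circle.norm_coe _

/-- the four unitary matrices `σ_n(a), σ_n(b), σ_n(c), σ_n(d)` -/
def sigmaU (p : ℕ) [Fact p.Prime] (n : ℕ) : Fin 4 → Matrix.unitaryGroup (Y p n) ℂ :=
  ![⟨monoM (permA p n) (fun _ => 1), monoM_mem _ _ (fun _ => by simp)⟩,
    ⟨monoM (permB p n) (fun _ => 1), monoM_mem _ _ (fun _ => by simp)⟩,
    ⟨monoM (permC p n) (fun _ => 1), monoM_mem _ _ (fun _ => by simp)⟩,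
    ⟨monoM (Equiv.refl _) (fun y => psi p (hd y 2)), monoM_mem _ _ (fun _ => norm_psi p _)⟩]

/-- commutator `x y x⁻¹ y⁻¹` -/
def cm {G : Type} [Group G] (x y : G) : G := x * y * x⁻¹ * y⁻¹

/-- local relations between four elements: orders divide `p`; the pairs `(0,1), (1,2), (2,0), (1,3)`
generate Heisenberg groups; the pairs `(0,3), (2,3)` commute. -/
structure PairRel (p : ℕ) {G : Type} [Group G] (x : Fin 4 → G) : Prop where
  pow : ∀ i, x i ^ p = 1
  h01 : Commute (cm (x 0) (x 1)) (x 0) ∧ Commute (cm (x 0) (x 1)) (x 1)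
  h12 : Commute (cm (x 1) (x 2)) (x 1) ∧ Commute (cm (x 1) (x 2)) (x 2)
  h20 : Commute (cm (x 2) (x 0)) (x 2) ∧ Commute (cm (x 2) (x 0)) (x 0)
  h13 : Commute (cm (x 1) (x 3)) (x 1) ∧ Commute (cm (x 1) (x 3)) (x 3)
  c03 : Commute (x 0) (x 3)
  c23 : Commute (x 2) (x 3)

/-- products of at most `m` powers of the four elements -/
def Wd {G : Type} [Group G] (x : Fin 4 → G) (m : ℕ) : Set G :=
  {g | ∃ l : List (Fin 4 × ℕ), l.length ≤ m ∧ (l.map fun q => x q.1 ^ q.2).prod = g}

/-- `v` is, on the window `F`, a `δ`-almost representation by (almost unitary) operators. -/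
structure AlmostRep {G : Type} [Group G] {L : Type} [NormedAddCommGroup L]
    [InnerProductSpace ℂ L] [CompleteSpace L] (v : G → L →L[ℂ] L) (F : Set G) (δ : ℝ) : Prop where
  mul : ∀ g ∈ F, ∀ h ∈ F, ‖v g ∘L v h - v (g * h)‖ ≤ δ
  star : ∀ g ∈ F, ‖ContinuousLinearMap.adjoint (v g) - v g⁻¹‖ ≤ δ
  one : ‖v 1 - 1‖ ≤ δ
  norm : ∀ g ∈ F, ‖v g‖ ≤ 1 + δ

/-- the group data used by the proof -/
structure KGroup (p : ℕ) (G : Type) [Group G] where
  a : G
  b : G
  c : G
  t : G
  D : Multiplicative (V3 p) →* G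
  a_pow : a ^ p = 1
  b_pow : b ^ p = 1
  c_pow : c ^ p = 1
  hab : Commute (cm a b) a ∧ Commute (cm a b) b
  hbc : Commute (cm b c) b ∧ Commute (cm b c) c
  hca : Commute (cm c a) c ∧ Commute (cm c a) a
  aD : ∀ m : V3 p, a * D (Multiplicative.ofAdd m) = D (Multiplicative.ofAdd (e12 m)) * a
  bD : ∀ m : V3 p, b * D (Multiplicative.ofAdd m) = D (Multiplicative.ofAdd (e23 m)) * b
  cDt : ∀ m : V3 p, c * D (Multiplicative.ofAdd m) * t
    = D (Multiplicative.ofAdd m) * t * D (Multiplicative.ofAdd ![0, 0, m 0]) * c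
  ta : t * a = a * t
  tb : t * b = b * t
  tc : t * c = c * t

/-- `a, b, c, d = D(0,0,1)` -/
def KGroup.gen {p : ℕ} {G : Type} [Group G] (K : KGroup p G) : Fin 4 → G :=
  ![K.a, K.b, K.c, K.D (Multiplicative.ofAdd ![0, 0, 1])]

/-- the operator `E ⊗ conj U` on `H ⊗ ℂ^ι = (ι → H)` (with the `ℓ²` norm): seen as maps
`T : ℂ^ι → H`, it is `T ↦ E ∘ T ∘ U⁻¹`. -/
def tens {H : Type} [NormedAddCommGroup H] [InnerProductSpace ℂ H] {ι : Type} [Fintype ι]
    (E : H →L[ℂ] H) (U : Matrix ι ι ℂ) :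
    PiLp 2 (fun _ : ι => H) →L[ℂ] PiLp 2 (fun _ : ι => H) :=
  (PiLp.continuousLinearEquiv 2 ℂ (fun _ : ι => H)).symm.toContinuousLinearMap ∘L
    (ContinuousLinearMap.pi fun i => ∑ j, conj (U i j) • (E ∘L ContinuousLinearMap.proj j)) ∘L
    (PiLp.continuousLinearEquiv 2 ℂ (fun _ : ι => H)).toContinuousLinearMap

theorem tens_apply {H : Type} [NormedAddCommGroup H] [InnerProductSpace ℂ H] {ι : Type} [Fintype ι]
    (E : H →L[ℂ] H) (U : Matrix ι ι ℂ) (T : PiLp 2 (fun _ : ι => H)) (i : ι) :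
    tens E U T i = ∑ j, conj (U i j) • E (T j) := by
  simp [tens]

/-- squared Frobenius norm -/
def frob {m n : Type} [Fintype m] [Fintype n] (X : Matrix m n ℂ) : ℝ := ∑ i, ∑ j, ‖X i j‖ ^ 2

end

end Crest.Agent.R073
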