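import Crest.Agent.R073.PermRep

/-!
Row 73 (S0098), module M8b: the eigenvector in `ℓ²(G/K)` (abstract version).
-/

set_option autoImplicit false

namespace Crest.Agent.R073.PermRep

open scoped ENNReal ComplexConjugate
open Crest.AnalysisR.CStarEmbedding

noncomputable section

variable {p : ℕ} [Fact p.Prime] {G : Type} [Group G]

/-- `∑_j conj ψ(j) δ_{d^j K}` -/
def eigVec (K : Subgroup G) (d : Multiplicative (ZMod p) →* G) : L2 (G ⧸ K) :=
  ∑ j : ZMod p, conj (psi p j) • dl (QuotientGroup.mk (d (Multiplicative.ofAdd j)) : G ⧸ K)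

theorem psi_add (i j : ZMod p) : psi p (i + j) = psi p i * psi p j := by
  simp [psi, AddChar.map_add_eq_mul]

theorem psi_zero : psi p 0 = 1 := by simp [psi]

theorem psi_conj_mul (j : ZMod p) : conj (psi p j) * psi p j = 1 := by
  rw [mul_comm, Complex.mul_conj, Complex.normSq_eq_norm_sq, norm_psi]
  simp

theorem eigVec_ne_zero (K : Subgroup G) (d : Multiplicative (ZMod p) →* G)
    (hd : ∀ j : ZMod p, d (Multiplicative.ofAdd j) ∈ K → j = 0) : eigVec K d ≠ 0 := by
  intro h
  have h1 : (eigVec K d : L2 (G ⧸ K)) (QuotientGroup.mk 1) = 1 := by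
    unfold eigVec
    rw [lp.coeFn_sum, Finset.sum_apply, Finset.sum_eq_single 0]
    · rw [psi_zero, map_one, one_smul, ofAdd_zero, map_one, dl_same]
    · intro j _ hj
      have : (QuotientGroup.mk 1 : G ⧸ K) ≠ QuotientGroup.mk (d (Multiplicative.ofAdd j)) := by
        intro h'
        rw [QuotientGroup.eq] at h'
        exact hj (hd j (by simpa using h'))
      rw [lp.coeFn_smul, Pi.smul_apply, dl_ne this, smul_zero]
    · intro h'; exact absurd (Finset.mem_univ _) h'
  rw [h] at h1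
  simp at h1

theorem rep_eigVec_of_fix (K : Subgroup G) (d : Multiplicative (ZMod p) →* G) (g : G)
    (hg : ∀ j : ZMod p, (d (Multiplicative.ofAdd j))⁻¹ * g * d (Multiplicative.ofAdd j) ∈ K) :
    (rep G (G ⧸ K) g : L2 (G ⧸ K) →L[ℂ] L2 (G ⧸ K)) (eigVec K d) = eigVec K d := by
  unfold eigVec
  rw [map_sum]
  refine Finset.sum_congr rfl fun j _ => ?_
  rw [map_smul]
  congr 1
  rw [rep_dl]
  congr 1
  rw [MulAction.Quotient.smul_mk, eq_comm, QuotientGroup.eq, smul_eq_mul, ← mul_assoc]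
  exact hg j

theorem rep_eigVec_d (K : Subgroup G) (d : Multiplicative (ZMod p) →* G) :
    (rep G (G ⧸ K) (d (Multiplicative.ofAdd 1)) : L2 (G ⧸ K) →L[ℂ] L2 (G ⧸ K)) (eigVec K d)
      = psi p 1 • eigVec K d := by
  unfold eigVec
  rw [map_sum, Finset.smul_sum]
  rw [← Equiv.sum_comp (Equiv.addLeft (1 : ZMod p)) (fun i : ZMod p => psi p 1 •
    (conj (psi p i) • dl (QuotientGroup.mk (d (Multiplicative.ofAdd i)) : G ⧸ K)))]
  refine Finset.sum_congr rfl fun j _ => ?_
  rw [map_smul, rep_dl, smul_smul, Equiv.coe_addLeft, psi_add, map_mul, ← mul_assoc,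
    mul_comm (psi p 1), psi_conj_mul, one_mul]
  congr 2
  rw [MulAction.Quotient.smul_mk, smul_eq_mul, ← map_mul, ← ofAdd_add]

/-- the base estimate of `StmtGroup`, for an abstract group -/
theorem five_le (K : Subgroup G) (d : Multiplicative (ZMod p) →* G) (a b c : G)
    (hd : ∀ j : ZMod p, d (Multiplicative.ofAdd j) ∈ K → j = 0)
    (ha : ∀ j : ZMod p, (d (Multiplicative.ofAdd j))⁻¹ * a * d (Multiplicative.ofAdd j) ∈ K)
    (hb : ∀ j : ZMod p, (d (Multiplicative.ofAdd j))⁻¹ * b * d (Multiplicative.ofAdd j) ∈ K)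
    (hc : ∀ j : ZMod p, (d (Multiplicative.ofAdd j))⁻¹ * c * d (Multiplicative.ofAdd j) ∈ K)
    {A : Type} [CStarAlgebra A] {u : G →* unitary A} (hu : IsFullGroupCStar A u) :
    5 ≤ ‖(1 : A) + (u a : A) + (u b : A) + (u c : A)
        + conj (psi p 1) • (u (d (Multiplicative.ofAdd 1)) : A)‖ := by
  have h := le_norm hu (X := G ⧸ K) (Finset.univ : Finset (Fin 5))
    ![1, 1, 1, 1, conj (psi p 1)] ![1, a, b, c, d (Multiplicative.ofAdd 1)] (eigVec K d)
    (eigVec_ne_zero K d hd) 5 (by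
      simp only [Fin.sum_univ_five, Matrix.cons_val_zero, Matrix.cons_val_one, Matrix.cons_val]
      rw [rep_eigVec_of_fix K d a ha, rep_eigVec_of_fix K d b hb, rep_eigVec_of_fix K d c hc,
        rep_eigVec_d, smul_smul, psi_conj_mul, map_one]
      simp only [one_smul, OneMemClass.coe_one, one_apply_eq_self]
      push_cast
      module)
  simpa [Fin.sum_univ_five] using h

end

end Crest.Agent.R073.PermRep
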