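import Mathlib

/-!
Pure algebra: averaging projections of a Heisenberg pair `x y = z y x` of order `p`, and the
sum-of-squares identities for `{1-A, 1-B}`.
-/

namespace Crest.Agent.R073.Sos

open Finset

section Alg

variable {𝒜 : Type*} [Ring 𝒜] [Algebra ℝ 𝒜]

/-- averaging element of the cyclic group generated by `x` (order `p`). -/
noncomputable def avg (p : ℕ) (x : 𝒜) : 𝒜 := ((p : ℝ)⁻¹) • ∑ i ∈ range p, x ^ i

lemma avg_mul_self_left {p : ℕ} (_hp : 0 < p) {x : 𝒜} (hx : x ^ p = 1) :
    x * avg p x = avg p x := by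
  unfold avg
  rw [mul_smul_comm, Finset.mul_sum]
  congr 1
  have h1 : ∑ i ∈ range p, x * x ^ i = ∑ i ∈ range p, x ^ (i + 1) := by
    apply Finset.sum_congr rfl; intro i _; rw [pow_succ']
  rw [h1]
  have h2 := Finset.sum_range_succ (fun i => x ^ i) p
  have h3 := Finset.sum_range_succ' (fun i => x ^ i) p
  rw [h2] at h3
  simp only [pow_zero, hx] at h3
  exact (add_right_cancel h3).symm

lemma avg_mul_self_right {p : ℕ} (hp : 0 < p) {x : 𝒜} (hx : x ^ p = 1) :
    avg p x * x = avg p x := by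
  have hc : Commute x (avg p x) := by
    unfold avg
    apply Commute.smul_right
    apply Commute.sum_right
    intro i _
    exact Commute.pow_right (Commute.refl x) i
  rw [← hc.eq, avg_mul_self_left hp hx]

lemma pow_mul_avg {p : ℕ} (hp : 0 < p) {x : 𝒜} (hx : x ^ p = 1) (i : ℕ) :
    x ^ i * avg p x = avg p x := by
  induction i with
  | zero => simp
  | succ n ih => rw [pow_succ, mul_assoc, avg_mul_self_left hp hx, ih]

lemma avg_mul_pow {p : ℕ} (hp : 0 < p) {x : 𝒜} (hx : x ^ p = 1) (i : ℕ) :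
    avg p x * x ^ i = avg p x := by
  induction i with
  | zero => simp
  | succ n ih => rw [pow_succ', ← mul_assoc, avg_mul_self_right hp hx, ih]

lemma avg_idem {p : ℕ} (hp : 0 < p) {x : 𝒜} (hx : x ^ p = 1) :
    avg p x * avg p x = avg p x := by
  conv_lhs => lhs; unfold avg
  rw [smul_mul_assoc, Finset.sum_mul]
  rw [Finset.sum_congr rfl (fun i _ => pow_mul_avg hp hx i)]
  rw [Finset.sum_const, card_range, ← Nat.cast_smul_eq_nsmul ℝ, smul_smul,
    inv_mul_cancel₀ (by positivity), one_smul]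

lemma avg_commute {p : ℕ} {x y : 𝒜} (h : Commute x y) : Commute (avg p x) y := by
  unfold avg
  apply Commute.smul_left
  apply Commute.sum_left
  intro i _
  exact Commute.pow_left h i

/-- `x^i y^k = z^(i k) y^k x^i`. -/
lemma heis_pow {x y z : 𝒜} (hxz : Commute x z) (hyz : Commute y z) (hxy : x * y = z * y * x)
    (i k : ℕ) : x ^ i * y ^ k = z ^ (i * k) * y ^ k * x ^ i := by
  have h1 : ∀ i : ℕ, x ^ i * y = z ^ i * y * x ^ i := by
    intro i
    induction i with
    | zero => simp
    | succ n ih =>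
      calc x ^ (n + 1) * y = x ^ n * (x * y) := by rw [pow_succ, mul_assoc]
        _ = x ^ n * z * y * x := by rw [hxy]; noncomm_ring
        _ = z * (x ^ n * y) * x := by
            rw [(hxz.pow_left n).eq]; noncomm_ring
        _ = z * (z ^ n * y * x ^ n) * x := by rw [ih]
        _ = z ^ (n + 1) * y * x ^ (n + 1) := by
            rw [pow_succ' z n, pow_succ x n]; noncomm_ring
  induction k with
  | zero => simp
  | succ n ih =>
    calc x ^ i * y ^ (n + 1) = (x ^ i * y ^ n) * y := by rw [pow_succ, mul_assoc]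
      _ = z ^ (i * n) * y ^ n * (x ^ i * y) := by rw [ih]; noncomm_ring
      _ = z ^ (i * n) * (y ^ n * z ^ i) * y * x ^ i := by rw [h1]; noncomm_ring
      _ = z ^ (i * n) * (z ^ i * y ^ n) * y * x ^ i := by
          rw [((hyz.pow_left n).pow_right i).eq]
      _ = (z ^ (i * n) * z ^ i) * (y ^ n * y) * x ^ i := by noncomm_ring
      _ = z ^ (i * (n + 1)) * y ^ (n + 1) * x ^ i := by
          rw [← pow_add, ← pow_succ, Nat.mul_succ]

/-- For `k` not divisible by the prime `p`, `∑_{i<p} z^(i k) = ∑_{j<p} z^j`. -/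
lemma sum_pow_mul {p : ℕ} (hp : p.Prime) {z : 𝒜} (hz : z ^ p = 1) {k : ℕ} (hk : ¬ p ∣ k) :
    ∑ i ∈ range p, z ^ (i * k) = ∑ j ∈ range p, z ^ j := by
  have hmod : ∀ m : ℕ, z ^ m = z ^ (m % p) := by
    intro m
    conv_lhs => rw [← Nat.div_add_mod m p, pow_add, pow_mul, hz, one_pow, one_mul]
  have hcop : Nat.Coprime k p := ((Nat.Prime.coprime_iff_not_dvd hp).2 hk).symm
  refine Finset.sum_bij (fun i _ => (i * k) % p) ?_ ?_ ?_ ?_
  · intro i _
    exact mem_range.2 (Nat.mod_lt _ hp.pos)
  · intro i hi j hj hij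
    have h : i * k ≡ j * k [MOD p] := hij
    have h2 : i ≡ j [MOD p] := Nat.ModEq.cancel_right_of_coprime (by
      rw [Nat.coprime_comm] at hcop; exact hcop) h
    exact Nat.ModEq.eq_of_lt_of_lt h2 (mem_range.1 hi) (mem_range.1 hj)
  · intro j hj
    obtain ⟨u, -, hu⟩ := Nat.exists_mul_mod_eq_one_of_coprime hcop hp.one_lt
    refine ⟨(j * u) % p, mem_range.2 (Nat.mod_lt _ hp.pos), ?_⟩
    have hj' := mem_range.1 hj
    have : ((j * u) % p * k) % p = j % p := by
      rw [Nat.mod_mul_mod]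
      have e : j * u * k = j * (k * u) := by ring
      rw [e, Nat.mul_mod, hu, mul_one, Nat.mod_mod]
    simpa [Nat.mod_eq_of_lt hj'] using this
  · intro i _
    exact hmod _

/-- `A y^k A = Z y^k A` for `p ∤ k`. -/
lemma avg_pow_avg {p : ℕ} (hp : p.Prime) {x y z : 𝒜} (hx : x ^ p = 1) (hz : z ^ p = 1)
    (hxz : Commute x z) (hyz : Commute y z) (hxy : x * y = z * y * x) {k : ℕ} (hk : ¬ p ∣ k) :
    avg p x * y ^ k * avg p x = avg p z * y ^ k * avg p x := by
  conv_lhs => lhs; lhs; unfold avg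
  rw [smul_mul_assoc, smul_mul_assoc, Finset.sum_mul, Finset.sum_mul]
  have h1 : ∀ i ∈ range p, x ^ i * y ^ k * avg p x = z ^ (i * k) * (y ^ k * avg p x) := by
    intro i _
    rw [heis_pow hxz hyz hxy i k, mul_assoc (z ^ (i * k) * y ^ k), pow_mul_avg hp.pos hx,
      mul_assoc]
  rw [Finset.sum_congr rfl h1, ← Finset.sum_mul, sum_pow_mul hp hz hk]
  conv_rhs => lhs; lhs; unfold avg
  rw [smul_mul_assoc, smul_mul_assoc, mul_assoc]

/-- `D A B A = (1/p) D A` where `D = 1 - Z`. -/
lemma D_ABA {p : ℕ} (hp : p.Prime) {x y z : 𝒜} (hx : x ^ p = 1) (hz : z ^ p = 1)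
    (hxz : Commute x z) (hyz : Commute y z) (hxy : x * y = z * y * x) :
    (1 - avg p z) * (avg p x * avg p y * avg p x) =
      ((p : ℝ)⁻¹) • ((1 - avg p z) * avg p x) := by
  have hZ : avg p z * avg p z = avg p z := avg_idem hp.pos hz
  have hDZ : (1 - avg p z) * avg p z = 0 := by rw [sub_mul, one_mul, hZ, sub_self]
  have e1 : avg p x * avg p y * avg p x =
      ((p : ℝ)⁻¹) • ∑ k ∈ range p, avg p x * y ^ k * avg p x := by
    conv_lhs => lhs; rhs; unfold avg
    rw [mul_smul_comm, smul_mul_assoc, Finset.mul_sum, Finset.sum_mul]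
  rw [e1, mul_smul_comm, Finset.mul_sum]
  congr 1
  obtain ⟨q, hq⟩ : ∃ q, p = q + 1 := ⟨p - 1, by have := hp.pos; omega⟩
  have hterm : ∀ k ∈ range p, k ≠ 0 → (1 - avg p z) * (avg p x * y ^ k * avg p x) = 0 := by
    intro k hk hk0
    have hk' : ¬ p ∣ k := fun h => by
      have := Nat.le_of_dvd (Nat.pos_of_ne_zero hk0) h
      have := mem_range.1 hk
      omega
    rw [avg_pow_avg hp hx hz hxz hyz hxy hk', mul_assoc (avg p z), ← mul_assoc, hDZ, zero_mul]
  rw [Finset.sum_eq_single_of_mem 0 (mem_range.2 hp.pos) hterm]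
  rw [pow_zero, mul_one, avg_idem hp.pos hx]

lemma avg_mul_avg (p : ℕ) (x y : 𝒜) : avg p x * avg p y =
    ((p : ℝ)⁻¹ * (p : ℝ)⁻¹) • ∑ i ∈ range p, ∑ k ∈ range p, x ^ i * y ^ k := by
  unfold avg
  rw [smul_mul_smul_comm, Finset.sum_mul_sum]

/-- `Z A B = Z B A`. -/
lemma Z_comm {p : ℕ} (hp : p.Prime) {x y z : 𝒜} (hz : z ^ p = 1)
    (hxz : Commute x z) (hyz : Commute y z) (hxy : x * y = z * y * x) :
    avg p z * (avg p x * avg p y) = avg p z * (avg p y * avg p x) := by
  have h1 : ∀ i k : ℕ, avg p z * (x ^ i * y ^ k) = avg p z * (y ^ k * x ^ i) := by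
    intro i k
    rw [heis_pow hxz hyz hxy i k, mul_assoc (z ^ (i * k)), ← mul_assoc (avg p z),
      avg_mul_pow hp.pos hz]
  rw [avg_mul_avg, avg_mul_avg]
  simp only [mul_smul_comm, Finset.mul_sum, h1]
  rw [Finset.sum_comm]


/-- SOS identity in the corner cut by `d = 1 - Z`. -/
lemma corner {a b d : 𝒜} {r s e : ℝ} (hr : 1 - r ≠ 0) (hs : s ≠ 0)
    (ha : a * a = a) (hb : b * b = b) (hd : d * d = d)
    (hda : d * a = a) (had : a * d = a) (hdb : d * b = b) (hbd : b * d = b)
    (haba : a * b * a = r • a) (hbab : b * a * b = r • b)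
    {N X F M : 𝒜} (hN : N = a + b) (hX : X = a * b + b * a)
    (hF : F = (1 - r)⁻¹ • (N - X)) (hM : M = N - F) :
    (d - a) * (d - b) + (d - b) * (d - a) + e • (d + d - a - b) =
      (d - N) * (d - N) + (1 + 2 * e) • ((d - F) * (d - F))
      + (e - (1 + e) * ((s ^ 2 + r) / (2 * s))) • (F * F)
      + ((1 + e) / (2 * s)) • ((s • F - M) * (s • F - M)) := by
  have hNN : N * N = N + X := by
    rw [hN, hX]
    simp only [mul_add, add_mul, ha, hb]
    abel
  have hXN : X * N = X + r • N := by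
    have h1 : X * N = a * b * a + a * (b * b) + b * (a * a) + b * a * b := by
      rw [hN, hX]; noncomm_ring
    rw [h1, haba, hbab, ha, hb, hX, hN, smul_add]
    abel
  have hNX : N * X = X + r • N := by
    have h1 : N * X = (a * a) * b + a * b * a + b * a * b + (b * b) * a := by
      rw [hN, hX]; noncomm_ring
    rw [h1, haba, hbab, ha, hb, hX, hN, smul_add]
    abel
  have hFN : F * N = N := by
    rw [hF, smul_mul_assoc, sub_mul, hNN, hXN]
    have : N + X - (X + r • N) = (1 - r) • N := by module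
    rw [this, smul_smul, inv_mul_cancel₀ hr, one_smul]
  have hNF : N * F = N := by
    rw [hF, mul_smul_comm, mul_sub, hNN, hNX]
    have : N + X - (X + r • N) = (1 - r) • N := by module
    rw [this, smul_smul, inv_mul_cancel₀ hr, one_smul]
  have hXF : X * F = X := by
    have h1 : X = N * N - N := by rw [hNN]; abel
    rw [h1, sub_mul, mul_assoc, hNF]
  have hFF : F * F = F := by
    conv_lhs => lhs; rw [hF]
    rw [smul_mul_assoc, sub_mul, hNF, hXF, ← hF]
  have hXe : X = N - (1 - r) • F := by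
    rw [hF, smul_smul, mul_inv_cancel₀ hr, one_smul]; abel
  have hMF : M * F = M := by rw [hM, sub_mul, hNF, hFF]
  have hFM : F * M = M := by rw [hM, mul_sub, hFN, hFF]
  have hMM : M * M = r • F := by
    conv_lhs => lhs; rw [hM]
    rw [sub_mul, hFM, hM, mul_sub, hNN, hNF, hXe]
    module
  have hdN : d * N = N := by rw [hN, mul_add, hda, hdb]
  have hNd : N * d = N := by rw [hN, add_mul, had, hbd]
  have hdX : d * X = X := by
    rw [hX, mul_add, ← mul_assoc, ← mul_assoc, hda, hdb]
  have hXd : X * d = X := by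
    rw [hX, add_mul, mul_assoc, mul_assoc, had, hbd]
  have hdF : d * F = F := by rw [hF, mul_smul_comm, mul_sub, hdN, hdX]
  have hFd : F * d = F := by rw [hF, smul_mul_assoc, sub_mul, hNd, hXd]
  have e1 : (d - N) * (d - N) = d - N + X := by
    rw [sub_mul, mul_sub, mul_sub, hd, hdN, hNd, hNN]; abel
  have e2 : (d - F) * (d - F) = d - F := by
    rw [sub_mul, mul_sub, mul_sub, hd, hdF, hFd, hFF]; abel
  have e3 : (s • F - M) * (s • F - M) = (s ^ 2 + r) • F - (2 * s) • M := by
    rw [sub_mul, mul_sub, mul_sub, smul_mul_smul_comm, smul_mul_assoc, mul_smul_comm, hFF, hFM,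
      hMF, hMM]
    module
  have e4 : (d - a) * (d - b) + (d - b) * (d - a) = d + d - N - N + X := by
    rw [sub_mul, mul_sub, mul_sub, sub_mul, mul_sub, mul_sub, hd, hdb, had, hda, hbd, hN, hX]
    abel
  have e5 : ((1 + e) / (2 * s)) • ((s • F - M) * (s • F - M)) =
      ((1 + e) * ((s ^ 2 + r) / (2 * s))) • F - (1 + e) • M := by
    rw [e3, smul_sub, smul_smul, smul_smul]
    congr 2
    · ring
    · field_simp
  rw [e4, e5, e1, e2, hFF, hM]
  have : d + d - a - b = d + d - N := by rw [hN]; abel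
  rw [this]
  module

/-- Abstract SOS identity.  `A B Z` idempotents, `Z` central, `ZAB = ZBA`, `D = 1 - Z`,
`DABA = r DA`, `DBAB = r DB`. -/
lemma sos_abstract {A B Z : 𝒜} {r s e : ℝ} (hr : 1 - r ≠ 0) (hs : s ≠ 0)
    (hA : A * A = A) (hB : B * B = B) (hZ : Z * Z = Z)
    (hZA : Z * A = A * Z) (hZB : Z * B = B * Z)
    (hZAB : Z * (A * B) = Z * (B * A))
    (hABA : (1 - Z) * (A * B * A) = r • ((1 - Z) * A))
    (hBAB : (1 - Z) * (B * A * B) = r • ((1 - Z) * B))
    {N X F M D : 𝒜} (hN : N = A + B) (hX : X = A * B + B * A)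
    (hF : F = (1 - r)⁻¹ • (N - X)) (hM : M = N - F) (hD : D = 1 - Z) :
    (1 - A) * (1 - B) + (1 - B) * (1 - A) + e • ((1 - A) + (1 - B)) =
      (2 : ℝ) • (((1 - B) * (1 - A) * Z) * (Z * (1 - A) * (1 - B)))
      + e • (((1 - A) * Z) * (Z * (1 - A))) + e • (((1 - B) * Z) * (Z * (1 - B)))
      + ((1 - N) * D) * (D * (1 - N))
      + (1 + 2 * e) • (((1 - F) * D) * (D * (1 - F)))
      + (e - (1 + e) * ((s ^ 2 + r) / (2 * s))) • ((F * D) * (D * F))
      + ((1 + e) / (2 * s)) • (((s • F - M) * D) * (D * (s • F - M))) := by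
  have hDD : D * D = D := by rw [hD, mul_sub, sub_mul, sub_mul, hZ]; simp
  have hDA : D * A = A * D := by rw [hD, sub_mul, mul_sub, hZA]; simp
  have hDB : D * B = B * D := by rw [hD, sub_mul, mul_sub, hZB]; simp
  have hcA : Commute D A := hDA
  have hcB : Commute D B := hDB
  have hcN : Commute D N := by rw [hN]; exact hcA.add_right hcB
  have hcX : Commute D X := by rw [hX]; exact (hcA.mul_right hcB).add_right (hcB.mul_right hcA)
  have hcF : Commute D F := by rw [hF]; exact (hcN.sub_right hcX).smul_right _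
  have hcM : Commute D M := by rw [hM]; exact hcN.sub_right hcF
  have hDu : ∀ u : 𝒜, Commute D u → (u * D) * (D * u) = (D * u) * (D * u) := by
    intro u hu
    rw [← hu.eq]
  have c1 := hDu _ ((Commute.one_right D).sub_right hcN)
  have c2 := hDu _ ((Commute.one_right D).sub_right hcF)
  have c3 := hDu _ hcF
  have c4 := hDu _ ((hcF.smul_right s).sub_right hcM)
  -- corner elements
  have hc := corner (a := D * A) (b := D * B) (d := D) (r := r) (s := s) (e := e) hr hs
    (by rw [hDA, mul_assoc, ← mul_assoc D, hDA, ← mul_assoc, ← mul_assoc, hA, mul_assoc, hDD])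
    (by rw [hDB, mul_assoc, ← mul_assoc D, hDB, ← mul_assoc, ← mul_assoc, hB, mul_assoc, hDD])
    hDD (by rw [← mul_assoc, hDD]) (by rw [mul_assoc, ← hDA, ← mul_assoc, hDD])
    (by rw [← mul_assoc, hDD]) (by rw [mul_assoc, ← hDB, ← mul_assoc, hDD])
    (by
      have : D * A * (D * B) * (D * A) = D * (A * B * A) := by
        calc D * A * (D * B) * (D * A) = D * (A * D) * B * (D * A) := by noncomm_ring
          _ = D * (D * A) * B * (D * A) := by rw [hDA]
          _ = (D * D) * (A * (B * D) * A) := by noncomm_ring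
          _ = (D * D) * (A * (D * B) * A) := by rw [hDB]
          _ = (D * D) * ((A * D) * B * A) := by noncomm_ring
          _ = (D * D) * ((D * A) * B * A) := by rw [hDA]
          _ = (D * D * D) * (A * B * A) := by noncomm_ring
          _ = D * (A * B * A) := by rw [hDD, hDD]
      rw [this, hD, hABA])
    (by
      have : D * B * (D * A) * (D * B) = D * (B * A * B) := by
        calc D * B * (D * A) * (D * B) = D * (B * D) * A * (D * B) := by noncomm_ring
          _ = D * (D * B) * A * (D * B) := by rw [hDB]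
          _ = (D * D) * (B * (A * D) * B) := by noncomm_ring
          _ = (D * D) * (B * (D * A) * B) := by rw [hDA]
          _ = (D * D) * ((B * D) * A * B) := by noncomm_ring
          _ = (D * D) * ((D * B) * A * B) := by rw [hDB]
          _ = (D * D * D) * (B * A * B) := by noncomm_ring
          _ = D * (B * A * B) := by rw [hDD, hDD]
      rw [this, hD, hBAB])
    (N := D * N) (X := D * X) (F := D * F) (M := D * M)
    (by rw [hN, mul_add])
    (by
      rw [hX, mul_add]
      congr 1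
      · calc D * (A * B) = (D * D) * (A * B) := by rw [hDD]
          _ = D * (D * A) * B := by noncomm_ring
          _ = D * (A * D) * B := by rw [hDA]
          _ = D * A * (D * B) := by noncomm_ring
      · calc D * (B * A) = (D * D) * (B * A) := by rw [hDD]
          _ = D * (D * B) * A := by noncomm_ring
          _ = D * (B * D) * A := by rw [hDB]
          _ = D * B * (D * A) := by noncomm_ring)
    (by rw [hF, mul_smul_comm, mul_sub])
    (by rw [hM, mul_sub])
  -- Z part
  have hA' : (1 - A) * (1 - A) = 1 - A := by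
    rw [mul_sub, sub_mul, sub_mul, hA]; simp
  have hB' : (1 - B) * (1 - B) = 1 - B := by
    rw [mul_sub, sub_mul, sub_mul, hB]; simp
  have hzA : Commute Z (1 - A) := (Commute.one_right Z).sub_right hZA
  have hzB : Commute Z (1 - B) := (Commute.one_right Z).sub_right hZB
  have hZAB' : Z * ((1 - A) * (1 - B)) = Z * ((1 - B) * (1 - A)) := by
    have h1 : (1 - A) * (1 - B) = 1 - A - B + A * B := by noncomm_ring
    have h2 : (1 - B) * (1 - A) = 1 - A - B + B * A := by noncomm_ring
    rw [h1, h2, mul_add, hZAB, ← mul_add]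
  have z1 : ((1 - B) * (1 - A) * Z) * (Z * (1 - A) * (1 - B)) = Z * ((1 - A) * (1 - B)) := by
    calc ((1 - B) * (1 - A) * Z) * (Z * (1 - A) * (1 - B))
        = (1 - B) * (1 - A) * (Z * Z) * ((1 - A) * (1 - B)) := by noncomm_ring
      _ = (1 - B) * (1 - A) * (Z * ((1 - A) * (1 - B))) := by rw [hZ]; noncomm_ring
      _ = (1 - B) * (1 - A) * (Z * ((1 - B) * (1 - A))) := by rw [hZAB']
      _ = (1 - B) * ((1 - A) * Z) * ((1 - B) * (1 - A)) := by noncomm_ring
      _ = (1 - B) * (Z * (1 - A)) * ((1 - B) * (1 - A)) := by rw [hzA.eq]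
      _ = ((1 - B) * Z) * (1 - A) * ((1 - B) * (1 - A)) := by noncomm_ring
      _ = (Z * (1 - B)) * (1 - A) * ((1 - B) * (1 - A)) := by rw [hzB.eq]
      _ = (Z * ((1 - B) * (1 - A))) * ((1 - B) * (1 - A)) := by noncomm_ring
      _ = (Z * ((1 - A) * (1 - B))) * ((1 - B) * (1 - A)) := by rw [hZAB']
      _ = Z * ((1 - A) * ((1 - B) * (1 - B)) * (1 - A)) := by noncomm_ring
      _ = (Z * ((1 - A) * (1 - B))) * (1 - A) := by rw [hB']; noncomm_ring
      _ = (Z * ((1 - B) * (1 - A))) * (1 - A) := by rw [hZAB']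
      _ = Z * ((1 - B) * ((1 - A) * (1 - A))) := by noncomm_ring
      _ = Z * ((1 - A) * (1 - B)) := by rw [hA', hZAB']
  have z2 : ((1 - A) * Z) * (Z * (1 - A)) = Z * (1 - A) := by
    calc ((1 - A) * Z) * (Z * (1 - A)) = (1 - A) * (Z * Z) * (1 - A) := by noncomm_ring
      _ = (1 - A) * (Z * (1 - A)) := by rw [hZ]; noncomm_ring
      _ = (1 - A) * ((1 - A) * Z) := by rw [hzA.eq]
      _ = ((1 - A) * (1 - A)) * Z := by noncomm_ring
      _ = Z * (1 - A) := by rw [hA', hzA.eq]
  have z3 : ((1 - B) * Z) * (Z * (1 - B)) = Z * (1 - B) := by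
    calc ((1 - B) * Z) * (Z * (1 - B)) = (1 - B) * (Z * Z) * (1 - B) := by noncomm_ring
      _ = (1 - B) * (Z * (1 - B)) := by rw [hZ]; noncomm_ring
      _ = (1 - B) * ((1 - B) * Z) := by rw [hzB.eq]
      _ = ((1 - B) * (1 - B)) * Z := by noncomm_ring
      _ = Z * (1 - B) := by rw [hB', hzB.eq]
  have split : (1 - A) * (1 - B) + (1 - B) * (1 - A) + e • ((1 - A) + (1 - B)) =
      (2 : ℝ) • (Z * ((1 - A) * (1 - B))) + e • (Z * (1 - A)) + e • (Z * (1 - B)) +
      ((D - D * A) * (D - D * B) + (D - D * B) * (D - D * A) + e • (D + D - D * A - D * B)) := by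
    have q1 : (D - D * A) * (D - D * B) = D * ((1 - A) * (1 - B)) := by
      calc (D - D * A) * (D - D * B) = (D * (1 - A)) * (D * (1 - B)) := by noncomm_ring
        _ = D * ((1 - A) * D) * (1 - B) := by noncomm_ring
        _ = D * (D * (1 - A)) * (1 - B) := by
            rw [((Commute.one_right D).sub_right hcA).eq]
        _ = (D * D) * ((1 - A) * (1 - B)) := by noncomm_ring
        _ = D * ((1 - A) * (1 - B)) := by rw [hDD]
    have q2 : (D - D * B) * (D - D * A) = D * ((1 - B) * (1 - A)) := by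
      calc (D - D * B) * (D - D * A) = (D * (1 - B)) * (D * (1 - A)) := by noncomm_ring
        _ = D * ((1 - B) * D) * (1 - A) := by noncomm_ring
        _ = D * (D * (1 - B)) * (1 - A) := by
            rw [((Commute.one_right D).sub_right hcB).eq]
        _ = (D * D) * ((1 - B) * (1 - A)) := by noncomm_ring
        _ = D * ((1 - B) * (1 - A)) := by rw [hDD]
    have q3 : D + D - D * A - D * B = D * ((1 - A) + (1 - B)) := by noncomm_ring
    rw [q1, q2, q3]
    have q4 : ∀ u : 𝒜, Z * u + D * u = u := by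
      intro u; rw [hD]; noncomm_ring
    have q5 : (2 : ℝ) • (Z * ((1 - A) * (1 - B))) =
        Z * ((1 - A) * (1 - B)) + Z * ((1 - B) * (1 - A)) := by
      rw [two_smul, ← hZAB']
    rw [q5]
    have q6 : e • (Z * (1 - A)) + e • (Z * (1 - B)) = e • (Z * ((1 - A) + (1 - B))) := by
      rw [mul_add, smul_add]
    calc (1 - A) * (1 - B) + (1 - B) * (1 - A) + e • ((1 - A) + (1 - B))
        = (Z * ((1 - A) * (1 - B)) + D * ((1 - A) * (1 - B)))
          + (Z * ((1 - B) * (1 - A)) + D * ((1 - B) * (1 - A)))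
          + e • (Z * ((1 - A) + (1 - B)) + D * ((1 - A) + (1 - B))) := by
          rw [q4, q4, q4]
      _ = _ := by rw [smul_add, ← q6]; abel
  rw [split, z1, z2, z3, hc, c1, c2, c3, c4]
  have w1 : D * (1 - N) = D - D * N := by noncomm_ring
  have w2 : D * (1 - F) = D - D * F := by noncomm_ring
  have w3 : D * (s • F - M) = s • (D * F) - D * M := by rw [mul_sub, mul_smul_comm]
  rw [w1, w2, w3]
  abel

end Alg

end Crest.Agent.R073.Sos
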