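import Crest.Agent.R073.Defs
import Crest.Agent.R073.Sos

/-!
Row 73, M6: evaluation of real group algebra elements in an almost representation.
-/

set_option autoImplicit false

namespace Crest.Agent.R073.Quant

open MonoidAlgebra Finset

noncomputable section

variable {G : Type} [Group G] {L : Type} [NormedAddCommGroup L] [InnerProductSpace ℂ L]

/-- evaluation of a group algebra element at a map `v : G → B(L)` -/
def ev (v : G → L →L[ℂ] L) (f : MonoidAlgebra ℝ G) : L →L[ℂ] L :=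
  f.coeff.sum fun g r => (r : ℂ) • v g

lemma ev_single (v : G → L →L[ℂ] L) (g : G) (r : ℝ) :
    ev v (single g r) = (r : ℂ) • v g := by
  unfold ev
  rw [MonoidAlgebra.coeff_single, Finsupp.sum_single_index]
  simp

lemma ev_zero (v : G → L →L[ℂ] L) : ev v 0 = 0 := by
  unfold ev
  rw [MonoidAlgebra.coeff_zero, Finsupp.sum_zero_index]

lemma ev_add (v : G → L →L[ℂ] L) (f f' : MonoidAlgebra ℝ G) :
    ev v (f + f') = ev v f + ev v f' := by
  unfold ev
  rw [MonoidAlgebra.coeff_add, Finsupp.sum_add_index']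
  · intro g; simp
  · intro g r s; push_cast; rw [add_smul]

/-- `ev` as an additive hom -/
def evHom (v : G → L →L[ℂ] L) : MonoidAlgebra ℝ G →+ (L →L[ℂ] L) where
  toFun := ev v
  map_zero' := ev_zero v
  map_add' := ev_add v

lemma ev_sum {ι : Type} (s : Finset ι) (v : G → L →L[ℂ] L) (f : ι → MonoidAlgebra ℝ G) :
    ev v (∑ i ∈ s, f i) = ∑ i ∈ s, ev v (f i) := map_sum (evHom v) f s

lemma ev_sub (v : G → L →L[ℂ] L) (f f' : MonoidAlgebra ℝ G) :
    ev v (f - f') = ev v f - ev v f' := map_sub (evHom v) f f'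

lemma ev_smul (v : G → L →L[ℂ] L) (c : ℝ) (f : MonoidAlgebra ℝ G) :
    ev v (c • f) = (c : ℂ) • ev v f := by
  induction f using MonoidAlgebra.induction_linear with
  | zero => rw [smul_zero, ev_zero, smul_zero]
  | add f g hf hg => rw [smul_add, ev_add, ev_add, smul_add, hf, hg]
  | single g r =>
    rw [MonoidAlgebra.smul_single, ev_single, ev_single, smul_smul]
    simp

lemma ev_one (v : G → L →L[ℂ] L) : ev v 1 = v 1 := by
  rw [MonoidAlgebra.one_def, ev_single]; simp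

/-- `f = ∑ r_i g_i`, `f' = ∑ r_i g_i⁻¹`, `g_i ∈ H`, `∑ |r_i| ≤ M`. -/
def RA (H : Subgroup G) (M : ℝ) (f f' : MonoidAlgebra ℝ G) : Prop :=
  ∃ (ι : Type) (_ : Fintype ι) (r : ι → ℝ) (g : ι → G),
    f = ∑ i, single (g i) (r i) ∧ f' = ∑ i, single (g i)⁻¹ (r i) ∧ (∀ i, g i ∈ H) ∧
      ∑ i, |r i| ≤ M

variable {H : Subgroup G} {M M' : ℝ} {f f' k k' : MonoidAlgebra ℝ G}

lemma RA.mono (h : RA H M f f') (hM : M ≤ M') : RA H M' f f' := by
  obtain ⟨ι, _, r, g, h1, h2, h3, h4⟩ := h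
  exact ⟨ι, _, r, g, h1, h2, h3, h4.trans hM⟩

lemma RA.symm (h : RA H M f f') : RA H M f' f := by
  obtain ⟨ι, _, r, g, h1, h2, h3, h4⟩ := h
  exact ⟨ι, _, r, fun i => (g i)⁻¹, h2, by simpa using h1, fun i => H.inv_mem (h3 i), h4⟩

lemma RA.single {g : G} (hg : g ∈ H) (r : ℝ) : RA H |r| (single g r) (single g⁻¹ r) :=
  ⟨Unit, inferInstance, fun _ => r, fun _ => g, by simp, by simp, fun _ => hg, by simp⟩

lemma RA.one : RA H 1 1 (1 : MonoidAlgebra ℝ G) := by
  have := RA.single (H := H) (H.one_mem) (1 : ℝ)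
  simpa [MonoidAlgebra.one_def] using this

lemma RA.add (h : RA H M f f') (h' : RA H M' k k') : RA H (M + M') (f + k) (f' + k') := by
  obtain ⟨ι, _, r, g, h1, h2, h3, h4⟩ := h
  obtain ⟨κ, _, s, l, e1, e2, e3, e4⟩ := h'
  refine ⟨ι ⊕ κ, inferInstance, Sum.elim r s, Sum.elim g l, ?_, ?_, ?_, ?_⟩
  · rw [Fintype.sum_sum_type, h1, e1]; simp
  · rw [Fintype.sum_sum_type, h2, e2]; simp
  · rintro (i | j)
    · exact h3 i
    · exact e3 j
  · rw [Fintype.sum_sum_type]; simpa using add_le_add h4 e4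

lemma RA.smul (c : ℝ) (h : RA H M f f') : RA H (|c| * M) (c • f) (c • f') := by
  obtain ⟨ι, hι, r, g, h1, h2, h3, h4⟩ := h
  refine ⟨ι, hι, fun i => c * r i, g, ?_, ?_, h3, ?_⟩
  · rw [h1, Finset.smul_sum]; simp [MonoidAlgebra.smul_single]
  · rw [h2, Finset.smul_sum]; simp [MonoidAlgebra.smul_single]
  · simp only [abs_mul, ← Finset.mul_sum]
    exact mul_le_mul_of_nonneg_left h4 (abs_nonneg c)

lemma RA.sub (h : RA H M f f') (h' : RA H M' k k') : RA H (M + M') (f - k) (f' - k') := by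
  have := h.add (h'.smul (-1))
  simpa [sub_eq_add_neg] using this

lemma RA.mul (h : RA H M f f') (h' : RA H M' k k') : RA H (M * M') (f * k) (k' * f') := by
  obtain ⟨ι, _, r, g, h1, h2, h3, h4⟩ := h
  obtain ⟨κ, _, s, l, e1, e2, e3, e4⟩ := h'
  have hM : 0 ≤ M := le_trans (Finset.sum_nonneg fun _ _ => abs_nonneg _) h4
  refine ⟨ι × κ, inferInstance, fun q => r q.1 * s q.2, fun q => g q.1 * l q.2, ?_, ?_, ?_, ?_⟩
  · rw [h1, e1, Finset.sum_mul_sum, Fintype.sum_prod_type]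
    simp [MonoidAlgebra.single_mul_single]
  · rw [h2, e2, Finset.sum_mul_sum, Fintype.sum_prod_type, Finset.sum_comm]
    simp [MonoidAlgebra.single_mul_single, mul_comm]
  · rintro ⟨i, j⟩
    exact H.mul_mem (h3 i) (e3 j)
  · rw [Fintype.sum_prod_type]
    simp only [abs_mul, ← Finset.mul_sum, ← Finset.sum_mul]
    exact mul_le_mul h4 e4 (Finset.sum_nonneg fun _ _ => abs_nonneg _) hM

lemma RA.nonneg (h : RA H M f f') : 0 ≤ M := by
  obtain ⟨ι, _, r, g, h1, h2, h3, h4⟩ := h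
  exact le_trans (Finset.sum_nonneg fun _ _ => abs_nonneg _) h4

/-- the average of a cyclic group of order `p` is self-adjoint with `ℓ¹`-norm `1` -/
lemma RA.avg {p : ℕ} (hp : 0 < p) {x : G} (hx : x ^ p = 1) (hxH : x ∈ H) :
    RA H 1 (Sos.avg p (MonoidAlgebra.single x (1 : ℝ)))
      (Sos.avg p (MonoidAlgebra.single x (1 : ℝ))) := by
  have key : ∀ y : G, Sos.avg p (MonoidAlgebra.single y (1 : ℝ)) =
      ∑ i : Fin p, MonoidAlgebra.single (y ^ (i : ℕ)) ((p : ℝ)⁻¹) := by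
    intro y
    unfold Sos.avg
    rw [Finset.smul_sum, Finset.sum_range]
    simp [MonoidAlgebra.single_pow, MonoidAlgebra.smul_single]
  refine ⟨Fin p, inferInstance, fun _ => (p : ℝ)⁻¹, fun i => x ^ (i : ℕ), key x, ?_,
    fun i => H.pow_mem hxH _, ?_⟩
  · have h1 : ∀ i : Fin p, (x ^ (i : ℕ))⁻¹ = x * x ^ (p - 1 - (i : ℕ)) := by
      intro i
      have hi := i.2
      rw [inv_eq_iff_mul_eq_one, ← pow_succ', ← pow_add]
      have : (i : ℕ) + (p - 1 - (i : ℕ) + 1) = p := by omega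
      rw [this, hx]
    have h2 : ∑ i : Fin p, MonoidAlgebra.single (x ^ (i : ℕ))⁻¹ ((p : ℝ)⁻¹) =
        ∑ i ∈ range p, MonoidAlgebra.single (x * x ^ (p - 1 - i)) ((p : ℝ)⁻¹) := by
      rw [Finset.sum_range]
      exact Finset.sum_congr rfl fun i _ => by rw [h1]
    rw [h2, Finset.sum_range_reflect (fun j => MonoidAlgebra.single (x * x ^ j) ((p : ℝ)⁻¹)) p]
    have h3 : (MonoidAlgebra.single x (1 : ℝ)) ^ p = 1 := by
      rw [MonoidAlgebra.single_pow, hx, one_pow, MonoidAlgebra.one_def]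
    rw [← Sos.avg_mul_self_left hp h3]
    unfold Sos.avg
    rw [mul_smul_comm, Finset.mul_sum, Finset.smul_sum]
    apply Finset.sum_congr rfl
    intro i _
    rw [MonoidAlgebra.single_pow, MonoidAlgebra.single_mul_single, MonoidAlgebra.smul_single]
    simp
  · simp only [Finset.sum_const, card_univ, Fintype.card_fin, nsmul_eq_mul]
    have : (0 : ℝ) < p := by exact_mod_cast hp
    rw [abs_of_pos (by positivity), mul_inv_cancel₀ this.ne']

section Approx

variable [CompleteSpace L] {v : G → L →L[ℂ] L} {F : Set G} {δ : ℝ}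

lemma norm_coe_smul (r : ℝ) (A : L →L[ℂ] L) : ‖(r : ℂ) • A‖ = |r| * ‖A‖ := by
  rw [norm_smul, Complex.norm_real, Real.norm_eq_abs]

lemma ev_norm (hv : AlmostRep v F δ) (hH : (H : Set G) ⊆ F) (h : RA H M f f') :
    ‖ev v f‖ ≤ M * (1 + δ) := by
  obtain ⟨ι, _, r, g, h1, h2, h3, h4⟩ := h
  have hδ : 0 ≤ 1 + δ := le_trans (norm_nonneg _) (hv.norm 1 (hH H.one_mem))
  rw [h1, ev_sum]
  refine (norm_sum_le _ _).trans ?_
  refine le_trans (Finset.sum_le_sum (g := fun i => |r i| * (1 + δ)) ?_) ?_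
  · intro i _
    rw [ev_single, norm_coe_smul]
    exact mul_le_mul_of_nonneg_left (hv.norm _ (hH (h3 i))) (abs_nonneg _)
  · rw [← Finset.sum_mul]
    exact mul_le_mul_of_nonneg_right h4 hδ

lemma delta_nonneg (hv : AlmostRep v F δ) : 0 ≤ δ := le_trans (norm_nonneg _) hv.one

lemma ev_mul (hv : AlmostRep v F δ) (hH : (H : Set G) ⊆ F) (h : RA H M f f')
    (h' : RA H M' k k') : ‖ev v f * ev v k - ev v (f * k)‖ ≤ δ * (M * M') := by
  have hM := h.nonneg
  obtain ⟨ι, _, r, g, h1, h2, h3, h4⟩ := h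
  obtain ⟨κ, _, s, l, e1, e2, e3, e4⟩ := h'
  have hδ := delta_nonneg hv
  have e : ev v f * ev v k - ev v (f * k) =
      ∑ i, ∑ j, ((r i * s j : ℝ) : ℂ) • (v (g i) ∘L v (l j) - v (g i * l j)) := by
    rw [h1, e1, Finset.sum_mul_sum]
    simp only [ev_sum, ev_single, MonoidAlgebra.single_mul_single]
    rw [Finset.sum_mul_sum, ← Finset.sum_sub_distrib]
    apply Finset.sum_congr rfl
    intro i _
    rw [← Finset.sum_sub_distrib]
    apply Finset.sum_congr rfl
    intro j _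
    rw [smul_mul_smul_comm, smul_sub]
    push_cast
    rfl
  rw [e]
  refine (norm_sum_le _ _).trans ?_
  refine le_trans (Finset.sum_le_sum (g := fun i => ∑ j, |r i| * |s j| * δ) ?_) ?_
  · intro i _
    refine (norm_sum_le _ _).trans (Finset.sum_le_sum ?_)
    intro j _
    rw [norm_coe_smul, abs_mul]
    exact mul_le_mul_of_nonneg_left (hv.mul _ (hH (h3 i)) _ (hH (e3 j))) (by positivity)
  · simp only [← Finset.mul_sum, ← Finset.sum_mul]
    rw [mul_comm δ]
    apply mul_le_mul_of_nonneg_right _ hδ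
    exact mul_le_mul h4 e4 (Finset.sum_nonneg fun _ _ => abs_nonneg _) hM

lemma ev_adj (hv : AlmostRep v F δ) (hH : (H : Set G) ⊆ F) (h : RA H M f f') :
    ‖ContinuousLinearMap.adjoint (ev v f) - ev v f'‖ ≤ δ * M := by
  obtain ⟨ι, _, r, g, h1, h2, h3, h4⟩ := h
  have hδ := delta_nonneg hv
  have e : ContinuousLinearMap.adjoint (ev v f) - ev v f' =
      ∑ i, ((r i : ℝ) : ℂ) • (ContinuousLinearMap.adjoint (v (g i)) - v (g i)⁻¹) := by
    rw [h1, h2]
    simp only [ev_sum, ev_single]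
    rw [map_sum, ← Finset.sum_sub_distrib]
    apply Finset.sum_congr rfl
    intro i _
    rw [map_smulₛₗ, smul_sub, Complex.conj_ofReal]
  rw [e]
  refine (norm_sum_le _ _).trans ?_
  refine le_trans (Finset.sum_le_sum (g := fun i => |r i| * δ) ?_) ?_
  · intro i _
    rw [norm_coe_smul]
    exact mul_le_mul_of_nonneg_left (hv.star _ (hH (h3 i))) (abs_nonneg _)
  · rw [← Finset.sum_mul, mul_comm δ]
    exact mul_le_mul_of_nonneg_right h4 hδ

open scoped InnerProductSpace in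
/-- `ev (f' f)` is almost positive; more precisely it is `‖ev f T‖²` up to `3 δ M²`. -/
lemma ev_pos (hv : AlmostRep v F δ) (hH : (H : Set G) ⊆ F) (hδ1 : δ ≤ 1) (h : RA H M f f')
    (T : L) : |(⟪T, ev v (f' * f) T⟫_ℂ).re - ‖ev v f T‖ ^ 2| ≤ 3 * δ * M ^ 2 * ‖T‖ ^ 2 := by
  have hM := h.nonneg
  have hδ := delta_nonneg hv
  have h1 : ‖(ev v (f' * f) - ContinuousLinearMap.adjoint (ev v f) * ev v f)‖ ≤ 3 * δ * M ^ 2 := by
    have e : ev v (f' * f) - ContinuousLinearMap.adjoint (ev v f) * ev v f =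
        -(ev v f' * ev v f - ev v (f' * f)) -
          (ContinuousLinearMap.adjoint (ev v f) - ev v f') * ev v f := by
      noncomm_ring
    rw [e]
    refine (norm_sub_le _ _).trans ?_
    rw [norm_neg]
    have a1 := ev_mul hv hH h.symm h
    have a2 : ‖(ContinuousLinearMap.adjoint (ev v f) - ev v f') * ev v f‖ ≤
        (δ * M) * (M * (1 + δ)) :=
      (norm_mul_le _ _).trans (mul_le_mul (ev_adj hv hH h) (ev_norm hv hH h) (norm_nonneg _)
        (by positivity))
    have a3 : (δ * M) * (M * (1 + δ)) ≤ 2 * δ * M ^ 2 := by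
      nlinarith [mul_nonneg hδ (mul_nonneg hM hM)]
    nlinarith [a1, a2, a3]
  have h2 : (⟪T, ev v (f' * f) T⟫_ℂ).re - ‖ev v f T‖ ^ 2 =
      (⟪T, (ev v (f' * f) - ContinuousLinearMap.adjoint (ev v f) * ev v f) T⟫_ℂ).re := by
    rw [ContinuousLinearMap.sub_apply, inner_sub_right, Complex.sub_re]
    congr 1
    have : ((ContinuousLinearMap.adjoint (ev v f) * ev v f) T) =
        ContinuousLinearMap.adjoint (ev v f) (ev v f T) := rfl
    rw [this, ContinuousLinearMap.adjoint_inner_right]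
    exact (inner_self_eq_norm_sq (𝕜 := ℂ) (ev v f T)).symm
  rw [h2]
  refine (Complex.abs_re_le_norm _).trans ?_
  refine (norm_inner_le_norm _ _).trans ?_
  have h3 := ContinuousLinearMap.le_opNorm
    (ev v (f' * f) - ContinuousLinearMap.adjoint (ev v f) * ev v f) T
  calc ‖T‖ * ‖(ev v (f' * f) - ContinuousLinearMap.adjoint (ev v f) * ev v f) T‖
      ≤ ‖T‖ * ((3 * δ * M ^ 2) * ‖T‖) := by
        apply mul_le_mul_of_nonneg_left _ (norm_nonneg _)
        exact h3.trans (mul_le_mul_of_nonneg_right h1 (norm_nonneg _))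
    _ = 3 * δ * M ^ 2 * ‖T‖ ^ 2 := by ring

end Approx

end

end Crest.Agent.R073.Quant
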