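import Crest.Agent.R073.Defs

/-!
Row 73, module M6d, abstract part: for isometries `u, v` of order `p` (prime, `p ≥ 64`) of an inner
product space with central commutator, the averaging projections satisfy
`2 Re ⟪Q_u ξ, Q_v ξ⟫ + (‖Q_u ξ‖² + ‖Q_v ξ‖²)/8 ≥ 0`.
-/

set_option autoImplicit false

namespace Crest.Agent.R073

open scoped ComplexConjugate InnerProductSpace
open Finset

noncomputable section

/-- group computation -/
theorem pow_mul_pow_of_cm {G : Type} [Group G] (x y : G) (hx : Commute (cm x y) x)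
    (hy : Commute (cm x y) y) (j k : ℕ) :
    x ^ j * y ^ k = cm x y ^ (j * k) * (y ^ k * x ^ j) := by
  have h1 : x * y = cm x y * (y * x) := by unfold cm; group
  have h2 : ∀ k : ℕ, x * y ^ k = cm x y ^ k * (y ^ k * x) := by
    intro k
    induction k with
    | zero => simp
    | succ k ih =>
      have hc : y ^ k * cm x y = cm x y * y ^ k := (hy.pow_right k).eq.symm
      calc x * y ^ (k + 1) = x * y ^ k * y := by rw [pow_succ, mul_assoc]
        _ = cm x y ^ k * (y ^ k * x) * y := by rw [ih]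
        _ = cm x y ^ k * (y ^ k * (x * y)) := by simp only [mul_assoc]
        _ = cm x y ^ k * (y ^ k * (cm x y * (y * x))) := by rw [h1]
        _ = cm x y ^ k * ((y ^ k * cm x y) * (y * x)) := by simp only [mul_assoc]
        _ = cm x y ^ k * ((cm x y * y ^ k) * (y * x)) := by rw [hc]
        _ = cm x y ^ (k + 1) * (y ^ (k + 1) * x) := by
            rw [pow_succ (cm x y), pow_succ y]; simp only [mul_assoc]
  induction j with
  | zero => simp
  | succ j ih =>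
    have hc : x ^ j * cm x y ^ k = cm x y ^ k * x ^ j := (hx.pow_pow k j).eq.symm
    calc x ^ (j + 1) * y ^ k = x ^ j * (x * y ^ k) := by rw [pow_succ, mul_assoc]
      _ = x ^ j * (cm x y ^ k * (y ^ k * x)) := by rw [h2]
      _ = (x ^ j * cm x y ^ k) * (y ^ k * x) := by simp only [mul_assoc]
      _ = cm x y ^ k * (x ^ j * y ^ k * x) := by rw [hc]; simp only [mul_assoc]
      _ = cm x y ^ k * (cm x y ^ (j * k) * (y ^ k * x ^ j) * x) := by rw [ih]
      _ = (cm x y ^ k * cm x y ^ (j * k)) * (y ^ k * (x ^ j * x)) := by simp only [mul_assoc]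
      _ = cm x y ^ ((j + 1) * k) * (y ^ k * x ^ (j + 1)) := by
          rw [← pow_add, ← pow_succ]
          congr 2
          ring

section Abs

variable {H : Type} [NormedAddCommGroup H] [InnerProductSpace ℂ H]

/-- inner product preserving endomorphism -/
def IsIso (u : Module.End ℂ H) : Prop := ∀ x y, ⟪u x, u y⟫_ℂ = ⟪x, y⟫_ℂ

/-- average over the powers -/
def av (p : ℕ) (u : Module.End ℂ H) : Module.End ℂ H := (p : ℂ)⁻¹ • ∑ k ∈ range p, u ^ k

lemma IsIso.pow {u : Module.End ℂ H} (hu : IsIso u) (k : ℕ) : IsIso (u ^ k) := by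
  induction k with
  | zero => intro x y; simp
  | succ k ih =>
    intro x y
    rw [pow_succ]
    simp only [Module.End.mul_apply]
    rw [ih, hu]

lemma mul_av {p : ℕ} {u : Module.End ℂ H} (hp : u ^ p = 1) : u * av p u = av p u := by
  unfold av
  rw [mul_smul_comm, Finset.mul_sum]
  congr 1
  have h1 : ∑ k ∈ range p, u * u ^ k = ∑ k ∈ range p, u ^ (k + 1) :=
    Finset.sum_congr rfl fun k _ => (pow_succ' u k).symm
  rw [h1]
  have h2 := Finset.sum_range_succ (fun k => u ^ k) p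
  have h3 := Finset.sum_range_succ' (fun k => u ^ k) p
  rw [h2, hp, pow_zero] at h3
  exact (add_right_cancel h3).symm

lemma pow_mul_av {p : ℕ} {u : Module.End ℂ H} (hp : u ^ p = 1) (j : ℕ) :
    u ^ j * av p u = av p u := by
  induction j with
  | zero => simp
  | succ j ih => rw [pow_succ, mul_assoc, mul_av hp, ih]

lemma pow_av_apply {p : ℕ} {u : Module.End ℂ H} (hp : u ^ p = 1) (j : ℕ) (x : H) :
    (u ^ j) (av p u x) = av p u x := by
  have := pow_mul_av hp j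
  exact congrArg (fun f => f x) this

lemma av_apply (p : ℕ) (u : Module.End ℂ H) (x : H) :
    av p u x = (p : ℂ)⁻¹ • ∑ k ∈ range p, (u ^ k) x := by
  unfold av
  simp [LinearMap.sum_apply]

lemma av_of_fix {p : ℕ} (hp0 : p ≠ 0) {u : Module.End ℂ H} {x : H} (hx : u x = x) :
    av p u x = x := by
  rw [av_apply]
  have h1 : ∀ k : ℕ, (u ^ k) x = x := by
    intro k
    induction k with
    | zero => simp
    | succ k ih => rw [pow_succ, Module.End.mul_apply, hx, ih]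
  rw [Finset.sum_congr rfl fun k _ => h1 k, Finset.sum_const, Finset.card_range,
    ← Nat.cast_smul_eq_nsmul ℂ, smul_smul, inv_mul_cancel₀ (by exact_mod_cast hp0), one_smul]

lemma av_av {p : ℕ} (hp0 : p ≠ 0) {u : Module.End ℂ H} (hp : u ^ p = 1) (x : H) :
    av p u (av p u x) = av p u x := by
  apply av_of_fix hp0
  have := pow_av_apply hp 1 x
  simpa using this

lemma inner_av_left {p : ℕ} (hp0 : p ≠ 0) {u : Module.End ℂ H} (hu : IsIso u) (hp : u ^ p = 1)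
    (x y : H) : ⟪av p u x, y⟫_ℂ = ⟪av p u x, av p u y⟫_ℂ := by
  have h1 : ∀ j : ℕ, ⟪av p u x, (u ^ j) y⟫_ℂ = ⟪av p u x, y⟫_ℂ := by
    intro j
    have h2 := hu.pow j (av p u x) y
    rw [pow_av_apply hp] at h2
    exact h2
  conv_rhs => rw [av_apply p u y]
  rw [inner_smul_right, inner_sum, Finset.sum_congr rfl fun j _ => h1 j, Finset.sum_const,
    Finset.card_range, nsmul_eq_mul, ← mul_assoc, inv_mul_cancel₀ (by exact_mod_cast hp0), one_mul]

lemma inner_av_right {p : ℕ} (hp0 : p ≠ 0) {u : Module.End ℂ H} (hu : IsIso u) (hp : u ^ p = 1)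
    (x y : H) : ⟪x, av p u y⟫_ℂ = ⟪av p u x, av p u y⟫_ℂ := by
  rw [← inner_conj_symm, inner_av_left hp0 hu hp, inner_conj_symm]

lemma inner_av_comm {p : ℕ} (hp0 : p ≠ 0) {u : Module.End ℂ H} (hu : IsIso u) (hp : u ^ p = 1)
    (x y : H) : ⟪av p u x, y⟫_ℂ = ⟪x, av p u y⟫_ℂ :=
  (inner_av_left hp0 hu hp x y).trans (inner_av_right hp0 hu hp x y).symm

lemma inner_co_left {p : ℕ} (hp0 : p ≠ 0) {u : Module.End ℂ H} (hu : IsIso u) (hp : u ^ p = 1)
    (x y : H) : ⟪x - av p u x, y⟫_ℂ = ⟪x - av p u x, y - av p u y⟫_ℂ := by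
  rw [inner_sub_right (x - av p u x) y, inner_sub_left x, inner_sub_left x,
    inner_av_right hp0 hu hp]
  simp

lemma inner_co_right {p : ℕ} (hp0 : p ≠ 0) {u : Module.End ℂ H} (hu : IsIso u) (hp : u ^ p = 1)
    (x y : H) : ⟪x, y - av p u y⟫_ℂ = ⟪x - av p u x, y - av p u y⟫_ℂ := by
  rw [← inner_conj_symm, inner_co_left hp0 hu hp, inner_conj_symm]

lemma norm_co_sq {p : ℕ} (hp0 : p ≠ 0) {u : Module.End ℂ H} (hu : IsIso u) (hp : u ^ p = 1)
    (x : H) : ‖x - av p u x‖ ^ 2 = ‖x‖ ^ 2 - ‖av p u x‖ ^ 2 := by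
  have h1 : RCLike.re ⟪x, av p u x⟫_ℂ = ‖av p u x‖ ^ 2 := by
    rw [inner_av_right hp0 hu hp, inner_self_eq_norm_sq_to_K]
    norm_cast
  rw [norm_sub_sq (𝕜 := ℂ), h1]; ring

lemma norm_sub_av_le {p : ℕ} (hp0 : p ≠ 0) {u : Module.End ℂ H} (hu : IsIso u) (x : H) :
    ‖x - av p u x‖ ≤ p * ‖u x - x‖ := by
  have hnorm : ∀ (v : Module.End ℂ H), IsIso v → ∀ z, ‖v z‖ = ‖z‖ := by
    intro v hv z
    have h1 := hv z z
    rw [inner_self_eq_norm_sq_to_K, inner_self_eq_norm_sq_to_K] at h1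
    have h2 : ‖v z‖ ^ 2 = ‖z‖ ^ 2 := by exact_mod_cast h1
    exact (sq_eq_sq₀ (norm_nonneg _) (norm_nonneg _)).mp h2
  have h1 : ∀ k : ℕ, ‖(u ^ k) x - x‖ ≤ k * ‖u x - x‖ := by
    intro k
    induction k with
    | zero => simp
    | succ k ih =>
      have h2 : (u ^ (k + 1)) x - x = (u ^ k) (u x - x) + ((u ^ k) x - x) := by
        rw [pow_succ, Module.End.mul_apply, map_sub]; abel
      rw [h2]
      calc _ ≤ ‖(u ^ k) (u x - x)‖ + ‖(u ^ k) x - x‖ := norm_add_le _ _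
        _ ≤ ‖u x - x‖ + k * ‖u x - x‖ := add_le_add (hnorm _ (hu.pow k) _).le ih
        _ = ((k + 1 : ℕ) : ℝ) * ‖u x - x‖ := by push_cast; ring
  have hpC : (p : ℂ) ≠ 0 := by exact_mod_cast hp0
  have h2 : x - av p u x = (p : ℂ)⁻¹ • ∑ k ∈ range p, (x - (u ^ k) x) := by
    rw [av_apply, Finset.sum_sub_distrib, smul_sub, Finset.sum_const, Finset.card_range,
      ← Nat.cast_smul_eq_nsmul ℂ, smul_smul, inv_mul_cancel₀ hpC, one_smul]
  rw [h2, norm_smul, norm_inv, Complex.norm_natCast]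
  have hpR : (0 : ℝ) < p := by exact_mod_cast Nat.pos_of_ne_zero hp0
  rw [inv_mul_le_iff₀ hpR]
  calc ‖∑ k ∈ range p, (x - (u ^ k) x)‖ ≤ ∑ k ∈ range p, ‖x - (u ^ k) x‖ := norm_sum_le _ _
    _ ≤ ∑ _k ∈ range p, (p : ℝ) * ‖u x - x‖ := by
        refine Finset.sum_le_sum fun k hk => ?_
        rw [norm_sub_rev]
        refine (h1 k).trans ?_
        have : (k : ℝ) ≤ p := by exact_mod_cast (Finset.mem_range.mp hk).le
        exact mul_le_mul_of_nonneg_right this (norm_nonneg _)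
    _ = p * (p * ‖u x - x‖) := by rw [Finset.sum_const, Finset.card_range, nsmul_eq_mul]

/-- relations of a Heisenberg pair on `H` -/
structure Heis (p : ℕ) (u v w : Module.End ℂ H) : Prop where
  iu : IsIso u
  iv : IsIso v
  iw : IsIso w
  pu : u ^ p = 1
  pv : v ^ p = 1
  pw : w ^ p = 1
  cu : Commute w u
  cv : Commute w v
  rel : ∀ j k : ℕ, u ^ j * v ^ k = w ^ (j * k) * (v ^ k * u ^ j)

lemma commute_av {p : ℕ} {w u : Module.End ℂ H} (h : Commute w u) : Commute (av p w) (av p u) := by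
  unfold av
  refine Commute.smul_left (Commute.smul_right ?_ _) _
  refine Commute.sum_left _ _ _ fun k _ => Commute.sum_right _ _ _ fun j _ => h.pow_pow k j

/-- the good part: `w ξ = ξ` -/
lemma heis_fix {p : ℕ} (hp0 : p ≠ 0) {u v w : Module.End ℂ H} (h : Heis p u v w) (ξ : H)
    (hξ : w ξ = ξ) : 0 ≤ RCLike.re ⟪ξ - av p u ξ, ξ - av p v ξ⟫_ℂ := by
  have hwk : ∀ k : ℕ, (w ^ k) ξ = ξ := by
    intro k
    induction k with
    | zero => simp
    | succ k ih => rw [pow_succ, Module.End.mul_apply, hξ, ih]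
  have hcomm : ∀ j k : ℕ, (u ^ j) ((v ^ k) ξ) = (v ^ k) ((u ^ j) ξ) := by
    intro j k
    have h1 := congrArg (fun f => f ξ) (h.rel j k)
    simp only [Module.End.mul_apply] at h1
    rw [h1]
    have h2 : Commute (w ^ (j * k)) (v ^ k * u ^ j) :=
      Commute.mul_right (h.cv.pow_pow _ _) (h.cu.pow_pow _ _)
    have h3 := congrArg (fun f => f ξ) h2.eq
    simp only [Module.End.mul_apply] at h3
    rw [h3, hwk]
  have hAB : av p u (av p v ξ) = av p v (av p u ξ) := by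
    rw [av_apply p v ξ, map_smul, map_sum]
    rw [av_apply p u ξ, map_smul, map_sum]
    simp only [av_apply]
    rw [← Finset.smul_sum, ← Finset.smul_sum, Finset.sum_comm]
    congr 2
    refine Finset.sum_congr rfl fun j _ => Finset.sum_congr rfl fun k _ => hcomm j k
  have e1 : (ξ - av p v ξ) - av p u (ξ - av p v ξ) = (ξ - av p u ξ) - av p v (ξ - av p u ξ) := by
    rw [map_sub, map_sub, hAB]; abel
  rw [inner_co_left hp0 h.iu h.pu ξ (ξ - av p v ξ), e1, inner_co_right hp0 h.iv h.pv,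
    inner_self_eq_norm_sq_to_K]
  norm_cast
  positivity

/-- the part orthogonal to the fixed vectors of `w` -/
lemma heis_orth {p : ℕ} (hp0 : p.Prime) (hp64 : 64 ≤ p) {u v w : Module.End ℂ H}
    (h : Heis p u v w) (ξ : H) (hξ : av p w ξ = 0) :
    0 ≤ 2 * RCLike.re ⟪ξ - av p u ξ, ξ - av p v ξ⟫_ℂ +
      1 / 8 * (‖ξ - av p u ξ‖ ^ 2 + ‖ξ - av p v ξ‖ ^ 2) := by
  have hp0' := hp0.ne_zero
  set α := av p u ξ with hα
  set β := av p v ξ with hβ
  have hZα : av p w α = 0 := by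
    have h1 := congrArg (fun f => f ξ) (commute_av (p := p) h.cu).eq
    simp only [Module.End.mul_apply] at h1
    rw [hα, h1, hξ, map_zero]
  have huα : ∀ j : ℕ, (u ^ j) α = α := fun j => pow_av_apply h.pu j ξ
  -- the off-diagonal coefficients vanish
  have hoff : ∀ k ∈ range p, k ≠ 0 → ⟪(v ^ k) α, α⟫_ℂ = 0 := by
    intro k hk hk0
    have hkp := Finset.mem_range.mp hk
    have hcop : k.Coprime p :=
      (Nat.coprime_of_lt_prime hk0 hkp hp0).symm
    obtain ⟨j0, -, hj0⟩ := Nat.exists_mul_mod_eq_one_of_coprime hcop hp0.one_lt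
    have hwj : w ^ (j0 * k) = w := by
      have h1 : j0 * k = p * (j0 * k / p) + 1 := by
        have := Nat.div_add_mod (j0 * k) p
        rw [mul_comm j0 k, hj0] at this
        rw [mul_comm j0 k]
        exact this.symm
      rw [h1, pow_add, pow_mul, h.pw, one_pow, one_mul, pow_one]
    have h2 : ∀ i : ℕ, ⟪(w ^ i) ((v ^ k) α), α⟫_ℂ = ⟪(v ^ k) α, α⟫_ℂ := by
      intro i
      have h3 := h.iu.pow (j0 * i) ((v ^ k) α) α
      rw [huα] at h3
      have h4 := congrArg (fun f => f α) (h.rel (j0 * i) k)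
      simp only [Module.End.mul_apply] at h4
      rw [huα] at h4
      have h5 : w ^ (j0 * i * k) = w ^ i := by
        have : j0 * i * k = (j0 * k) * i := by ring
        rw [this, pow_mul, hwj]
      rw [h5] at h4
      rw [← h4, h3]
    have h3 : ⟪(v ^ k) α, α⟫_ℂ = ⟪av p w ((v ^ k) α), α⟫_ℂ := by
      rw [av_apply, inner_smul_left, sum_inner, Finset.sum_congr rfl fun i _ => h2 i,
        Finset.sum_const, Finset.card_range, nsmul_eq_mul, ← mul_assoc]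
      rw [map_inv₀, Complex.conj_natCast, inv_mul_cancel₀ (by exact_mod_cast hp0'), one_mul]
    rw [h3, inner_av_comm hp0' h.iw h.pw, hZα, inner_zero_right]
  have hBα : ‖av p v α‖ ^ 2 = (p : ℝ)⁻¹ * ‖α‖ ^ 2 := by
    have h1 : ⟪av p v α, av p v α⟫_ℂ = (p : ℂ)⁻¹ * ⟪α, α⟫_ℂ := by
      rw [← inner_av_left hp0' h.iv h.pv, av_apply, inner_smul_left, sum_inner,
        map_inv₀, Complex.conj_natCast]
      congr 1
      rw [Finset.sum_eq_single 0]
      · simp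
      · intro k hk hk0; exact hoff k hk hk0
      · intro h0; exact absurd (Finset.mem_range.mpr hp0.pos) h0
    rw [inner_self_eq_norm_sq_to_K, inner_self_eq_norm_sq_to_K] at h1
    have h2 : ((‖av p v α‖ ^ 2 : ℝ) : ℂ) = (((p : ℝ)⁻¹ * ‖α‖ ^ 2 : ℝ) : ℂ) := by
      push_cast
      exact h1
    exact Complex.ofReal_injective h2
  -- Re ⟪α, β⟫ is small
  have hr : 2 * RCLike.re ⟪α, β⟫_ℂ ≤ 1 / 8 * (‖α‖ ^ 2 + ‖β‖ ^ 2) := by
    have h1 : ⟪α, β⟫_ℂ = ⟪av p v α, β⟫_ℂ := by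
      rw [hβ, inner_av_comm hp0' h.iv h.pv, av_av hp0' h.pv]
    have h2 : ‖av p v α‖ ≤ 1 / 8 * ‖α‖ := by
      have h3 : ‖av p v α‖ ^ 2 ≤ (1 / 8 * ‖α‖) ^ 2 := by
        rw [hBα]
        have h4 : (p : ℝ)⁻¹ ≤ 1 / 64 := by
          rw [inv_le_comm₀ (by exact_mod_cast hp0.pos) (by norm_num)]
          norm_num
          exact_mod_cast hp64
        nlinarith [sq_nonneg ‖α‖]
      exact (pow_le_pow_iff_left₀ (norm_nonneg _) (by positivity) two_ne_zero).mp h3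
    have h3 : RCLike.re ⟪av p v α, β⟫_ℂ ≤ ‖av p v α‖ * ‖β‖ := re_inner_le_norm _ _
    rw [h1]
    nlinarith [norm_nonneg β, norm_nonneg α, sq_nonneg (‖α‖ - ‖β‖),
      mul_le_mul_of_nonneg_right h2 (norm_nonneg β)]
  -- Cauchy-Schwarz
  have ha : RCLike.re ⟪ξ, α⟫_ℂ = ‖α‖ ^ 2 := by
    rw [hα, inner_av_right hp0' h.iu h.pu, inner_self_eq_norm_sq_to_K]; norm_cast
  have hb : RCLike.re ⟪ξ, β⟫_ℂ = ‖β‖ ^ 2 := by
    rw [hβ, inner_av_right hp0' h.iv h.pv, inner_self_eq_norm_sq_to_K]; norm_cast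
  have hab : ‖α + β‖ ^ 2 = ‖α‖ ^ 2 + 2 * RCLike.re ⟪α, β⟫_ℂ + ‖β‖ ^ 2 := norm_add_sq (𝕜 := ℂ) _ _
  have hcs : (‖α‖ ^ 2 + ‖β‖ ^ 2) ^ 2 ≤ ‖ξ‖ ^ 2 * ‖α + β‖ ^ 2 := by
    have h1 : RCLike.re ⟪ξ, α + β⟫_ℂ = ‖α‖ ^ 2 + ‖β‖ ^ 2 := by
      rw [inner_add_right, map_add, ha, hb]
    have h2 : RCLike.re ⟪ξ, α + β⟫_ℂ ≤ ‖ξ‖ * ‖α + β‖ := re_inner_le_norm _ _
    rw [h1] at h2
    calc (‖α‖ ^ 2 + ‖β‖ ^ 2) ^ 2 ≤ (‖ξ‖ * ‖α + β‖) ^ 2 := pow_le_pow_left₀ (by positivity) h2 2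
      _ = _ := by ring
  have hcross : RCLike.re ⟪ξ - α, ξ - β⟫_ℂ = ‖ξ‖ ^ 2 - ‖α‖ ^ 2 - ‖β‖ ^ 2 + RCLike.re ⟪α, β⟫_ℂ := by
    rw [inner_sub_left, inner_sub_right, inner_sub_right, map_sub, map_sub, map_sub, hb]
    have h1 : RCLike.re ⟪α, ξ⟫_ℂ = ‖α‖ ^ 2 := by rw [inner_re_symm, ha]
    have h2 : RCLike.re ⟪ξ, ξ⟫_ℂ = ‖ξ‖ ^ 2 := by
      rw [inner_self_eq_norm_sq_to_K]; norm_cast
    rw [h1, h2]; ring
  rw [hcross, hα, hβ, norm_co_sq hp0' h.iu h.pu, norm_co_sq hp0' h.iv h.pv, ← hα, ← hβ]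
  rw [hab] at hcs
  set a := ‖α‖ ^ 2
  set b := ‖β‖ ^ 2
  set n := ‖ξ‖ ^ 2
  set r := RCLike.re ⟪α, β⟫_ℂ
  have ha0 : 0 ≤ a := by positivity
  have hb0 : 0 ≤ b := by positivity
  have hn0 : 0 ≤ n := by positivity
  have hs0 : 0 ≤ a + 2 * r + b := by rw [← hab]; positivity
  -- goal: 0 ≤ 2 * (n - a - b + r) + 1/8 * (n - a + (n - b))
  by_contra hneg
  push Not at hneg
  rcases (lt_or_eq_of_le hs0) with hs | hs
  · nlinarith [mul_pos hs (neg_pos.mpr hneg), mul_nonneg (by linarith : 0 ≤ 1 / 8 * (a + b) - 2 * r)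
      (by nlinarith : 0 ≤ (a + b) - 2 * r)]
  · rw [← hs, mul_zero] at hcs
    have h1 : a + b = 0 := by nlinarith
    have h2 : r = 0 := by linarith
    nlinarith

/-- the inequality for a Heisenberg pair -/
theorem heis_pair {p : ℕ} (hp0 : p.Prime) (hp64 : 64 ≤ p) {u v w : Module.End ℂ H}
    (h : Heis p u v w) (ξ : H) :
    0 ≤ 2 * RCLike.re ⟪ξ - av p u ξ, ξ - av p v ξ⟫_ℂ +
      1 / 8 * (‖ξ - av p u ξ‖ ^ 2 + ‖ξ - av p v ξ‖ ^ 2) := by
  have hp0' := hp0.ne_zero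
  set ξ0 := av p w ξ with hξ0
  set ξ1 := ξ - av p w ξ with hξ1
  have hsum : ξ = ξ0 + ξ1 := by rw [hξ0, hξ1]; abel
  have hw0 : w ξ0 = ξ0 := by
    have := pow_av_apply h.pw 1 ξ
    simpa using this
  have hz1 : av p w ξ1 = 0 := by
    rw [hξ1, map_sub, av_av hp0' h.pw, sub_self]
  have hcu : ∀ x, av p w (av p u x) = av p u (av p w x) := fun x =>
    congrArg (fun f => f x) (commute_av (p := p) h.cu).eq
  have hcv : ∀ x, av p w (av p v x) = av p v (av p w x) := fun x =>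
    congrArg (fun f => f x) (commute_av (p := p) h.cv).eq
  have horth : ∀ x y, av p w x = x → av p w y = 0 → ⟪x, y⟫_ℂ = 0 := by
    intro x y hx hy
    rw [← hx, inner_av_comm hp0' h.iw h.pw, hy, inner_zero_right]
  have horth' : ∀ x y, av p w x = x → av p w y = 0 → ⟪y, x⟫_ℂ = 0 := by
    intro x y hx hy
    rw [← inner_conj_symm, horth x y hx hy, map_zero]
  have h00 : av p w ξ0 = ξ0 := av_of_fix hp0' hw0
  have hu0 : av p w (ξ0 - av p u ξ0) = ξ0 - av p u ξ0 := by rw [map_sub, hcu, h00]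
  have hv0 : av p w (ξ0 - av p v ξ0) = ξ0 - av p v ξ0 := by rw [map_sub, hcv, h00]
  have hu1 : av p w (ξ1 - av p u ξ1) = 0 := by rw [map_sub, hcu, hz1, map_zero, sub_zero]
  have hv1 : av p w (ξ1 - av p v ξ1) = 0 := by rw [map_sub, hcv, hz1, map_zero, sub_zero]
  have eu : ξ - av p u ξ = (ξ0 - av p u ξ0) + (ξ1 - av p u ξ1) := by
    conv_lhs => rw [hsum]
    rw [map_add]; abel
  have ev : ξ - av p v ξ = (ξ0 - av p v ξ0) + (ξ1 - av p v ξ1) := by
    conv_lhs => rw [hsum]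
    rw [map_add]; abel
  have e1 : RCLike.re ⟪ξ - av p u ξ, ξ - av p v ξ⟫_ℂ =
      RCLike.re ⟪ξ0 - av p u ξ0, ξ0 - av p v ξ0⟫_ℂ +
      RCLike.re ⟪ξ1 - av p u ξ1, ξ1 - av p v ξ1⟫_ℂ := by
    rw [eu, ev, inner_add_left, inner_add_right, inner_add_right, horth _ _ hu0 hv1,
      horth' _ _ hv0 hu1, add_zero, zero_add, map_add]
  have e2 : ‖ξ - av p u ξ‖ ^ 2 = ‖ξ0 - av p u ξ0‖ ^ 2 + ‖ξ1 - av p u ξ1‖ ^ 2 := by
    rw [eu, norm_add_sq (𝕜 := ℂ), horth _ _ hu0 hu1]; simp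
  have e3 : ‖ξ - av p v ξ‖ ^ 2 = ‖ξ0 - av p v ξ0‖ ^ 2 + ‖ξ1 - av p v ξ1‖ ^ 2 := by
    rw [ev, norm_add_sq (𝕜 := ℂ), horth _ _ hv0 hv1]; simp
  have h0 := heis_fix hp0' h ξ0 hw0
  have h1 := heis_orth hp0 hp64 h ξ1 hz1
  rw [e1, e2, e3]
  nlinarith [sq_nonneg ‖ξ0 - av p u ξ0‖, sq_nonneg ‖ξ0 - av p v ξ0‖]

/-- the inequality for a commuting pair -/
theorem comm_pair {p : ℕ} (hp0 : p ≠ 0) {u v : Module.End ℂ H} (iu : IsIso u) (iv : IsIso v)
    (pu : u ^ p = 1) (pv : v ^ p = 1) (h : Commute u v) (ξ : H) :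
    0 ≤ RCLike.re ⟪ξ - av p u ξ, ξ - av p v ξ⟫_ℂ := by
  have hH : Heis p u v 1 :=
    { iu := iu
      iv := iv
      iw := fun x y => by simp
      pu := pu
      pv := pv
      pw := one_pow p
      cu := Commute.one_left _
      cv := Commute.one_left _
      rel := fun j k => by rw [one_pow, one_mul]; exact (h.pow_pow j k).eq }
  exact heis_fix hp0 hH ξ (by simp)

end Abs

end

end Crest.Agent.R073
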