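import Crest.Agent.R073.ExpAbs
import Crest.Agent.R073.Stmts

/-!
Row 73, module M6d: `StmtExpander p`.
-/

set_option autoImplicit false

namespace Crest.Agent.R073

open scoped ComplexConjugate InnerProductSpace Matrix ComplexOrder
open Finset

noncomputable section

section Abs

variable {H : Type} [NormedAddCommGroup H] [InnerProductSpace ℂ H]

lemma norm_add4_sq (a b c d : H) :
    ‖a + b + c + d‖ ^ 2 = ‖a‖ ^ 2 + ‖b‖ ^ 2 + ‖c‖ ^ 2 + ‖d‖ ^ 2 +
      2 * RCLike.re ⟪a, b⟫_ℂ + 2 * RCLike.re ⟪b, c⟫_ℂ + 2 * RCLike.re ⟪c, a⟫_ℂ +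
      2 * RCLike.re ⟪b, d⟫_ℂ + 2 * RCLike.re ⟪a, d⟫_ℂ + 2 * RCLike.re ⟪c, d⟫_ℂ := by
  rw [norm_add_sq (𝕜 := ℂ), norm_add_sq (𝕜 := ℂ), norm_add_sq (𝕜 := ℂ), inner_add_left,
    inner_add_left, inner_add_left, map_add, map_add, map_add, inner_re_symm a c]
  ring

lemma heis_of_cm {p : ℕ} {G : Type} [Group G] (ρ : G →* Module.End ℂ H)
    (hρ : ∀ g, IsIso (ρ g)) {x y : G} (px : x ^ p = 1) (py : y ^ p = 1)
    (h : Commute (cm x y) x ∧ Commute (cm x y) y) :
    Heis p (ρ x) (ρ y) (ρ (cm x y)) where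
  iu := hρ _
  iv := hρ _
  iw := hρ _
  pu := by rw [← map_pow, px, map_one]
  pv := by rw [← map_pow, py, map_one]
  pw := by
    have h1 := pow_mul_pow_of_cm x y h.1 h.2 p 1
    rw [px, one_mul, mul_one, mul_one, pow_one] at h1
    have h2 : cm x y ^ p = 1 := by
      have : 1 * y = cm x y ^ p * y := by rw [one_mul]; exact h1
      exact (mul_right_cancel this).symm
    rw [← map_pow, h2, map_one]
  cu := h.1.map ρ
  cv := h.2.map ρ
  rel := fun j k => by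
    rw [← map_pow, ← map_pow, ← map_pow, ← map_mul, ← map_mul, ← map_mul]
    rw [pow_mul_pow_of_cm x y h.1 h.2 j k]

theorem gap4 {p : ℕ} (hp0 : p.Prime) (hp64 : 64 ≤ p) {G : Type} [Group G]
    (ρ : G →* Module.End ℂ H) (hρ : ∀ g, IsIso (ρ g)) (x : Fin 4 → G) (hx : PairRel p x) (ξ : H) :
    5 / 8 * ∑ s, ‖ξ - av p (ρ (x s)) ξ‖ ^ 2 ≤ ‖∑ s, (ξ - av p (ρ (x s)) ξ)‖ ^ 2 := by
  rw [Fin.sum_univ_four, Fin.sum_univ_four, norm_add4_sq]
  have h01 := heis_pair hp0 hp64 (heis_of_cm ρ hρ (hx.pow 0) (hx.pow 1) hx.h01) ξ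
  have h12 := heis_pair hp0 hp64 (heis_of_cm ρ hρ (hx.pow 1) (hx.pow 2) hx.h12) ξ
  have h20 := heis_pair hp0 hp64 (heis_of_cm ρ hρ (hx.pow 2) (hx.pow 0) hx.h20) ξ
  have h13 := heis_pair hp0 hp64 (heis_of_cm ρ hρ (hx.pow 1) (hx.pow 3) hx.h13) ξ
  have hpw : ∀ s, ρ (x s) ^ p = 1 := fun s => by rw [← map_pow, hx.pow, map_one]
  have c03 := comm_pair hp0.ne_zero (hρ (x 0)) (hρ (x 3)) (hpw 0) (hpw 3) (hx.c03.map ρ) ξ
  have c23 := comm_pair hp0.ne_zero (hρ (x 2)) (hρ (x 3)) (hpw 2) (hpw 3) (hx.c23.map ρ) ξ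
  have n0 := sq_nonneg ‖ξ - av p (ρ (x 0)) ξ‖
  have n2 := sq_nonneg ‖ξ - av p (ρ (x 2)) ξ‖
  have n3 := sq_nonneg ‖ξ - av p (ρ (x 3)) ξ‖
  linarith

/-- spectral step -/
theorem spectral_gap [FiniteDimensional ℂ H] {κ : ℝ} (T : Module.End ℂ H)
    (hT : LinearMap.IsSymmetric T) (hpos : ∀ ξ, 0 ≤ RCLike.re ⟪T ξ, ξ⟫_ℂ)
    (hgap : ∀ ξ, κ * RCLike.re ⟪T ξ, ξ⟫_ℂ ≤ ‖T ξ‖ ^ 2) (ξ : H)
    (hξ : ∀ η, T η = 0 → ⟪η, ξ⟫_ℂ = 0) : κ * ‖ξ‖ ^ 2 ≤ RCLike.re ⟪T ξ, ξ⟫_ℂ := by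
  set n := Module.finrank ℂ H with hn
  set e := hT.eigenvectorBasis hn.symm with he
  set lam := hT.eigenvalues hn.symm with hlam
  have hTe : ∀ i, T (e i) = (lam i : ℂ) • e i := fun i => hT.apply_eigenvectorBasis hn.symm i
  have hne : ∀ i, ‖e i‖ = 1 := fun i => e.orthonormal.1 i
  have hinner : ∀ i, RCLike.re ⟪T (e i), e i⟫_ℂ = lam i := by
    intro i
    rw [hTe, inner_smul_left, inner_self_eq_norm_sq_to_K, hne]
    simp
  have hnorm : ∀ i, ‖T (e i)‖ ^ 2 = lam i ^ 2 := by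
    intro i
    rw [hTe, norm_smul, hne, mul_one, Complex.norm_real, Real.norm_eq_abs, sq_abs]
  have hl : ∀ i, 0 ≤ lam i ∧ (lam i = 0 ∨ κ ≤ lam i) := by
    intro i
    have h1 := hpos (e i)
    have h2 := hgap (e i)
    rw [hinner] at h1 h2
    rw [hnorm] at h2
    refine ⟨h1, ?_⟩
    rcases h1.eq_or_lt with h3 | h3
    · left; exact h3.symm
    · right
      by_contra hc
      push Not at hc
      nlinarith
  have hexp : RCLike.re ⟪T ξ, ξ⟫_ℂ = ∑ i, lam i * ‖⟪e i, ξ⟫_ℂ‖ ^ 2 := by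
    have h1 : ⟪T ξ, ξ⟫_ℂ = ((∑ i, lam i * ‖⟪e i, ξ⟫_ℂ‖ ^ 2 : ℝ) : ℂ) := by
      rw [← e.sum_inner_mul_inner (T ξ) ξ]
      push_cast
      refine Finset.sum_congr rfl fun i _ => ?_
      rw [hT ξ (e i), hTe, inner_smul_right, mul_assoc]
      congr 1
      rw [← inner_conj_symm ξ (e i), Complex.conj_mul']
    rw [h1]
    exact Complex.ofReal_re _
  rw [hexp, ← e.sum_sq_norm_inner_right ξ, Finset.mul_sum]
  refine Finset.sum_le_sum fun i _ => ?_
  rcases (hl i).2 with h0 | h0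
  · have h1 : T (e i) = 0 := by rw [hTe, h0]; simp
    rw [hξ _ h1]; simp
  · exact mul_le_mul_of_nonneg_right h0 (sq_nonneg _)

/-- the gap for an isometric representation on a finite dimensional space -/
theorem gap_of_rep [FiniteDimensional ℂ H] {p : ℕ} (hp0 : p.Prime) (hp64 : 64 ≤ p) {G : Type}
    [Group G] (ρ : G →* Module.End ℂ H) (hρ : ∀ g, IsIso (ρ g)) (x : Fin 4 → G)
    (hx : PairRel p x) (ξ : H) (hξ : ∀ η, (∀ s, ρ (x s) η = η) → ⟪η, ξ⟫_ℂ = 0) :
    5 / 8 * ‖ξ‖ ^ 2 ≤ (p : ℝ) ^ 2 * ∑ s, ‖ρ (x s) ξ - ξ‖ ^ 2 := by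
  have hp0' := hp0.ne_zero
  have hpw : ∀ s, ρ (x s) ^ p = 1 := fun s => by rw [← map_pow, hx.pow, map_one]
  set T : Module.End ℂ H := ∑ s, (1 - av p (ρ (x s))) with hT
  have hTa : ∀ ξ, T ξ = ∑ s, (ξ - av p (ρ (x s)) ξ) := by
    intro ξ
    rw [hT, LinearMap.sum_apply]
    rfl
  have hself : ∀ ξ, ⟪T ξ, ξ⟫_ℂ = ((∑ s, ‖ξ - av p (ρ (x s)) ξ‖ ^ 2 : ℝ) : ℂ) := by
    intro ξ
    rw [hTa, sum_inner]
    push_cast
    refine Finset.sum_congr rfl fun s _ => ?_
    rw [inner_co_left hp0' (hρ _) (hpw s), inner_self_eq_norm_sq_to_K]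
    rfl
  have hre : ∀ ξ, RCLike.re ⟪T ξ, ξ⟫_ℂ = ∑ s, ‖ξ - av p (ρ (x s)) ξ‖ ^ 2 := by
    intro ξ
    rw [hself]
    exact Complex.ofReal_re _
  have hsym : LinearMap.IsSymmetric T := by
    intro a b
    rw [hTa, hTa, sum_inner, inner_sum]
    refine Finset.sum_congr rfl fun s _ => ?_
    exact (inner_co_left hp0' (hρ _) (hpw s) a b).trans (inner_co_right hp0' (hρ _) (hpw s) a b).symm
  have h1 := spectral_gap (κ := 5 / 8) T hsym
    (fun ξ => by rw [hre]; exact Finset.sum_nonneg fun s _ => sq_nonneg _)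
    (fun ξ => by rw [hre, hTa]; exact gap4 hp0 hp64 ρ hρ x hx ξ) ξ ?_
  · refine h1.trans ?_
    rw [hre, Finset.mul_sum]
    refine Finset.sum_le_sum fun s _ => ?_
    have h2 := norm_sub_av_le hp0' (hρ (x s)) ξ
    calc ‖ξ - av p (ρ (x s)) ξ‖ ^ 2 ≤ (p * ‖ρ (x s) ξ - ξ‖) ^ 2 :=
          pow_le_pow_left₀ (norm_nonneg _) h2 2
      _ = _ := by ring
  · intro η hη
    refine hξ η fun s => ?_
    have h3 : ∑ s, ‖η - av p (ρ (x s)) η‖ ^ 2 = 0 := by
      rw [← hre, hη, inner_zero_left, map_zero]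
    have h4 := (Finset.sum_eq_zero_iff_of_nonneg (fun s _ => sq_nonneg _)).mp h3 s (Finset.mem_univ s)
    have h5 : η = av p (ρ (x s)) η := by
      have := pow_eq_zero_iff two_ne_zero |>.mp h4
      rw [norm_eq_zero] at this
      exact sub_eq_zero.mp this
    have h6 := pow_av_apply (hpw s) 1 η
    rw [← h5] at h6
    simpa using h6

end Abs

section Mat

variable {ι : Type} [Fintype ι] [DecidableEq ι]

/-- the Frobenius inner product -/
@[reducible] def matCore (ι : Type) [Fintype ι] [DecidableEq ι] : InnerProductSpace.Core ℂ (Matrix ι ι ℂ) where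
  inner X Y := (Xᴴ * Y).trace
  conj_inner_symm X Y := by
    change star ((Yᴴ * X).trace) = (Xᴴ * Y).trace
    rw [← Matrix.trace_conjTranspose, Matrix.conjTranspose_mul, Matrix.conjTranspose_conjTranspose]
  re_inner_nonneg X := by
    change 0 ≤ ((Xᴴ * X).trace).re
    rw [Matrix.trace, Complex.re_sum]
    refine Finset.sum_nonneg fun i _ => ?_
    rw [Matrix.diag_apply, Matrix.mul_apply, Complex.re_sum]
    refine Finset.sum_nonneg fun j _ => ?_
    rw [Matrix.conjTranspose_apply, Complex.star_def, Complex.conj_mul']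
    norm_cast
    positivity
  add_left X Y Z := by
    change ((X + Y)ᴴ * Z).trace = (Xᴴ * Z).trace + (Yᴴ * Z).trace
    rw [Matrix.conjTranspose_add, Matrix.add_mul, Matrix.trace_add]
  smul_left X Y r := by
    change ((r • X)ᴴ * Y).trace = conj r * (Xᴴ * Y).trace
    rw [Matrix.conjTranspose_smul, Matrix.smul_mul, Matrix.trace_smul]
    rfl
  definite X hX := Matrix.trace_conjTranspose_mul_self_eq_zero_iff.mp hX

/-- conjugation representation -/
def conjRep (ι : Type) [Fintype ι] [DecidableEq ι] :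
    Matrix.unitaryGroup ι ℂ →* Module.End ℂ (Matrix ι ι ℂ) where
  toFun g :=
    { toFun := fun X => (g : Matrix ι ι ℂ) * X * star (g : Matrix ι ι ℂ)
      map_add' := fun X Y => by rw [mul_add, add_mul]
      map_smul' := fun c X => by simp }
  map_one' := by ext1 X; simp
  map_mul' g h := by
    refine LinearMap.ext fun X => ?_
    simp only [LinearMap.coe_mk, AddHom.coe_mk, Module.End.mul_apply, Submonoid.coe_mul,
      star_mul, mul_assoc]

theorem stmtExpander (p : ℕ) [hp : Fact p.Prime] (hp101 : 101 ≤ p) : StmtExpander p := by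
  intro ι _ _ _ U hU hirr R
  let _ : NormedAddCommGroup (Matrix ι ι ℂ) := (matCore ι).toNormedAddCommGroup
  let _ : InnerProductSpace ℂ (Matrix ι ι ℂ) := InnerProductSpace.ofCore (matCore ι).toCore
  have hinner : ∀ X Y : Matrix ι ι ℂ, ⟪X, Y⟫_ℂ = (Xᴴ * Y).trace := fun _ _ => rfl
  have hfrob : ∀ X : Matrix ι ι ℂ, ‖X‖ ^ 2 = frob X := by
    intro X
    have h1 : ((‖X‖ ^ 2 : ℝ) : ℂ) = (frob X : ℂ) := by
      have h2 := inner_self_eq_norm_sq_to_K (𝕜 := ℂ) X
      rw [hinner] at h2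
      push_cast
      refine h2.symm.trans ?_
      unfold frob
      rw [Matrix.trace, Finset.sum_comm]
      push_cast
      refine Finset.sum_congr rfl fun i _ => ?_
      rw [Matrix.diag_apply, Matrix.mul_apply]
      refine Finset.sum_congr rfl fun j _ => ?_
      rw [Matrix.conjTranspose_apply, Complex.star_def, Complex.conj_mul']
    exact Complex.ofReal_injective h1
  have hiso : ∀ g, IsIso (conjRep ι g) := by
    intro g X Y
    rw [hinner, hinner]
    change (((g : Matrix ι ι ℂ) * X * star (g : Matrix ι ι ℂ))ᴴ *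
      ((g : Matrix ι ι ℂ) * Y * star (g : Matrix ι ι ℂ))).trace = _
    have hg : star (g : Matrix ι ι ℂ) * (g : Matrix ι ι ℂ) = 1 := Unitary.star_mul_self_of_mem g.2
    have e1 : ((g : Matrix ι ι ℂ) * X * star (g : Matrix ι ι ℂ))ᴴ *
        ((g : Matrix ι ι ℂ) * Y * star (g : Matrix ι ι ℂ)) =
        (g : Matrix ι ι ℂ) * (Xᴴ * Y * star (g : Matrix ι ι ℂ)) := by
      rw [← Matrix.star_eq_conjTranspose, star_mul, star_mul, star_star]
      calc (g : Matrix ι ι ℂ) * (star X * star (g : Matrix ι ι ℂ)) *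
            ((g : Matrix ι ι ℂ) * Y * star (g : Matrix ι ι ℂ))
          = (g : Matrix ι ι ℂ) * (star X * (star (g : Matrix ι ι ℂ) * (g : Matrix ι ι ℂ)) * Y *
              star (g : Matrix ι ι ℂ)) := by simp only [mul_assoc]
        _ = _ := by rw [hg, mul_one, ← Matrix.star_eq_conjTranspose]
    rw [e1, Matrix.trace_mul_comm, mul_assoc, hg, mul_one]
  set N : ℝ := (Fintype.card ι : ℝ) with hN
  have hN0 : 0 < N := by rw [hN]; exact_mod_cast Fintype.card_pos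
  set X : Matrix ι ι ℂ := R - ((N : ℂ)⁻¹ * R.trace) • (1 : Matrix ι ι ℂ) with hX
  have hNC : (N : ℂ) ≠ 0 := by exact_mod_cast hN0.ne'
  have htr1 : (1 : Matrix ι ι ℂ).trace = (N : ℂ) := by
    rw [Matrix.trace_one, hN]; push_cast; rfl
  have htrX : X.trace = 0 := by
    rw [hX, Matrix.trace_sub, Matrix.trace_smul, htr1, smul_eq_mul]
    field_simp
    ring
  have horth : ∀ c : ℂ, ⟪c • (1 : Matrix ι ι ℂ), X⟫_ℂ = 0 := by
    intro c
    rw [inner_smul_left, hinner, Matrix.conjTranspose_one, one_mul, htrX, mul_zero]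
  have hnormX : ‖X‖ ^ 2 = frob R - ‖R.trace‖ ^ 2 / N := by
    have h1 : R = X + ((N : ℂ)⁻¹ * R.trace) • (1 : Matrix ι ι ℂ) := by rw [hX]; abel
    have h2 : frob R = ‖X‖ ^ 2 + ‖((N : ℂ)⁻¹ * R.trace) • (1 : Matrix ι ι ℂ)‖ ^ 2 := by
      rw [← hfrob]
      conv_lhs => rw [h1]
      rw [norm_add_sq (𝕜 := ℂ), inner_re_symm, horth]
      simp
    have h3 : ‖(1 : Matrix ι ι ℂ)‖ ^ 2 = N := by
      have h4 := inner_self_eq_norm_sq_to_K (𝕜 := ℂ) (1 : Matrix ι ι ℂ)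
      rw [hinner, Matrix.conjTranspose_one, one_mul, htr1] at h4
      have h5 : ((‖(1 : Matrix ι ι ℂ)‖ ^ 2 : ℝ) : ℂ) = (N : ℂ) := by
        push_cast; exact h4.symm
      exact Complex.ofReal_injective h5
    rw [h2, norm_smul, mul_pow, h3, norm_mul, norm_inv, Complex.norm_real, Real.norm_eq_abs,
      abs_of_pos hN0]
    field_simp
    ring
  have hcomm : ∀ s, ‖conjRep ι (U s) X - X‖ ^ 2 =
      frob ((U s : Matrix ι ι ℂ) * R - R * (U s : Matrix ι ι ℂ)) := by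
    intro s
    set g := U s with hgd
    have hg : star (g : Matrix ι ι ℂ) * (g : Matrix ι ι ℂ) = 1 := Unitary.star_mul_self_of_mem g.2
    have hg' : (g : Matrix ι ι ℂ) * star (g : Matrix ι ι ℂ) = 1 := Unitary.mul_star_self_of_mem g.2
    have e1 : conjRep ι g X - X =
        ((g : Matrix ι ι ℂ) * R - R * (g : Matrix ι ι ℂ)) * star (g : Matrix ι ι ℂ) := by
      change (g : Matrix ι ι ℂ) * X * star (g : Matrix ι ι ℂ) - X = _
      rw [hX, mul_sub, sub_mul, mul_smul_comm, mul_one, smul_mul_assoc, hg', sub_mul, mul_assoc R,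
        hg', mul_one]
      abel
    rw [e1, ← hfrob]
    -- right multiplication by a unitary preserves the norm
    have h2 : ∀ Y : Matrix ι ι ℂ, ‖Y * star (g : Matrix ι ι ℂ)‖ ^ 2 = ‖Y‖ ^ 2 := by
      intro Y
      have h4 := inner_self_eq_norm_sq_to_K (𝕜 := ℂ) (Y * star (g : Matrix ι ι ℂ))
      have h5 := inner_self_eq_norm_sq_to_K (𝕜 := ℂ) Y
      rw [hinner] at h4 h5
      have h6 : ((Y * star (g : Matrix ι ι ℂ))ᴴ * (Y * star (g : Matrix ι ι ℂ))).trace =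
          (Yᴴ * Y).trace := by
        rw [← Matrix.star_eq_conjTranspose, star_mul, star_star, Matrix.trace_mul_comm]
        calc (Y * star (g : Matrix ι ι ℂ) * ((g : Matrix ι ι ℂ) * star Y)).trace
            = (Y * (star (g : Matrix ι ι ℂ) * (g : Matrix ι ι ℂ)) * star Y).trace := by
              simp only [mul_assoc]
          _ = _ := by rw [hg, mul_one, Matrix.trace_mul_comm, ← Matrix.star_eq_conjTranspose]
      rw [h6, h5] at h4
      exact_mod_cast h4.symm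
    exact h2 _
  have hmain := gap_of_rep hp.out (by omega) (conjRep ι) hiso U hU X ?_
  · rw [hnormX] at hmain
    rw [Finset.sum_congr rfl fun s _ => hcomm s] at hmain
    exact hmain
  · intro η hη
    obtain ⟨c, hc⟩ := hirr η fun s => by
      have h1 : (U s : Matrix ι ι ℂ) * η * star (U s : Matrix ι ι ℂ) = η := hη s
      have hg : star (U s : Matrix ι ι ℂ) * (U s : Matrix ι ι ℂ) = 1 :=
        Unitary.star_mul_self_of_mem (U s).2
      calc (U s : Matrix ι ι ℂ) * η = (U s : Matrix ι ι ℂ) * η *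
            (star (U s : Matrix ι ι ℂ) * (U s : Matrix ι ι ℂ)) := by rw [hg, mul_one]
        _ = ((U s : Matrix ι ι ℂ) * η * star (U s : Matrix ι ι ℂ)) * (U s : Matrix ι ι ℂ) := by
            simp only [mul_assoc]
        _ = η * (U s : Matrix ι ι ℂ) := by rw [h1]
    rw [hc]
    exact horth c

end Mat

end

end Crest.Agent.R073
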