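import Crest.Agent.R073.Defs

/-!
Row 73, M8a: `KGroup p (GL_4(R))` for a commutative ring `R` with a ring hom `k : ZMod p →+* R` and
a unit `x`.
-/

set_option autoImplicit false

namespace Crest.Agent.R073

open Matrix

section Gen

variable {R : Type} [CommRing R]

/-- `GL_4(R)` -/
abbrev GL4 (R : Type) [CommRing R] : Type := (Matrix (Fin 4) (Fin 4) R)ˣ

macro "mat4" : tactic => `(tactic| (
  ext i j; fin_cases i <;> fin_cases j <;> simp [Matrix.mul_apply, Fin.sum_univ_four]))

/-- elementary matrices -/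
def M12 (f : R) : Matrix (Fin 4) (Fin 4) R := !![1, f, 0, 0; 0, 1, 0, 0; 0, 0, 1, 0; 0, 0, 0, 1]
def M13 (f : R) : Matrix (Fin 4) (Fin 4) R := !![1, 0, f, 0; 0, 1, 0, 0; 0, 0, 1, 0; 0, 0, 0, 1]
def M23 (f : R) : Matrix (Fin 4) (Fin 4) R := !![1, 0, 0, 0; 0, 1, f, 0; 0, 0, 1, 0; 0, 0, 0, 1]
def M31 (f : R) : Matrix (Fin 4) (Fin 4) R := !![1, 0, 0, 0; 0, 1, 0, 0; f, 0, 1, 0; 0, 0, 0, 1]
def M21 (f : R) : Matrix (Fin 4) (Fin 4) R := !![1, 0, 0, 0; f, 1, 0, 0; 0, 0, 1, 0; 0, 0, 0, 1]
def M32 (f : R) : Matrix (Fin 4) (Fin 4) R := !![1, 0, 0, 0; 0, 1, 0, 0; 0, f, 1, 0; 0, 0, 0, 1]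
/-- fourth column `(u,v,w,1)` -/
def MC (u v w : R) : Matrix (Fin 4) (Fin 4) R := !![1, 0, 0, u; 0, 1, 0, v; 0, 0, 1, w; 0, 0, 0, 1]
/-- `diag(f,f,f,1)` -/
def MT (f : R) : Matrix (Fin 4) (Fin 4) R := !![f, 0, 0, 0; 0, f, 0, 0; 0, 0, f, 0; 0, 0, 0, 1]

theorem M12_mul (f g : R) : M12 f * M12 g = M12 (f + g) := by unfold M12; mat4; ring
theorem M13_mul (f g : R) : M13 f * M13 g = M13 (f + g) := by unfold M13; mat4; ring
theorem M23_mul (f g : R) : M23 f * M23 g = M23 (f + g) := by unfold M23; mat4; ring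
theorem M31_mul (f g : R) : M31 f * M31 g = M31 (f + g) := by unfold M31; mat4
theorem M21_mul (f g : R) : M21 f * M21 g = M21 (f + g) := by unfold M21; mat4
theorem M32_mul (f g : R) : M32 f * M32 g = M32 (f + g) := by unfold M32; mat4
theorem MC_mul (u v w u' v' w' : R) : MC u v w * MC u' v' w' = MC (u + u') (v + v') (w + w') := by
  unfold MC; mat4 <;> ring

theorem M12_zero : M12 (0 : R) = 1 := by unfold M12; mat4
theorem M13_zero : M13 (0 : R) = 1 := by unfold M13; mat4
theorem M23_zero : M23 (0 : R) = 1 := by unfold M23; mat4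
theorem M31_zero : M31 (0 : R) = 1 := by unfold M31; mat4
theorem M21_zero : M21 (0 : R) = 1 := by unfold M21; mat4
theorem M32_zero : M32 (0 : R) = 1 := by unfold M32; mat4
theorem MC_zero : MC (0 : R) 0 0 = 1 := by unfold MC; mat4

/-- elementary matrices as homomorphisms into `GL_4(R)` -/
def E12 : Multiplicative R →* GL4 R where
  toFun f := ⟨M12 f.toAdd, M12 (-f.toAdd), by rw [M12_mul, add_neg_cancel, M12_zero],
    by rw [M12_mul, neg_add_cancel, M12_zero]⟩
  map_one' := Units.ext (by simp [M12_zero])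
  map_mul' f g := Units.ext (by simp [M12_mul])

def E13 : Multiplicative R →* GL4 R where
  toFun f := ⟨M13 f.toAdd, M13 (-f.toAdd), by rw [M13_mul, add_neg_cancel, M13_zero],
    by rw [M13_mul, neg_add_cancel, M13_zero]⟩
  map_one' := Units.ext (by simp [M13_zero])
  map_mul' f g := Units.ext (by simp [M13_mul])

def E23 : Multiplicative R →* GL4 R where
  toFun f := ⟨M23 f.toAdd, M23 (-f.toAdd), by rw [M23_mul, add_neg_cancel, M23_zero],
    by rw [M23_mul, neg_add_cancel, M23_zero]⟩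
  map_one' := Units.ext (by simp [M23_zero])
  map_mul' f g := Units.ext (by simp [M23_mul])

def E31 : Multiplicative R →* GL4 R where
  toFun f := ⟨M31 f.toAdd, M31 (-f.toAdd), by rw [M31_mul, add_neg_cancel, M31_zero],
    by rw [M31_mul, neg_add_cancel, M31_zero]⟩
  map_one' := Units.ext (by simp [M31_zero])
  map_mul' f g := Units.ext (by simp [M31_mul])

def E21 : Multiplicative R →* GL4 R where
  toFun f := ⟨M21 f.toAdd, M21 (-f.toAdd), by rw [M21_mul, add_neg_cancel, M21_zero],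
    by rw [M21_mul, neg_add_cancel, M21_zero]⟩
  map_one' := Units.ext (by simp [M21_zero])
  map_mul' f g := Units.ext (by simp [M21_mul])

def E32 : Multiplicative R →* GL4 R where
  toFun f := ⟨M32 f.toAdd, M32 (-f.toAdd), by rw [M32_mul, add_neg_cancel, M32_zero],
    by rw [M32_mul, neg_add_cancel, M32_zero]⟩
  map_one' := Units.ext (by simp [M32_zero])
  map_mul' f g := Units.ext (by simp [M32_mul])

/-- the column homomorphism -/
def EC : Multiplicative (Fin 3 → R) →* GL4 R where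
  toFun f := ⟨MC (f.toAdd 0) (f.toAdd 1) (f.toAdd 2),
    MC (-f.toAdd 0) (-f.toAdd 1) (-f.toAdd 2),
    by rw [MC_mul, add_neg_cancel, add_neg_cancel, add_neg_cancel, MC_zero],
    by rw [MC_mul, neg_add_cancel, neg_add_cancel, neg_add_cancel, MC_zero]⟩
  map_one' := Units.ext (by simp [MC_zero])
  map_mul' f g := Units.ext (by simp [MC_mul])

/-- `diag(x,x,x,1)` -/
def ET (x : Rˣ) : GL4 R :=
  ⟨MT (x : R), MT (↑x⁻¹ : R), by unfold MT; mat4, by unfold MT; mat4⟩

theorem cm12_23 (f g : R) :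
    cm (E12 (Multiplicative.ofAdd f)) (E23 (Multiplicative.ofAdd g)) =
      E13 (Multiplicative.ofAdd (f * g)) := by
  apply Units.ext
  change M12 f * M23 g * M12 (-f) * M23 (-g) = M13 (f * g)
  unfold M12 M23 M13
  mat4

theorem cm23_31 (f g : R) :
    cm (E23 (Multiplicative.ofAdd f)) (E31 (Multiplicative.ofAdd g)) =
      E21 (Multiplicative.ofAdd (f * g)) := by
  apply Units.ext
  change M23 f * M31 g * M23 (-f) * M31 (-g) = M21 (f * g)
  unfold M23 M31 M21
  mat4

theorem cm31_12 (f g : R) :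
    cm (E31 (Multiplicative.ofAdd f)) (E12 (Multiplicative.ofAdd g)) =
      E32 (Multiplicative.ofAdd (f * g)) := by
  apply Units.ext
  change M31 f * M12 g * M31 (-f) * M12 (-g) = M32 (f * g)
  unfold M31 M12 M32
  mat4

theorem comm13_12 (f g : R) :
    Commute (E13 (Multiplicative.ofAdd f)) (E12 (Multiplicative.ofAdd g)) := by
  apply Units.ext
  change M13 f * M12 g = M12 g * M13 f
  unfold M13 M12; mat4

theorem comm13_23 (f g : R) :
    Commute (E13 (Multiplicative.ofAdd f)) (E23 (Multiplicative.ofAdd g)) := by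
  apply Units.ext
  change M13 f * M23 g = M23 g * M13 f
  unfold M13 M23; mat4

theorem comm21_23 (f g : R) :
    Commute (E21 (Multiplicative.ofAdd f)) (E23 (Multiplicative.ofAdd g)) := by
  apply Units.ext
  change M21 f * M23 g = M23 g * M21 f
  unfold M21 M23; mat4

theorem comm21_31 (f g : R) :
    Commute (E21 (Multiplicative.ofAdd f)) (E31 (Multiplicative.ofAdd g)) := by
  apply Units.ext
  change M21 f * M31 g = M31 g * M21 f
  unfold M21 M31; mat4

theorem comm32_31 (f g : R) :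
    Commute (E32 (Multiplicative.ofAdd f)) (E31 (Multiplicative.ofAdd g)) := by
  apply Units.ext
  change M32 f * M31 g = M31 g * M32 f
  unfold M32 M31; mat4

theorem comm32_12 (f g : R) :
    Commute (E32 (Multiplicative.ofAdd f)) (E12 (Multiplicative.ofAdd g)) := by
  apply Units.ext
  change M32 f * M12 g = M12 g * M32 f
  unfold M32 M12; mat4

variable {p : ℕ} (k : ZMod p →+* R)

include k in
theorem natCast_p_eq_zero : ((p : ℕ) : R) = 0 := by
  have : k ((p : ℕ) : ZMod p) = ((p : ℕ) : R) := map_natCast k p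
  rw [← this, ZMod.natCast_self, map_zero]

theorem ofAdd_pow_p (f : R) (h : ((p : ℕ) : R) = 0) : (Multiplicative.ofAdd f) ^ p = 1 := by
  rw [← ofAdd_nsmul, nsmul_eq_mul, h, zero_mul, ofAdd_zero]

/-- the homomorphism `D` -/
def DD : Multiplicative (V3 p) →* GL4 R :=
  EC.comp (AddMonoidHom.toMultiplicative
    (AddMonoidHom.pi fun i => (k : ZMod p →+ R).comp (Pi.evalAddMonoidHom _ i)))

theorem DD_val (m : V3 p) :
    ((DD k (Multiplicative.ofAdd m) : GL4 R) : Matrix (Fin 4) (Fin 4) R)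
      = MC (k (m 0)) (k (m 1)) (k (m 2)) := rfl

/-- the group data in `GL_4(R)` -/
def glK (x : Rˣ) : KGroup p (GL4 R) where
  a := E12 (Multiplicative.ofAdd 1)
  b := E23 (Multiplicative.ofAdd 1)
  c := E31 (Multiplicative.ofAdd (x : R))
  t := ET x
  D := DD k
  a_pow := by rw [← map_pow, ofAdd_pow_p _ (natCast_p_eq_zero k), map_one]
  b_pow := by rw [← map_pow, ofAdd_pow_p _ (natCast_p_eq_zero k), map_one]
  c_pow := by rw [← map_pow, ofAdd_pow_p _ (natCast_p_eq_zero k), map_one]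
  hab := by rw [cm12_23]; exact ⟨comm13_12 _ _, comm13_23 _ _⟩
  hbc := by rw [cm23_31]; exact ⟨comm21_23 _ _, comm21_31 _ _⟩
  hca := by rw [cm31_12]; exact ⟨comm32_31 _ _, comm32_12 _ _⟩
  aD m := by
    apply Units.ext
    change M12 1 * MC (k (m 0)) (k (m 1)) (k (m 2)) =
      MC (k (e12 m 0)) (k (e12 m 1)) (k (e12 m 2)) * M12 1
    unfold M12 MC e12
    mat4
  bD m := by
    apply Units.ext
    change M23 1 * MC (k (m 0)) (k (m 1)) (k (m 2)) =
      MC (k (e23 m 0)) (k (e23 m 1)) (k (e23 m 2)) * M23 1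
    unfold M23 MC e23
    mat4
  cDt m := by
    apply Units.ext
    change M31 (x : R) * MC (k (m 0)) (k (m 1)) (k (m 2)) * MT (x : R) =
      MC (k (m 0)) (k (m 1)) (k (m 2)) * MT (x : R) *
        MC (k ((![0, 0, m 0] : V3 p) 0)) (k ((![0, 0, m 0] : V3 p) 1))
          (k ((![0, 0, m 0] : V3 p) 2)) * M31 (x : R)
    unfold M31 MC MT
    mat4 <;> ring
  ta := by
    apply Units.ext
    change MT (x : R) * M12 1 = M12 1 * MT (x : R)
    unfold MT M12
    mat4
  tb := by
    apply Units.ext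
    change MT (x : R) * M23 1 = M23 1 * MT (x : R)
    unfold MT M23
    mat4
  tc := by
    apply Units.ext
    change MT (x : R) * M31 (x : R) = M31 (x : R) * MT (x : R)
    unfold MT M31
    mat4

end Gen

end Crest.Agent.R073
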