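import Crest.Agent.R073.Stmts

/-!
Row 73 (S0098): assembly, part 1: the chain of almost intertwiners.
-/

set_option autoImplicit false

namespace Crest.Agent.R073

open scoped Matrix ComplexConjugate Pointwise
open Filter Crest.AnalysisR.CStarEmbedding

noncomputable section

/-! ### words -/

theorem wd_finite {G : Type} [Group G] {p : ℕ} (hp : 0 < p) (x : Fin 4 → G)
    (hx : ∀ i, x i ^ p = 1) (m : ℕ) : (Wd x m).Finite := by
  induction m with
  | zero =>
    refine (Set.finite_singleton (1 : G)).subset ?_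
    rintro g ⟨l, hl, rfl⟩
    have : l = [] := List.eq_nil_of_length_eq_zero (Nat.le_zero.mp hl)
    simp [this]
  | succ m ih =>
    have hP : (Set.range fun q : Fin 4 × Fin p => x q.1 ^ (q.2 : ℕ)).Finite := Set.finite_range _
    have h1 : ((Set.range fun q : Fin 4 × Fin p => x q.1 ^ (q.2 : ℕ)) * Wd x m).Finite := hP.mul ih
    refine ((Set.finite_singleton (1 : G)).union h1).subset ?_
    rintro g ⟨l, hl, rfl⟩
    cases l with
    | nil => left; simp
    | cons q l =>
      right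
      refine ⟨x q.1 ^ q.2, ⟨(q.1, ⟨q.2 % p, Nat.mod_lt _ hp⟩), ?_⟩,
        (l.map fun q => x q.1 ^ q.2).prod, ⟨l, ?_, rfl⟩, ?_⟩
      · exact (pow_eq_pow_mod q.2 (hx q.1)).symm
      · simpa using hl
      · simp

/-- the tuple of the group `G × U` -/
def pairx {G : Type} [Group G] {M : Type} [Group M] (x : Fin 4 → G) (y : Fin 4 → M) :
    Fin 4 → G × M := fun i => (x i, y i)

theorem PairRel.prod {p : ℕ} {G : Type} [Group G] {M : Type} [Group M] {x : Fin 4 → G}
    {y : Fin 4 → M} (hx : PairRel p x) (hy : PairRel p y) : PairRel p (pairx x y) where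
  pow i := Prod.ext (hx.pow i) (hy.pow i)
  h01 := ⟨Prod.ext hx.h01.1 hy.h01.1, Prod.ext hx.h01.2 hy.h01.2⟩
  h12 := ⟨Prod.ext hx.h12.1 hy.h12.1, Prod.ext hx.h12.2 hy.h12.2⟩
  h20 := ⟨Prod.ext hx.h20.1 hy.h20.1, Prod.ext hx.h20.2 hy.h20.2⟩
  h13 := ⟨Prod.ext hx.h13.1 hy.h13.1, Prod.ext hx.h13.2 hy.h13.2⟩
  c03 := Prod.ext hx.c03 hy.c03
  c23 := Prod.ext hx.c23 hy.c23

theorem wd_pairx {G : Type} [Group G] {M : Type} [Group M] (x : Fin 4 → G) (y : Fin 4 → M)
    (m : ℕ) : Wd (pairx x y) m ⊆ {g | g.1 ∈ Wd x m} := by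
  rintro g ⟨l, hl, rfl⟩
  refine ⟨l, hl, ?_⟩
  have := map_list_prod (MonoidHom.fst G M) (l.map fun q => pairx x y q.1 ^ q.2)
  simp only [MonoidHom.coe_fst, List.map_map] at this
  rw [this]
  congr 1

/-! ### relations of the generators -/

theorem KGroup.pairRel {p : ℕ} {G : Type} [Group G] (K : KGroup p G) : PairRel p K.gen := by
  have hDc : ∀ m m' : V3 p, K.D (Multiplicative.ofAdd m) * K.D (Multiplicative.ofAdd m')
      = K.D (Multiplicative.ofAdd m') * K.D (Multiplicative.ofAdd m) := by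
    intro m m'
    rw [← map_mul K.D, ← map_mul K.D, mul_comm (Multiplicative.ofAdd m)]
  have hb := K.bD ![0, 0, 1]
  have hcm : cm K.b (K.D (Multiplicative.ofAdd ![0, 0, 1]))
      = K.D (Multiplicative.ofAdd ![0, 1, 0]) := by
    unfold cm
    rw [hb]
    have : K.D (Multiplicative.ofAdd (e23 ![0, 0, 1]))
        = K.D (Multiplicative.ofAdd ![0, 1, 0]) * K.D (Multiplicative.ofAdd (![0, 0, 1] : V3 p)) := by
      rw [← map_mul, ← ofAdd_add]
      congr 2
      funext i
      fin_cases i <;> simp [e23]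
    rw [this]
    group
  refine ⟨?_, ?_, ?_, ?_, ?_, ?_, ?_⟩
  · intro i
    fin_cases i
    · exact K.a_pow
    · exact K.b_pow
    · exact K.c_pow
    · show K.D (Multiplicative.ofAdd ![0, 0, 1]) ^ p = 1
      rw [← map_pow, ← ofAdd_nsmul]
      have : p • (![0, 0, 1] : V3 p) = 0 := by
        funext i
        simp
      rw [this]
      simp
  · exact K.hab
  · exact K.hbc
  · exact K.hca
  · show Commute (cm K.b (K.D (Multiplicative.ofAdd ![0, 0, 1]))) K.b ∧
      Commute (cm K.b (K.D (Multiplicative.ofAdd ![0, 0, 1]))) (K.D (Multiplicative.ofAdd ![0, 0, 1]))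
    rw [hcm]
    constructor
    · have h := K.bD ![0, 1, 0]
      have he : (e23 (![0, 1, 0] : V3 p)) = ![0, 1, 0] := by
        funext i
        fin_cases i <;> simp [e23]
      rw [he] at h
      exact h.symm
    · exact hDc _ _
  · show Commute K.a (K.D (Multiplicative.ofAdd ![0, 0, 1]))
    have h := K.aD ![0, 0, 1]
    have he : (e12 (![0, 0, 1] : V3 p)) = ![0, 0, 1] := by
      funext i
      fin_cases i <;> simp [e12]
    rw [he] at h
    exact h
  · show Commute K.c (K.D (Multiplicative.ofAdd ![0, 0, 1]))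
    have h := K.cDt ![0, 0, 1]
    have he : (![0, 0, (![0, 0, 1] : V3 p) 0] : V3 p) = 0 := by
      funext i
      fin_cases i <;> simp
    rw [he] at h
    simp only [ofAdd_zero, map_one, mul_one] at h
    rw [mul_assoc _ K.t K.c, K.tc, ← mul_assoc] at h
    exact mul_right_cancel h

/-! ### the chain -/

theorem AlmostRep.mono {G : Type} [Group G] {L : Type} [NormedAddCommGroup L]
    [InnerProductSpace ℂ L] [CompleteSpace L] {v : G → L →L[ℂ] L} {F F' : Set G} {δ : ℝ}
    (h : AlmostRep v F' δ) (hF : F ⊆ F') : AlmostRep v F δ where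
  mul g hg k hk := h.mul g (hF hg) k (hF hk)
  star g hg := h.star g (hF hg)
  one := h.one
  norm g hg := h.norm g (hF hg)

/-- the character `χ` -/
def chi (p : ℕ) [Fact p.Prime] : Fin 4 → ℂ := ![1, 1, 1, psi p 1]

theorem norm_chi (p : ℕ) [Fact p.Prime] (s : Fin 4) : ‖chi p s‖ = 1 := by
  fin_cases s
  · simp [chi]
  · simp [chi]
  · simp [chi]
  · exact norm_psi p 1

theorem tens_zero_apply {p : ℕ} [Fact p.Prime] {H : Type} [NormedAddCommGroup H]
    [InnerProductSpace ℂ H] (E : H →L[ℂ] H) (s : Fin 4) (T : PiLp 2 (fun _ : Y p 0 => H))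
    (i : Y p 0) :
    tens E (sigmaU p 0 s : Matrix (Y p 0) (Y p 0) ℂ) T i = conj (chi p s) • E (T i) := by
  rw [tens_apply]
  have hsum : ∀ f : Y p 0 → H, ∑ j, f j = f i := by
    intro f
    have : ∀ j : Y p 0, j = i := fun j => by
      change Unit at i j
      rfl
    rw [Finset.sum_eq_single i]
    · intro b _ hb
      exact absurd (this b) hb
    · simp
  rw [hsum]
  congr 2
  have e0 : ∀ σ : Equiv.Perm (Y p 0), σ i = i := fun σ => rfl
  fin_cases s
  · show (monoM (permA p 0) (fun _ => 1)) i i = chi p 0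
    simp [monoM, chi, e0]
  · show (monoM (permB p 0) (fun _ => 1)) i i = chi p 1
    simp [monoM, chi, e0]
  · show (monoM (permC p 0) (fun _ => 1)) i i = chi p 2
    simp [monoM, chi, e0]
  · show (monoM (Equiv.refl _) (fun y : Y p 0 => psi p (hd y 2))) i i = chi p 3
    simp [monoM, chi, hd]

theorem chain (p : ℕ) [Fact p.Prime] (hQ : StmtQuant p) (hT : StmtTens) (hS : StmtStep p)
    (hσ : StmtSigma p) (G : Type) [Group G] (K : KGroup p G) :
    ∃ (F : Set G) (C : ℝ), F.Finite ∧ 1 ≤ C ∧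
      ∀ (H : Type) [NormedAddCommGroup H] [InnerProductSpace ℂ H] [CompleteSpace H]
        (w : G → H →L[ℂ] H) (δ : ℝ), 0 < δ → C * δ ≤ 1 → AlmostRep w F δ →
        ∀ ζ : H, ‖ζ‖ = 1 → (∀ s, ‖w (K.gen s) ζ - chi p s • ζ‖ ≤ 1 / C) →
        ∀ n, ∃ T : PiLp 2 (fun _ : Y p n => H), ‖T‖ = 1 ∧
          ∀ s, ‖tens (w (K.gen s)) (sigmaU p n s : Matrix (Y p n) (Y p n) ℂ) T - T‖
            ≤ C * Real.sqrt δ := by
  obtain ⟨CQ, hCQ, hQ⟩ := hQ
  obtain ⟨FS, CS, hFS, hCS, hS⟩ := hS G K
  have hp : 0 < p := (Fact.out : p.Prime).pos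
  refine ⟨FS ∪ Wd K.gen 8, (CQ * CS * (CQ + 1)) ^ 2, hFS.union (wd_finite hp _ K.pairRel.pow 8),
    ?_, ?_⟩
  · have : 1 ≤ CQ * CS * (CQ + 1) := by nlinarith [mul_le_mul hCQ hCS zero_le_one (by linarith)]
    nlinarith
  intro H _ _ _ w δ hδ hCδ hw ζ hζ hζs
  have hCS0 : (0 : ℝ) < CS := by linarith
  have hCQ0 : (0 : ℝ) < CQ := by linarith
  set D := CQ * CS * (CQ + 1) with hD
  have hD1 : 1 ≤ CQ * CS := by nlinarith [mul_le_mul hCQ hCS zero_le_one (by linarith)]
  have hDCQ : CQ + 1 ≤ D := by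
    rw [hD]
    nlinarith
  have hDge1 : 1 ≤ D := by linarith
  have hD0 : 0 < D := by linarith
  have hsq : D * Real.sqrt δ ≤ 1 := by
    have h1 : (D * Real.sqrt δ) ^ 2 ≤ 1 := by
      rw [mul_pow, Real.sq_sqrt hδ.le]
      exact hCδ
    have h0 : 0 ≤ D * Real.sqrt δ := by positivity
    nlinarith
  have hδ1 : δ ≤ 1 := by nlinarith [hCδ, sq_nonneg (D - 1)]
  have hsqrtδ : δ ≤ Real.sqrt δ := by
    have := Real.sqrt_nonneg δ
    have h2 := Real.sq_sqrt hδ.le
    have h3 : Real.sqrt δ ≤ 1 := by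
      exact Real.sqrt_le_one.mpr hδ1
    nlinarith
  have hD2 : CQ ≤ D ^ 2 := by nlinarith
  -- quantisation at level `n`
  have hquant : ∀ n, (∃ T : PiLp 2 (fun _ : Y p n => H), ‖T‖ = 1 ∧
      ∀ s, ‖tens (w (K.gen s)) (sigmaU p n s : Matrix (Y p n) (Y p n) ℂ) T - T‖ ≤ 1 / CQ) →
      ∃ T : PiLp 2 (fun _ : Y p n => H), ‖T‖ = 1 ∧
        ∀ s, ‖tens (w (K.gen s)) (sigmaU p n s : Matrix (Y p n) (Y p n) ℂ) T - T‖
          ≤ CQ * Real.sqrt δ := by
    intro n hn
    have hrel := K.pairRel.prod (hσ n).1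
    refine hQ (G × Matrix.unitaryGroup (Y p n) ℂ) (PiLp 2 (fun _ : Y p n => H))
      (pairx K.gen (sigmaU p n)) hrel
      (fun g => tens (w g.1) (g.2 : Matrix (Y p n) (Y p n) ℂ))
      {g | g.1 ∈ Wd K.gen 8} δ (wd_pairx _ _ 8) hδ (by nlinarith) ?_ hn
    exact hT G H w (Wd K.gen 8) δ hδ.le (hw.mono Set.subset_union_right) (Y p n)
  have key : ∀ n, ∃ T : PiLp 2 (fun _ : Y p n => H), ‖T‖ = 1 ∧
      ∀ s, ‖tens (w (K.gen s)) (sigmaU p n s : Matrix (Y p n) (Y p n) ℂ) T - T‖
        ≤ CQ * Real.sqrt δ := by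
    intro n
    induction n with
    | zero =>
      apply hquant
      refine ⟨WithLp.toLp 2 (fun _ => ζ), ?_, fun s => ?_⟩
      · rw [PiLp.norm_eq_of_L2]
        have : (∑ x : Y p 0, ‖(WithLp.toLp 2 (fun _ : Y p 0 => ζ)) x‖ ^ 2) = 1 := by
          simp only [hζ, one_pow, Finset.sum_const, Finset.card_univ]
          have : Fintype.card (Y p 0) = 1 := by simpa using (hσ 0).2.2
          rw [this]
          simp
        rw [this, Real.sqrt_one]
      · have hle : ‖tens (w (K.gen s)) (sigmaU p 0 s : Matrix (Y p 0) (Y p 0) ℂ)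
            (WithLp.toLp 2 (fun _ => ζ)) - WithLp.toLp 2 (fun _ => ζ)‖
            = ‖w (K.gen s) ζ - chi p s • ζ‖ := by
          rw [PiLp.norm_eq_of_L2]
          have h1 : ∀ i : Y p 0, ‖((tens (w (K.gen s)) (sigmaU p 0 s : Matrix (Y p 0) (Y p 0) ℂ)
            (WithLp.toLp 2 (fun _ => ζ)) : PiLp 2 (fun _ : Y p 0 => H))
              - WithLp.toLp 2 (fun _ => ζ) : PiLp 2 (fun _ : Y p 0 => H)) i‖ ^ 2
              = ‖w (K.gen s) ζ - chi p s • ζ‖ ^ 2 := by
            intro i
            rw [PiLp.sub_apply, tens_zero_apply]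
            congr 1
            have h2 : conj (chi p s) • (w (K.gen s) ζ) - ζ
                = conj (chi p s) • (w (K.gen s) ζ - chi p s • ζ) := by
              rw [smul_sub, smul_smul]
              have : conj (chi p s) * chi p s = 1 := by
                rw [mul_comm, Complex.mul_conj, Complex.normSq_eq_norm_sq, norm_chi]
                simp
              rw [this, one_smul]
            show ‖conj (chi p s) • (w (K.gen s) ζ) - ζ‖ = _
            rw [h2, norm_smul, RCLike.norm_conj, norm_chi, one_mul]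
          rw [Finset.sum_congr rfl (fun i _ => h1 i)]
          simp only [Finset.sum_const, Finset.card_univ]
          have : Fintype.card (Y p 0) = 1 := by simpa using (hσ 0).2.2
          rw [this, one_smul, Real.sqrt_sq (norm_nonneg _)]
        rw [hle]
        refine (hζs s).trans ?_
        exact one_div_le_one_div_of_le hCQ0 hD2
    | succ n ih =>
      apply hquant
      have h1 : CQ * Real.sqrt δ ≤ 1 := by
        refine le_trans ?_ hsq
        exact mul_le_mul_of_nonneg_right (by linarith) (Real.sqrt_nonneg _)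
      obtain ⟨T, hT1, hT2⟩ := hS H w δ hδ.le
        (by
          have : CS ≤ D ^ 2 := by
            have : CS ≤ D := by rw [hD]; nlinarith
            nlinarith
          nlinarith)
        (hw.mono Set.subset_union_left) n (CQ * Real.sqrt δ) (by positivity) h1 ih
      refine ⟨T, hT1, fun s => (hT2 s).trans ?_⟩
      rw [le_div_iff₀ hCQ0]
      have h2 : CS * (CQ * Real.sqrt δ + δ) * CQ ≤ CS * (CQ * Real.sqrt δ + Real.sqrt δ) * CQ := by
        gcongr
      refine h2.trans (le_trans (le_of_eq ?_) hsq)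
      rw [hD]
      ring
  intro n
  obtain ⟨T, hT1, hT2⟩ := key n
  refine ⟨T, hT1, fun s => (hT2 s).trans ?_⟩
  exact mul_le_mul_of_nonneg_right hD2 (Real.sqrt_nonneg _)

end

end Crest.Agent.R073
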