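import Crest.Agent.R073.Main1

/-!
Row 73 (S0098): assembly, part 2: no infinite chain in the Cuntz algebra; the final theorem
from the frozen statements.
-/

set_option autoImplicit false

namespace Crest.Agent.R073

open scoped Matrix ComplexConjugate
open Filter Topology Crest.AnalysisR.CStarEmbedding

noncomputable section

theorem noChain (p : ℕ) [Fact p.Prime] (hC : StmtCuntz) (hE : StmtExpander p) (hM : StmtMat p)
    (hSl : StmtSlice) (hσ : StmtSigma p) :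
    ∃ η : ℝ, 0 < η ∧ ∀ (O : Type) [CStarAlgebra O] (s₁ s₂ : O), IsCuntzTwo O s₁ s₂ →
      ∀ (H : Type) [NormedAddCommGroup H] [InnerProductSpace ℂ H] [CompleteSpace H]
      (π : O →⋆ₐ[ℂ] (H →L[ℂ] H)) (x : Fin 4 → O), (∀ s, ‖star (x s) * x s - 1‖ ≤ η) →
      ¬ (∀ n, ∃ T : PiLp 2 (fun _ : Y p n => H), ‖T‖ = 1 ∧
          ∀ s, ‖tens (π (x s)) (sigmaU p n s : Matrix (Y p n) (Y p n) ℂ) T - T‖ ≤ η) := by
  obtain ⟨C, hC1, hM⟩ := hM
  have hC0 : 0 < C := by linarith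
  refine ⟨1 / (48 * C), by positivity, ?_⟩
  intro O _ s₁ s₂ hO H _ _ _ π x hx hall
  set η := 1 / (48 * C) with hη
  have hη0 : 0 < η := by positivity
  have hη1 : 12 * η ≤ 1 := by
    rw [hη, ← mul_div_assoc, div_le_one (by positivity)]
    linarith
  obtain ⟨k, V, α, hV, hα, hα2⟩ := hC O s₁ s₂ hO.1 hO.2.1 hO.2.2.1 hO.2.2.2.1 H π x η hη0
  -- the third hypothesis of slicing
  have h3 : ∀ (s : Fin 4) (ξ : H), ∑ i, ‖V i ξ - ∑ j, ((α s)ᴴ * α s) i j • V j ξ‖ ^ 2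
      ≤ (2 * η) ^ 2 * ‖ξ‖ ^ 2 := by
    intro s ξ
    have hπ : ‖ξ - π (star (x s) * x s) ξ‖ ≤ η * ‖ξ‖ := by
      have h1 : ξ - π (star (x s) * x s) ξ = (π (1 - star (x s) * x s)) ξ := by
        rw [map_sub, map_one]
        rfl
      rw [h1]
      refine ((π (1 - star (x s) * x s)).le_opNorm ξ).trans ?_
      gcongr
      refine (NonUnitalStarAlgHom.norm_apply_le π _).trans ?_
      rw [norm_sub_rev]
      exact hx s
    have hsum : ∑ i, ‖V i (ξ - π (star (x s) * x s) ξ)‖ ^ 2 ≤ η ^ 2 * ‖ξ‖ ^ 2 := by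
      rw [hV, ← mul_pow]
      gcongr
    have hle : ∀ i, ‖V i ξ - ∑ j, ((α s)ᴴ * α s) i j • V j ξ‖ ^ 2
        ≤ 2 * ‖V i (ξ - π (star (x s) * x s) ξ)‖ ^ 2
          + 2 * ‖V i (π (star (x s) * x s) ξ) - ∑ j, ((α s)ᴴ * α s) i j • V j ξ‖ ^ 2 := by
      intro i
      have e : V i ξ - ∑ j, ((α s)ᴴ * α s) i j • V j ξ
          = V i (ξ - π (star (x s) * x s) ξ)
            + (V i (π (star (x s) * x s) ξ) - ∑ j, ((α s)ᴴ * α s) i j • V j ξ) := by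
        rw [map_sub]
        abel
      rw [e]
      have := norm_add_le (V i (ξ - π (star (x s) * x s) ξ))
        (V i (π (star (x s) * x s) ξ) - ∑ j, ((α s)ᴴ * α s) i j • V j ξ)
      have h2 : ‖V i (ξ - π (star (x s) * x s) ξ)
            + (V i (π (star (x s) * x s) ξ) - ∑ j, ((α s)ᴴ * α s) i j • V j ξ)‖ ^ 2
          ≤ (‖V i (ξ - π (star (x s) * x s) ξ)‖
            + ‖V i (π (star (x s) * x s) ξ) - ∑ j, ((α s)ᴴ * α s) i j • V j ξ‖) ^ 2 := by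
        gcongr
      refine h2.trans ?_
      nlinarith [sq_nonneg (‖V i (ξ - π (star (x s) * x s) ξ)‖
            - ‖V i (π (star (x s) * x s) ξ) - ∑ j, ((α s)ᴴ * α s) i j • V j ξ‖)]
    refine (Finset.sum_le_sum fun i _ => hle i).trans ?_
    rw [Finset.sum_add_distrib, ← Finset.mul_sum, ← Finset.mul_sum]
    have := hα2 s ξ
    nlinarith
  have h2 : ∀ (s : Fin 4) (ξ : H), ∑ i, ‖V i (π (x s) ξ) - ∑ j, α s i j • V j ξ‖ ^ 2
      ≤ (2 * η) ^ 2 * ‖ξ‖ ^ 2 := by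
    intro s ξ
    refine (hα s ξ).trans ?_
    have : 0 ≤ ‖ξ‖ ^ 2 := by positivity
    nlinarith [sq_nonneg η]
  have hmain : ∀ n, (1 : ℝ) - (k : ℝ) / (p : ℝ) ^ (3 * n) ≤ 1 / 4 := by
    intro n
    obtain ⟨T, hT, hTs⟩ := hall n
    obtain ⟨T', hT', hT1, hT2⟩ := hSl H k V α (fun s => π (x s)) (2 * η) (by positivity) hV h2 h3
      (Y p n) (sigmaU p n) T hT (fun s => (hTs s).trans (by linarith))
    have := hM k (Y p n) (sigmaU p n) (hE (Y p n) (sigmaU p n) (hσ n).1 (hσ n).2.1) T' α (12 * η)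
      (by positivity) hη1 hT' (fun s => (hT1 s).trans (by ring_nf; rfl))
      (fun s => (hT2 s).trans (by ring_nf; rfl))
    rw [(hσ n).2.2] at this
    push_cast at this
    refine this.trans (le_of_eq ?_)
    rw [hη]
    field_simp
    norm_num
  have hp2 : (2 : ℝ) ≤ p := by exact_mod_cast (Fact.out : p.Prime).two_le
  have hlim : Tendsto (fun n : ℕ => (k : ℝ) / (p : ℝ) ^ (3 * n)) atTop (𝓝 0) := by
    have h1 : Tendsto (fun n : ℕ => ((p : ℝ) ^ 3) ^ n) atTop atTop :=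
      tendsto_pow_atTop_atTop_of_one_lt (by nlinarith [sq_nonneg (p : ℝ)])
    have h2 := h1.const_div_atTop (k : ℝ)
    refine h2.congr fun n => ?_
    rw [pow_mul]
  have hlt : ∀ᶠ n in atTop, (k : ℝ) / (p : ℝ) ^ (3 * n) < 3 / 4 :=
    hlim.eventually_lt_const (by norm_num)
  obtain ⟨n, hn⟩ := hlt.exists
  have := hmain n
  linarith

/-- near equality in the triangle inequality -/
theorem near_of_sum {H : Type} [NormedAddCommGroup H] [InnerProductSpace ℂ H] (z₀ z r : H)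
    (ε : ℝ) (hε : 0 ≤ ε) (hε1 : ε ≤ 1) (h0 : ‖z₀‖ ≤ 1 + ε) (h1 : ‖z‖ ≤ 1 + ε)
    (hr : ‖r‖ ≤ 3 * (1 + ε)) (hs : 5 - ε ≤ ‖z₀ + z + r‖) : ‖z - z₀‖ ^ 2 ≤ 40 * ε := by
  have h2 : 2 - 4 * ε ≤ ‖z₀ + z‖ := by
    have := norm_add_le (z₀ + z) r
    linarith
  have hpar := parallelogram_law_with_norm ℂ z z₀
  have hcomm : ‖z₀ + z‖ = ‖z + z₀‖ := by rw [add_comm]
  rw [hcomm] at h2
  by_cases hcase : 2 - 4 * ε ≤ 0
  · have : ‖z - z₀‖ ≤ 2 * (1 + ε) := by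
      have := norm_sub_le z z₀
      linarith
    have h3 : ‖z - z₀‖ ^ 2 ≤ (2 * (1 + ε)) ^ 2 := by gcongr
    nlinarith
  · push Not at hcase
    have h3 : (2 - 4 * ε) ^ 2 ≤ ‖z + z₀‖ ^ 2 := by
      have : 0 ≤ 2 - 4 * ε := hcase.le
      gcongr
    have h4 : ‖z‖ ^ 2 ≤ (1 + ε) ^ 2 := by gcongr
    have h5 : ‖z₀‖ ^ 2 ≤ (1 + ε) ^ 2 := by gcongr
    nlinarith

end

end Crest.Agent.R073
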