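import Crest.Agent.R073.Main2

/-!
Row 73 (S0098): assembly, part 3: the final theorem from the frozen statements.
-/

set_option autoImplicit false

namespace Crest.Agent.R073

open scoped Matrix ComplexConjugate
open Filter Topology Crest.AnalysisR.CStarEmbedding

noncomputable section

/-- the conditions at one index of the ultrapower -/
theorem contradiction_at (p : ℕ) [Fact p.Prime] (hR : StmtRep)
    {G : Type} [Group G] (K : KGroup p G) (F : Set G) (C η : ℝ) (hC1 : 1 ≤ C)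
    (hchain : ∀ (H : Type) [NormedAddCommGroup H] [InnerProductSpace ℂ H] [CompleteSpace H]
        (w : G → H →L[ℂ] H) (δ : ℝ), 0 < δ → C * δ ≤ 1 → AlmostRep w F δ →
        ∀ ζ : H, ‖ζ‖ = 1 → (∀ s, ‖w (K.gen s) ζ - chi p s • ζ‖ ≤ 1 / C) →
        ∀ n, ∃ T : PiLp 2 (fun _ : Y p n => H), ‖T‖ = 1 ∧
          ∀ s, ‖tens (w (K.gen s)) (sigmaU p n s : Matrix (Y p n) (Y p n) ℂ) T - T‖
            ≤ C * Real.sqrt δ)
    {O : Type} [CStarAlgebra O]
    (hno : ∀ (H : Type) [NormedAddCommGroup H] [InnerProductSpace ℂ H] [CompleteSpace H]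
      (π : O →⋆ₐ[ℂ] (H →L[ℂ] H)) (x : Fin 4 → O), (∀ s, ‖star (x s) * x s - 1‖ ≤ η) →
      ¬ (∀ n, ∃ T : PiLp 2 (fun _ : Y p n => H), ‖T‖ = 1 ∧
          ∀ s, ‖tens (π (x s)) (sigmaU p n s : Matrix (Y p n) (Y p n) ℂ) T - T‖ ≤ η))
    (δ : ℝ) (hδ : 0 < δ) (hδ1 : δ ≤ 1) (hCδ : C * Real.sqrt δ ≤ η) (hδη : 4 * δ ≤ η)
    (hδC : 160 * C ^ 2 * δ ≤ 1)
    (f : G → O) (e h : O)
    (hmul : ∀ g ∈ F ∪ Set.range K.gen ∪ (Set.range K.gen)⁻¹,
      ∀ k ∈ F ∪ Set.range K.gen ∪ (Set.range K.gen)⁻¹, ‖f g * f k - f (g * k)‖ ≤ δ)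
    (hstar : ∀ g ∈ F ∪ Set.range K.gen ∪ (Set.range K.gen)⁻¹, ‖star (f g) - f g⁻¹‖ ≤ δ)
    (hone : ‖f 1 - 1‖ ≤ δ) (he : ‖e - 1‖ ≤ δ)
    (hnorm : ∀ g ∈ F ∪ Set.range K.gen ∪ (Set.range K.gen)⁻¹, ‖f g‖ ≤ 1 + δ)
    (hh : 5 - δ / 2 ≤ ‖h‖)
    (hh2 : ‖h - (e + ∑ s, conj (chi p s) • f (K.gen s))‖ ≤ δ / 2) : False := by
  have hnt : Nontrivial O := by
    by_contra hcon
    rw [not_nontrivial_iff_subsingleton] at hcon
    have : h = 0 := Subsingleton.elim _ _
    rw [this, norm_zero] at hh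
    linarith
  obtain ⟨H, _, _, _, π, ζ, hζ, hπζ⟩ := hR O h
  have hgenmem : ∀ s, K.gen s ∈ F ∪ Set.range K.gen ∪ (Set.range K.gen)⁻¹ := fun s =>
    Or.inl (Or.inr ⟨s, rfl⟩)
  have hgeninv : ∀ s, (K.gen s)⁻¹ ∈ F ∪ Set.range K.gen ∪ (Set.range K.gen)⁻¹ := fun s =>
    Or.inr (by simp)
  have hπle : ∀ y : O, ‖π y‖ ≤ ‖y‖ := fun y => NonUnitalStarAlgHom.norm_apply_le π y
  -- almost representation
  have hw : AlmostRep (fun g => π (f g)) F δ := by
    refine ⟨fun g hg k hk => ?_, fun g hg => ?_, ?_, fun g hg => ?_⟩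
    · have : (π (f g) ∘L π (f k)) - π (f (g * k)) = π (f g * f k - f (g * k)) := by
        rw [map_sub, map_mul]
        rfl
      rw [this]
      exact (hπle _).trans (hmul g (Or.inl (Or.inl hg)) k (Or.inl (Or.inl hk)))
    · have : ContinuousLinearMap.adjoint (π (f g)) - π (f g⁻¹) = π (star (f g) - f g⁻¹) := by
        rw [map_sub, map_star]
        rfl
      rw [this]
      exact (hπle _).trans (hstar g (Or.inl (Or.inl hg)))
    · have : π (f 1) - 1 = π (f 1 - 1) := by rw [map_sub, map_one]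
      rw [this]
      exact (hπle _).trans hone
    · exact (hπle _).trans (hnorm g (Or.inl (Or.inl hg)))
  -- near eigenvector
  set z₀ : H := π e ζ with hz₀
  set z : Fin 4 → H := fun s => conj (chi p s) • π (f (K.gen s)) ζ with hz
  have hz0n : ‖z₀ - ζ‖ ≤ δ := by
    have : z₀ - ζ = (π (e - 1)) ζ := by
      rw [map_sub, map_one]
      rfl
    rw [this]
    calc ‖(π (e - 1)) ζ‖ ≤ ‖π (e - 1)‖ * ‖ζ‖ := (π (e - 1)).le_opNorm ζ
      _ ≤ δ * 1 := by
        rw [hζ]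
        gcongr
        exact (hπle _).trans he
      _ = δ := mul_one δ
  have hz0' : ‖z₀‖ ≤ 1 + δ := by
    have := norm_add_le (z₀ - ζ) ζ
    rw [sub_add_cancel, hζ] at this
    linarith
  have hzn : ∀ s, ‖z s‖ ≤ 1 + δ := by
    intro s
    rw [hz]
    simp only
    rw [norm_smul, RCLike.norm_conj, norm_chi, one_mul]
    calc ‖(π (f (K.gen s))) ζ‖ ≤ ‖π (f (K.gen s))‖ * ‖ζ‖ := (π (f (K.gen s))).le_opNorm ζ
      _ ≤ (1 + δ) * 1 := by
        rw [hζ]
        gcongr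
        exact (hπle _).trans (hnorm _ (hgenmem s))
      _ = 1 + δ := mul_one _
  have hsum : 5 - δ ≤ ‖z₀ + ∑ s, z s‖ := by
    have h1 : π h ζ = (z₀ + ∑ s, z s) + (π (h - (e + ∑ s, conj (chi p s) • f (K.gen s)))) ζ := by
      have h2 : (π (e + ∑ s, conj (chi p s) • f (K.gen s))) ζ = z₀ + ∑ s, z s := by
        rw [map_add, map_sum]
        simp only [map_smul]
        rw [add_apply, sum_apply]
        rfl
      rw [map_sub, sub_apply, h2]
      abel
    have h3 : ‖(π (h - (e + ∑ s, conj (chi p s) • f (K.gen s)))) ζ‖ ≤ δ / 2 := by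
      refine ((π _).le_opNorm ζ).trans ?_
      rw [hζ, mul_one]
      exact (hπle _).trans hh2
    have h4 := norm_add_le (z₀ + ∑ s, z s)
      ((π (h - (e + ∑ s, conj (chi p s) • f (K.gen s)))) ζ)
    rw [← h1, hπζ] at h4
    linarith
  have hnear : ∀ s, ‖z s - z₀‖ ^ 2 ≤ 40 * δ := by
    intro s
    have hsplit : z₀ + ∑ t, z t = z₀ + z s + ∑ t ∈ Finset.univ.erase s, z t := by
      rw [add_assoc, Finset.add_sum_erase _ _ (Finset.mem_univ s)]
    refine near_of_sum z₀ (z s) (∑ t ∈ Finset.univ.erase s, z t) δ hδ.le hδ1 hz0' (hzn s) ?_ ?_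
    · refine (norm_sum_le _ _).trans ?_
      refine (Finset.sum_le_sum fun t _ => hzn t).trans ?_
      rw [Finset.sum_const, Finset.card_erase_of_mem (Finset.mem_univ s), Finset.card_univ,
        Fintype.card_fin, nsmul_eq_mul]
      norm_num
    · rw [← hsplit]
      exact hsum
  have hC0 : 0 < C := by linarith
  have heig : ∀ s, ‖π (f (K.gen s)) ζ - chi p s • ζ‖ ≤ 1 / C := by
    intro s
    have h1 : ‖π (f (K.gen s)) ζ - chi p s • ζ‖ = ‖z s - ζ‖ := by
      have h2 : z s - ζ = conj (chi p s) • (π (f (K.gen s)) ζ - chi p s • ζ) := by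
        rw [smul_sub, smul_smul]
        have : conj (chi p s) * chi p s = 1 := by
          rw [mul_comm, Complex.mul_conj, Complex.normSq_eq_norm_sq, norm_chi]
          simp
        rw [this, one_smul]
      rw [h2, norm_smul, RCLike.norm_conj, norm_chi, one_mul]
    rw [h1]
    have h3 : ‖z s - z₀‖ ≤ 1 / (2 * C) := by
      have h4 : ‖z s - z₀‖ ^ 2 ≤ (1 / (2 * C)) ^ 2 := by
        refine (hnear s).trans ?_
        rw [div_pow, one_pow, le_div_iff₀ (by positivity)]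
        nlinarith
      exact le_of_sq_le_sq h4 (by positivity)
    have h5 : δ ≤ 1 / (2 * C) := by
      rw [le_div_iff₀ (by positivity)]
      nlinarith [mul_le_mul_of_nonneg_left hC1 hC0.le]
    have h6 : ‖z s - ζ‖ ≤ ‖z s - z₀‖ + ‖z₀ - ζ‖ := by
      have := norm_add_le (z s - z₀) (z₀ - ζ)
      rwa [sub_add_sub_cancel] at this
    have h7 : (1 : ℝ) / C = 1 / (2 * C) + 1 / (2 * C) := by
      field_simp
      norm_num
    rw [h7]
    linarith
  have hCδ1 : C * δ ≤ 1 := by nlinarith [mul_le_mul_of_nonneg_left hC1 hC0.le]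
  have hall := hchain H (fun g => π (f g)) δ hδ hCδ1 hw ζ hζ heig
  refine hno H π (fun s => f (K.gen s)) (fun s => ?_) (fun n => ?_)
  · -- star x * x ≈ 1
    have h1 : star (f (K.gen s)) * f (K.gen s) - 1
        = (star (f (K.gen s)) - f (K.gen s)⁻¹) * f (K.gen s)
          + (f (K.gen s)⁻¹ * f (K.gen s) - f ((K.gen s)⁻¹ * K.gen s)) + (f 1 - 1) := by
      rw [inv_mul_cancel]
      noncomm_ring
    rw [h1]
    have a1 := hstar _ (hgenmem s)
    have a2 := hmul _ (hgeninv s) _ (hgenmem s)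
    have a3 := hnorm _ (hgenmem s)
    have a4 : ‖(star (f (K.gen s)) - f (K.gen s)⁻¹) * f (K.gen s)‖ ≤ δ * (1 + δ) := by
      refine (norm_mul_le _ _).trans ?_
      gcongr
    refine (norm_add₃_le).trans ?_
    nlinarith
  · obtain ⟨T, hT, hTs⟩ := hall n
    exact ⟨T, hT, fun s => (hTs s).trans hCδ⟩

end

end Crest.Agent.R073
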