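import Crest.Agent.R073.Main3

/-!
Row 73 (S0098): assembly, part 4: the final theorem from the frozen statements.
-/

set_option autoImplicit false

namespace Crest.Agent.R073

open scoped Matrix ComplexConjugate
open Filter Topology Crest.AnalysisR.CStarEmbedding

noncomputable section

/-- additivity of asymptotic approximation -/
theorem tendsto_add_aux {A O : Type} [CStarAlgebra A] [CStarAlgebra O] (ω : Ultrafilter ℕ)
    (φ : ℕ → A → O) (hadd : ∀ a b, Tendsto (fun n => ‖φ n (a + b) - (φ n a + φ n b)‖)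
      (ω : Filter ℕ) (𝓝 0)) (a b : A) (X W : ℕ → O)
    (ha : Tendsto (fun n => ‖φ n a - X n‖) (ω : Filter ℕ) (𝓝 0))
    (hb : Tendsto (fun n => ‖φ n b - W n‖) (ω : Filter ℕ) (𝓝 0)) :
    Tendsto (fun n => ‖φ n (a + b) - (X n + W n)‖) (ω : Filter ℕ) (𝓝 0) := by
  have h := ((hadd a b).add ha).add hb
  simp only [add_zero] at h
  refine squeeze_zero (fun n => norm_nonneg _) (fun n => ?_) h
  have e : φ n (a + b) - (X n + W n)
      = (φ n (a + b) - (φ n a + φ n b)) + (φ n a - X n) + (φ n b - W n) := by abel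
  rw [e]
  exact norm_add₃_le

theorem main_of_stmts (p : ℕ) [Fact p.Prime] (hFull : StmtFull) (hO2 : StmtO2) (hR : StmtRep)
    (hC : StmtCuntz) (hE : StmtExpander p) (hM : StmtMat p) (hSl : StmtSlice) (hσ : StmtSigma p)
    (hQ : StmtQuant p) (hT : StmtTens) (hS : StmtStep p) (hG : StmtGroup p) :
    ∃ (Γ : Type) (_ : Group Γ) (_ : Countable Γ) (A : Type) (_ : CStarAlgebra A)
      (u : Γ →* unitary A), IsFullGroupCStar A u ∧
      ∃ (O : Type) (_ : CStarAlgebra O) (s₁ s₂ : O), IsCuntzTwo O s₁ s₂ ∧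
        ∀ ω : Ultrafilter ℕ, (∀ n : ℕ, (ω : Filter ℕ) ≠ pure n) →
          ¬ ∃ φ : ℕ → A → O, IsUltrapowerEmbedding ω A O φ := by
  obtain ⟨G, _, _, K, hbase⟩ := hG
  obtain ⟨A, _, u, hA⟩ := hFull G
  obtain ⟨O, _, s₁, s₂, hO⟩ := hO2
  refine ⟨G, _, ‹_›, A, _, u, hA, O, _, s₁, s₂, hO, ?_⟩
  rintro ω - ⟨φ, hbd, hadd, hsmul, hmul, hstar, hone, hnorm⟩
  obtain ⟨F, C, hF, hC1, hchain⟩ := chain p hQ hT hS hσ G K
  obtain ⟨η, hη, hno⟩ := noChain p hC hE hM hSl hσ
  have hC0 : 0 < C := by linarith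
  -- choice of `δ`
  obtain ⟨δ, hδ, hδ1, hδ2, hδ3, hδ4⟩ : ∃ δ : ℝ, 0 < δ ∧ δ ≤ 1 ∧ C * Real.sqrt δ ≤ η ∧
      4 * δ ≤ η ∧ 160 * C ^ 2 * δ ≤ 1 := by
    refine ⟨min 1 (min ((η / C) ^ 2) (min (η / 4) (1 / (160 * C ^ 2)))), ?_, ?_, ?_, ?_, ?_⟩
    · positivity
    · exact min_le_left _ _
    · have h1 : min 1 (min ((η / C) ^ 2) (min (η / 4) (1 / (160 * C ^ 2)))) ≤ (η / C) ^ 2 :=
        (min_le_right _ _).trans (min_le_left _ _)
      have h2 := Real.sqrt_le_sqrt h1
      rw [Real.sqrt_sq (by positivity)] at h2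
      calc C * Real.sqrt _ ≤ C * (η / C) := by gcongr
        _ = η := by field_simp
    · have h1 : min 1 (min ((η / C) ^ 2) (min (η / 4) (1 / (160 * C ^ 2)))) ≤ η / 4 :=
        (min_le_right _ _).trans ((min_le_right _ _).trans (min_le_left _ _))
      linarith
    · have h1 : min 1 (min ((η / C) ^ 2) (min (η / 4) (1 / (160 * C ^ 2)))) ≤ 1 / (160 * C ^ 2) :=
        (min_le_right _ _).trans ((min_le_right _ _).trans (min_le_right _ _))
      calc 160 * C ^ 2 * _ ≤ 160 * C ^ 2 * (1 / (160 * C ^ 2)) := by gcongr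
        _ = 1 := by field_simp
  set F' : Set G := F ∪ Set.range K.gen ∪ (Set.range K.gen)⁻¹ with hF'
  have hF'fin : F'.Finite := (hF.union (Set.finite_range _)).union (Set.finite_range _).inv
  -- the almost representations
  have E1 : ∀ᶠ n in (ω : Filter ℕ), ∀ g ∈ F', ∀ k ∈ F',
      ‖φ n (u g : A) * φ n (u k : A) - φ n (u (g * k) : A)‖ ≤ δ := by
    rw [eventually_all_finite hF'fin]
    intro g _
    rw [eventually_all_finite hF'fin]
    intro k _
    filter_upwards [(hmul (u g : A) (u k : A)).eventually_le_const hδ] with n hn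
    rw [norm_sub_rev]
    simpa using hn
  have E2 : ∀ᶠ n in (ω : Filter ℕ), ∀ g ∈ F',
      ‖star (φ n (u g : A)) - φ n (u g⁻¹ : A)‖ ≤ δ := by
    rw [eventually_all_finite hF'fin]
    intro g _
    filter_upwards [(hstar (u g : A)).eventually_le_const hδ] with n hn
    rw [norm_sub_rev]
    have : (star (u g : A)) = (u g⁻¹ : A) := by
      rw [map_inv]
      rfl
    rw [this] at hn
    exact hn
  have E3 : ∀ᶠ n in (ω : Filter ℕ), ‖φ n 1 - 1‖ ≤ δ := hone.eventually_le_const hδ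
  have E4 : ∀ᶠ n in (ω : Filter ℕ), ∀ g ∈ F', ‖φ n (u g : A)‖ ≤ 1 + δ := by
    rw [eventually_all_finite hF'fin]
    intro g _
    have hle : ‖(u g : A)‖ ≤ 1 := by
      rcases subsingleton_or_nontrivial A with h | h
      · have : (u g : A) = 0 := Subsingleton.elim _ _
        rw [this, norm_zero]
        exact zero_le_one
      · exact (CStarRing.norm_of_mem_unitary (u g).2).le
    exact (hnorm (u g : A)).eventually_le_const (by linarith)
  -- the test element
  set h0 : A := (1 : A) + (u K.a : A) + (u K.b : A) + (u K.c : A)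
        + conj (psi p 1) • (u (K.D (Multiplicative.ofAdd ![0, 0, 1])) : A) with hh0
  have hh05 : 5 ≤ ‖h0‖ := hbase A u hA
  have E5 : ∀ᶠ n in (ω : Filter ℕ), 5 - δ / 2 ≤ ‖φ n h0‖ :=
    (hnorm h0).eventually_const_le (by linarith)
  have hself : ∀ a : A, Tendsto (fun n => ‖φ n a - φ n a‖) (ω : Filter ℕ) (𝓝 0) := by
    intro a
    simp
  have hlast : Tendsto (fun n => ‖φ n h0 - (φ n 1 + φ n (u K.a : A) + φ n (u K.b : A)
      + φ n (u K.c : A) + conj (psi p 1) •
        φ n (u (K.D (Multiplicative.ofAdd ![0, 0, 1])) : A))‖) (ω : Filter ℕ) (𝓝 0) := by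
    refine tendsto_add_aux ω φ hadd _ _ _ _ ?_ (hsmul _ _)
    refine tendsto_add_aux ω φ hadd _ _ _ _ ?_ (hself _)
    refine tendsto_add_aux ω φ hadd _ _ _ _ ?_ (hself _)
    exact tendsto_add_aux ω φ hadd _ _ _ _ (hself _) (hself _)
  have E6 : ∀ᶠ n in (ω : Filter ℕ), ‖φ n h0 - (φ n 1 + φ n (u K.a : A) + φ n (u K.b : A)
      + φ n (u K.c : A) + conj (psi p 1) •
        φ n (u (K.D (Multiplicative.ofAdd ![0, 0, 1])) : A))‖ ≤ δ / 2 :=
    hlast.eventually_le_const (by positivity)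
  obtain ⟨m, e1, e2, e3, e4, e5, e6⟩ :=
    (E1.and (E2.and (E3.and (E4.and (E5.and E6))))).exists
  refine contradiction_at p hR K F C η hC1 hchain (O := O) (fun H _ _ _ π x => hno O s₁ s₂ hO H π x)
    δ hδ hδ1 hδ2 hδ3 hδ4 (fun g => φ m (u g : A)) (φ m 1) (φ m h0) e1 e2 ?_ e3 e4 e5 ?_
  · simpa using e3
  · have hsum : φ m 1 + ∑ s, conj (chi p s) • φ m (u (K.gen s) : A)
        = (φ m 1 + φ m (u K.a : A) + φ m (u K.b : A)
      + φ m (u K.c : A) + conj (psi p 1) •
        φ m (u (K.D (Multiplicative.ofAdd ![0, 0, 1])) : A)) := by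
      rw [Fin.sum_univ_four]
      simp only [chi, KGroup.gen, Matrix.cons_val_zero, Matrix.cons_val_one, Matrix.cons_val,
        map_one, one_smul]
      abel
    rw [hsum]
    exact e6

end

end Crest.Agent.R073
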