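import Crest.Agent.R073.Stmts
import Crest.Agent.R73.Rank

/-!
Row 73 (S0098), module M4b: `StmtMat`.
-/

set_option autoImplicit false

namespace Crest.Agent.R073

open scoped Matrix ComplexConjugate
open Crest.Agent.R73.Rank

theorem Mat.frob_comm {ι : Type} [Fintype ι] [DecidableEq ι] (U : Matrix.unitaryGroup ι ℂ)
    (R : Matrix ι ι ℂ) :
    frob ((U : Matrix ι ι ℂ) * R - R * (U : Matrix ι ι ℂ)) =
      fro (R - (U : Matrix ι ι ℂ)ᴴ * R * (U : Matrix ι ι ℂ)) := by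
  have h1 : (U : Matrix ι ι ℂ) * (U : Matrix ι ι ℂ)ᴴ = 1 := by
    rw [← Matrix.star_eq_conjTranspose]; exact Unitary.coe_mul_star_self U
  have h2 : (U : Matrix ι ι ℂ)ᴴ * (U : Matrix ι ι ℂ) = 1 := by
    rw [← Matrix.star_eq_conjTranspose]; exact Unitary.coe_star_mul_self U
  have e : (U : Matrix ι ι ℂ) * R - R * (U : Matrix ι ι ℂ) =
      (U : Matrix ι ι ℂ) * (R - (U : Matrix ι ι ℂ)ᴴ * R * (U : Matrix ι ι ℂ)) := by
    rw [Matrix.mul_sub, Matrix.mul_assoc (U : Matrix ι ι ℂ)ᴴ, ← Matrix.mul_assoc (U : Matrix ι ι ℂ),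
      h1, Matrix.one_mul]
  rw [e]
  exact fro_unitary_mul _ _ h2

theorem stmtMat (p : ℕ) : StmtMat p := by
  refine ⟨26 * (p : ℝ) ^ 2 + 1, by nlinarith [sq_nonneg (p : ℝ)], ?_⟩
  intro k ι _ _ _ U hexp T α η hη0 hη1 hT h1 h2
  have hT' : fro T = 1 := hT
  have hgap : ∀ X : Matrix ι ι ℂ,
      (5 / 8 : ℝ) * fro (X - (X.trace / (Fintype.card ι : ℂ)) • (1 : Matrix ι ι ℂ)) ≤
        (p : ℝ) ^ 2 * ∑ s, fro (X - (U s : Matrix ι ι ℂ)ᴴ * X * (U s : Matrix ι ι ℂ)) := by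
    intro X
    rw [fro_sub_scalar]
    have := hexp X
    simp_rw [Mat.frob_comm] at this
    exact this
  have key := rank_gap (fun s => (U s : Matrix ι ι ℂ))
    (fun s => by rw [← Matrix.star_eq_conjTranspose]; exact Unitary.coe_mul_star_self (U s))
    (5 / 8) ((p : ℝ) ^ 2) (by norm_num) (sq_nonneg _) hgap α T (by rw [hT']; norm_num) η hη0 hη1
    (fun s => by rw [hT', mul_one]; exact h1 s) (fun s => by rw [hT', mul_one]; exact h2 s)
  rw [Fintype.card_fin, Fintype.card_fin] at key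
  push_cast at key
  nlinarith [mul_nonneg (sq_nonneg (p : ℝ)) hη0]

end Crest.Agent.R073
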