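import Crest.Agent.R073.Ev

/-!
Row 73, M6: robust inequality for a Heisenberg pair.
-/

set_option autoImplicit false

namespace Crest.Agent.R073.Quant

open MonoidAlgebra Finset
open scoped InnerProductSpace

noncomputable section

variable {G : Type} [Group G] {L : Type} [NormedAddCommGroup L] [InnerProductSpace ℂ L]
  [CompleteSpace L]

/-- average of the powers of `x` in the real group algebra -/
def av (p : ℕ) (x : G) : MonoidAlgebra ℝ G := Sos.avg p (MonoidAlgebra.single x (1 : ℝ))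

lemma abs_re_inner_le (A B : L →L[ℂ] L) (T : L) {c : ℝ} (h : ‖A - B‖ ≤ c) :
    |(⟪T, A T⟫_ℂ).re - (⟪T, B T⟫_ℂ).re| ≤ c * ‖T‖ ^ 2 := by
  have e : (⟪T, A T⟫_ℂ).re - (⟪T, B T⟫_ℂ).re = (⟪T, (A - B) T⟫_ℂ).re := by
    rw [ContinuousLinearMap.sub_apply, inner_sub_right, Complex.sub_re]
  rw [e]
  refine (Complex.abs_re_le_norm _).trans ?_
  refine (norm_inner_le_norm _ _).trans ?_
  have h3 := ContinuousLinearMap.le_opNorm (A - B) T
  calc ‖T‖ * ‖(A - B) T‖ ≤ ‖T‖ * (c * ‖T‖) := by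
        apply mul_le_mul_of_nonneg_left _ (norm_nonneg _)
        exact h3.trans (mul_le_mul_of_nonneg_right h (norm_nonneg _))
    _ = c * ‖T‖ ^ 2 := by ring

section heis

variable {p : ℕ} {x y : G}

lemma cm_eq (x y : G) : x * y = cm x y * y * x := by
  unfold cm; group

lemma cm_pow (hx : x ^ p = 1) (h1 : Commute (cm x y) x) (h2 : Commute (cm x y) y) :
    (cm x y) ^ p = 1 := by
  have key : ∀ n : ℕ, x ^ n * y = (cm x y) ^ n * y * x ^ n := by
    intro n
    induction n with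
    | zero => simp
    | succ n ih =>
      calc x ^ (n + 1) * y = x ^ n * (x * y) := by rw [pow_succ, mul_assoc]
        _ = x ^ n * (cm x y * y * x) := by rw [← cm_eq]
        _ = (x ^ n * cm x y) * y * x := by group
        _ = (cm x y * x ^ n) * y * x := by rw [(h1.pow_right n).eq]
        _ = cm x y * (x ^ n * y) * x := by group
        _ = cm x y * ((cm x y) ^ n * y * x ^ n) * x := by rw [ih]
        _ = (cm x y * (cm x y) ^ n) * y * (x ^ n * x) := by group
        _ = (cm x y) ^ (n + 1) * y * x ^ (n + 1) := by rw [← pow_succ', ← pow_succ]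
  have h := key p
  rw [hx, one_mul, mul_one] at h
  exact (mul_eq_right.1 h.symm)

/-- `z^k = x^k y x^{-k} y^{-1}` -/
lemma cm_pow_eq (h1 : Commute (cm x y) x) (k : ℕ) :
    (cm x y) ^ k = x ^ k * y * (x ^ k)⁻¹ * y⁻¹ := by
  induction k with
  | zero => simp
  | succ n ih =>
    have e : cm x y * y = x * y * x⁻¹ := by unfold cm; group
    calc (cm x y) ^ (n + 1) = (cm x y) ^ n * cm x y := pow_succ _ _
      _ = x ^ n * y * (x ^ n)⁻¹ * y⁻¹ * cm x y := by rw [ih]
      _ = x ^ n * y * (x ^ n)⁻¹ * y⁻¹ * cm x y := rfl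
      _ = x ^ (n + 1) * y * (x ^ (n + 1))⁻¹ * y⁻¹ := by
        have h4 : (cm x y) ^ n * cm x y = cm x y * (cm x y) ^ n := (Commute.refl _).pow_left n
        have h5 : x ^ n * y * (x ^ n)⁻¹ * y⁻¹ * cm x y = cm x y * (x ^ n * y * (x ^ n)⁻¹ * y⁻¹) := by
          rw [← ih]; exact h4
        rw [h5]
        have h6 : cm x y * x ^ n = x ^ n * cm x y := (h1.pow_right n).eq
        calc cm x y * (x ^ n * y * (x ^ n)⁻¹ * y⁻¹)
            = (cm x y * x ^ n) * y * (x ^ n)⁻¹ * y⁻¹ := by group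
          _ = x ^ n * (cm x y * y) * (x ^ n)⁻¹ * y⁻¹ := by rw [h6]; group
          _ = x ^ n * (x * y * x⁻¹) * (x ^ n)⁻¹ * y⁻¹ := by rw [e]
          _ = x ^ (n + 1) * y * (x ^ (n + 1))⁻¹ * y⁻¹ := by
            rw [pow_succ x n, mul_inv_rev]; group

/-- normal form of elements of the group generated by `x, y` -/
def NF (x y g : G) : Prop := ∃ i j k : ℕ, g = x ^ i * y ^ j * (cm x y) ^ k

lemma NF.mul (hp : 0 < p) (hx : x ^ p = 1) (h1 : Commute (cm x y) x)
    (h2 : Commute (cm x y) y) {g h : G} (hg : NF x y g) (hh : NF x y h) : NF x y (g * h) := by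
  obtain ⟨i, j, k, rfl⟩ := hg
  obtain ⟨i', j', k', rfl⟩ := hh
  have hz := cm_pow hx h1 h2
  -- y^j x^i' = z^{(p-1) i' j} x^i' y^j
  have key : y ^ j * x ^ i' = (cm x y) ^ ((p - 1) * (i' * j)) * x ^ i' * y ^ j := by
    have h3 : x ^ i' * y ^ j = (cm x y) ^ (i' * j) * y ^ j * x ^ i' := by
      have := Sos.heis_pow (𝒜 := MonoidAlgebra ℝ G) (x := MonoidAlgebra.single x (1 : ℝ))
        (y := MonoidAlgebra.single y (1 : ℝ)) (z := MonoidAlgebra.single (cm x y) (1 : ℝ))
        (by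
          show _ * _ = _ * _
          rw [MonoidAlgebra.single_mul_single, MonoidAlgebra.single_mul_single, h1.eq])
        (by
          show _ * _ = _ * _
          rw [MonoidAlgebra.single_mul_single, MonoidAlgebra.single_mul_single, h2.eq])
        (by
          simp only [MonoidAlgebra.single_mul_single, mul_one]
          rw [← cm_eq]) i' j
      simp only [MonoidAlgebra.single_pow, one_pow, MonoidAlgebra.single_mul_single,
        mul_one] at this
      have h7 := MonoidAlgebra.single_left_injective (R := ℝ) (r := (1 : ℝ)) one_ne_zero this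
      exact h7
    have h4 : (cm x y) ^ ((p - 1) * (i' * j)) * (cm x y) ^ (i' * j) = 1 := by
      rw [← pow_add]
      have : (p - 1) * (i' * j) + i' * j = p * (i' * j) := by
        obtain ⟨q, rfl⟩ : ∃ q, p = q + 1 := ⟨p - 1, by omega⟩
        simp; ring
      rw [this, pow_mul, hz, one_pow]
    calc y ^ j * x ^ i' = ((cm x y) ^ ((p - 1) * (i' * j)) * (cm x y) ^ (i' * j)) *
          (y ^ j * x ^ i') := by rw [h4, one_mul]
      _ = (cm x y) ^ ((p - 1) * (i' * j)) * ((cm x y) ^ (i' * j) * y ^ j * x ^ i') := by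
          group
      _ = (cm x y) ^ ((p - 1) * (i' * j)) * (x ^ i' * y ^ j) := by rw [h3]
      _ = _ := by rw [mul_assoc]
  refine ⟨i + i', j + j', (p - 1) * (i' * j) + k + k', ?_⟩
  have cx : ∀ a b : ℕ, (cm x y) ^ a * x ^ b = x ^ b * (cm x y) ^ a := fun a b =>
    ((h1.pow_left a).pow_right b).eq
  have cy : ∀ a b : ℕ, (cm x y) ^ a * y ^ b = y ^ b * (cm x y) ^ a := fun a b =>
    ((h2.pow_left a).pow_right b).eq
  calc x ^ i * y ^ j * (cm x y) ^ k * (x ^ i' * y ^ j' * (cm x y) ^ k')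
      = x ^ i * y ^ j * ((cm x y) ^ k * x ^ i') * y ^ j' * (cm x y) ^ k' := by
        simp only [mul_assoc]
    _ = x ^ i * (y ^ j * x ^ i') * ((cm x y) ^ k * y ^ j') * (cm x y) ^ k' := by
        rw [cx]; simp only [mul_assoc]
    _ = x ^ i * ((cm x y) ^ ((p - 1) * (i' * j)) * x ^ i' * y ^ j) *
          (y ^ j' * (cm x y) ^ k) * (cm x y) ^ k' := by rw [key, cy]
    _ = x ^ i * (x ^ i' * ((cm x y) ^ ((p - 1) * (i' * j)) * y ^ j)) *
          (y ^ j' * (cm x y) ^ k) * (cm x y) ^ k' := by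
        rw [cx]; simp only [mul_assoc]
    _ = (x ^ i * x ^ i') * y ^ j * ((cm x y) ^ ((p - 1) * (i' * j)) * y ^ j') *
          ((cm x y) ^ k * (cm x y) ^ k') := by
        rw [cy]; simp only [mul_assoc]
    _ = (x ^ i * x ^ i') * (y ^ j * y ^ j') * ((cm x y) ^ ((p - 1) * (i' * j)) *
          ((cm x y) ^ k * (cm x y) ^ k')) := by
        rw [cy]; simp only [mul_assoc]
    _ = x ^ (i + i') * y ^ (j + j') * (cm x y) ^ ((p - 1) * (i' * j) + k + k') := by
        rw [← pow_add, ← pow_add, ← pow_add, ← pow_add, add_assoc]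

lemma pow_inv_eq {p : ℕ} (hp : 0 < p) {x : G} (hx : x ^ p = 1) (i : ℕ) :
    (x ^ i)⁻¹ = x ^ ((p - 1) * i) := by
  rw [inv_eq_iff_mul_eq_one, ← pow_add]
  have : i + (p - 1) * i = p * i := by
    obtain ⟨q, rfl⟩ : ∃ q, p = q + 1 := ⟨p - 1, by omega⟩
    simp; ring
  rw [this, pow_mul, hx, one_pow]

lemma NF_closure (hp : 0 < p) (hx : x ^ p = 1) (hy : y ^ p = 1) (h1 : Commute (cm x y) x)
    (h2 : Commute (cm x y) y) {g : G} (hg : g ∈ Subgroup.closure ({x, y} : Set G)) :
    NF x y g := by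
  have hz := cm_pow hx h1 h2
  induction hg using Subgroup.closure_induction with
  | mem g hg =>
    rcases hg with rfl | hg
    · exact ⟨1, 0, 0, by simp⟩
    · rw [Set.mem_singleton_iff] at hg
      subst hg
      exact ⟨0, 1, 0, by simp⟩
  | one => exact ⟨0, 0, 0, by simp⟩
  | mul g h _ _ hg hh => exact hg.mul hp hx h1 h2 hh
  | inv g _ hg =>
    obtain ⟨i, j, k, rfl⟩ := hg
    rw [mul_inv_rev, mul_inv_rev, pow_inv_eq hp hz, pow_inv_eq hp hx, pow_inv_eq hp hy]
    have a1 : NF x y ((cm x y) ^ ((p - 1) * k)) := ⟨0, 0, _, by simp; rfl⟩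
    have a2 : NF x y (y ^ ((p - 1) * j)) := ⟨0, (p - 1) * j, 0, by simp⟩
    have a3 : NF x y (x ^ ((p - 1) * i)) := ⟨(p - 1) * i, 0, 0, by simp⟩
    exact a1.mul hp hx h1 h2 (a2.mul hp hx h1 h2 a3)

lemma closure_sub_Wd (hp : 0 < p) {X : Fin 4 → G} {i j : Fin 4} (hx : X i ^ p = 1)
    (hy : X j ^ p = 1) (h1 : Commute (cm (X i) (X j)) (X i))
    (h2 : Commute (cm (X i) (X j)) (X j)) :
    ((Subgroup.closure ({X i, X j} : Set G) : Subgroup G) : Set G) ⊆ Wd X 8 := by
  intro g hg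
  obtain ⟨a, b, k, rfl⟩ := NF_closure hp hx hy h1 h2 hg
  rw [cm_pow_eq h1, pow_inv_eq hp hx]
  have hyi : (X j)⁻¹ = (X j) ^ ((p - 1) * 1) := by
    rw [← pow_inv_eq hp hy, pow_one]
  rw [hyi]
  refine ⟨[(i, a), (j, b), (i, k), (j, 1), (i, (p - 1) * k), (j, (p - 1) * 1)], by simp, ?_⟩
  simp [mul_assoc]

end heis

variable {v : G → L →L[ℂ] L} {F : Set G} {δ : ℝ} {p : ℕ} {x y : G}

lemma RA.av {H : Subgroup G} (hp : 0 < p) (hx : x ^ p = 1) (hxH : x ∈ H) :
    RA H 1 (av p x) (av p x) := RA.avg hp hx hxH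

lemma single_pow_one (hx : x ^ p = 1) : (MonoidAlgebra.single x (1 : ℝ)) ^ p = 1 := by
  rw [MonoidAlgebra.single_pow, hx, one_pow, MonoidAlgebra.one_def]

set_option maxHeartbeats 1000000 in
/-- robust inequality for one pair -/
theorem pair_ineq (hp : p.Prime) (hp101 : 101 ≤ p) (hx : x ^ p = 1) (hy : y ^ p = 1)
    (h1 : Commute (cm x y) x) (h2 : Commute (cm x y) y)
    (hv : AlmostRep v F δ) (hF : ((Subgroup.closure ({x, y} : Set G) : Subgroup G) : Set G) ⊆ F)
    (hδ1 : δ ≤ 1) (T : L) :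
    -(100000 * δ) * ‖T‖ ^ 2 ≤
      (⟪T, (ev v (1 - av p x) * ev v (1 - av p y) + ev v (1 - av p y) * ev v (1 - av p x)) T⟫_ℂ).re
      + 1 / 8 * ((⟪T, ev v (1 - av p x) T⟫_ℂ).re + (⟪T, ev v (1 - av p y) T⟫_ℂ).re) := by
  set H : Subgroup G := Subgroup.closure ({x, y} : Set G) with hH
  have hδ := delta_nonneg hv
  have hxH : x ∈ H := Subgroup.subset_closure (by simp)
  have hyH : y ∈ H := Subgroup.subset_closure (by simp)
  have hzH : cm x y ∈ H := by
    unfold cm
    exact H.mul_mem (H.mul_mem (H.mul_mem hxH hyH) (H.inv_mem hxH)) (H.inv_mem hyH)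
  have hz := cm_pow hx h1 h2
  set A := av p x with hA
  set B := av p y with hB
  set Z := av p (cm x y) with hZ
  have sx := single_pow_one hx
  have sy := single_pow_one hy
  have sz := single_pow_one hz
  have cxz : Commute (MonoidAlgebra.single x (1 : ℝ)) (MonoidAlgebra.single (cm x y) (1 : ℝ)) := by
    show _ * _ = _ * _
    rw [MonoidAlgebra.single_mul_single, MonoidAlgebra.single_mul_single, h1.eq]
  have cyz : Commute (MonoidAlgebra.single y (1 : ℝ)) (MonoidAlgebra.single (cm x y) (1 : ℝ)) := by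
    show _ * _ = _ * _
    rw [MonoidAlgebra.single_mul_single, MonoidAlgebra.single_mul_single, h2.eq]
  have exy : MonoidAlgebra.single x (1 : ℝ) * MonoidAlgebra.single y (1 : ℝ) =
      MonoidAlgebra.single (cm x y) (1 : ℝ) * MonoidAlgebra.single y (1 : ℝ) *
        MonoidAlgebra.single x (1 : ℝ) := by
    simp only [MonoidAlgebra.single_mul_single, mul_one]
    rw [← cm_eq]
  -- the reversed commutation relation, with `z⁻¹`
  have hABA : (1 - Z) * (A * B * A) = ((p : ℝ)⁻¹) • ((1 - Z) * A) :=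
    Sos.D_ABA hp sx sz cxz cyz exy
  have hBAB : (1 - Z) * (B * A * B) = ((p : ℝ)⁻¹) • ((1 - Z) * B) := by
    -- use z' = z⁻¹ : y x = z' x y
    have hz' : (cm x y)⁻¹ ^ p = 1 := by rw [inv_pow, hz, inv_one]
    have sz' := single_pow_one hz'
    have cxz' : Commute (MonoidAlgebra.single x (1 : ℝ))
        (MonoidAlgebra.single (cm x y)⁻¹ (1 : ℝ)) := by
      show _ * _ = _ * _
      rw [MonoidAlgebra.single_mul_single, MonoidAlgebra.single_mul_single, h1.inv_left.eq]
    have cyz' : Commute (MonoidAlgebra.single y (1 : ℝ))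
        (MonoidAlgebra.single (cm x y)⁻¹ (1 : ℝ)) := by
      show _ * _ = _ * _
      rw [MonoidAlgebra.single_mul_single, MonoidAlgebra.single_mul_single, h2.inv_left.eq]
    have eyx : MonoidAlgebra.single y (1 : ℝ) * MonoidAlgebra.single x (1 : ℝ) =
        MonoidAlgebra.single (cm x y)⁻¹ (1 : ℝ) * MonoidAlgebra.single x (1 : ℝ) *
          MonoidAlgebra.single y (1 : ℝ) := by
      simp only [MonoidAlgebra.single_mul_single, mul_one]
      congr 1
      rw [mul_assoc, cm_eq x y]; group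
    have hZ' : av p (cm x y)⁻¹ = Z := by
      have r1 := RA.av (H := (⊤ : Subgroup G)) hp.pos hz (Subgroup.mem_top _)
      unfold av at *
      rw [hZ]
      unfold Sos.avg
      congr 1
      have e1 : ∀ i ∈ range p, (MonoidAlgebra.single (cm x y)⁻¹ (1 : ℝ)) ^ i =
          MonoidAlgebra.single (cm x y) (1 : ℝ) *
            (MonoidAlgebra.single (cm x y) (1 : ℝ)) ^ (p - 1 - i) := by
        intro i hi
        have hi' := mem_range.1 hi
        simp only [MonoidAlgebra.single_pow, one_pow, MonoidAlgebra.single_mul_single, mul_one]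
        congr 1
        rw [inv_pow, inv_eq_iff_mul_eq_one, ← pow_succ', ← pow_add]
        have : i + (p - 1 - i + 1) = p := by omega
        rw [this, hz]
      rw [Finset.sum_congr rfl e1, ← Finset.mul_sum,
        Finset.sum_range_reflect (fun j => (MonoidAlgebra.single (cm x y) (1 : ℝ)) ^ j) p]
      have e2 := Sos.avg_mul_self_left hp.pos sz
      unfold Sos.avg at e2
      rw [mul_smul_comm] at e2
      have hpne : ((p : ℝ)⁻¹) ≠ 0 := by
        have : (0 : ℝ) < p := by exact_mod_cast hp.pos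
        positivity
      exact smul_right_injective _ hpne e2
    have := Sos.D_ABA hp sy sz' cyz' cxz' eyx
    rw [show Sos.avg p (MonoidAlgebra.single (cm x y)⁻¹ (1 : ℝ)) = Z from hZ'] at this
    exact this
  have hZAB : Z * (A * B) = Z * (B * A) := Sos.Z_comm hp sz cxz cyz exy
  have hAA : A * A = A := Sos.avg_idem hp.pos sx
  have hBB : B * B = B := Sos.avg_idem hp.pos sy
  have hZZ : Z * Z = Z := Sos.avg_idem hp.pos sz
  have hZA : Z * A = A * Z :=
    ((Sos.avg_commute ((Sos.avg_commute (p := p) cxz).symm))).eq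
  have hZB : Z * B = B * Z :=
    ((Sos.avg_commute ((Sos.avg_commute (p := p) cyz).symm))).eq
  have hpR : (101 : ℝ) ≤ p := by exact_mod_cast hp101
  have hr0 : 0 < (p : ℝ)⁻¹ := by positivity
  have hr1 : (p : ℝ)⁻¹ ≤ 1 / 101 := by
    rw [inv_eq_one_div]
    exact one_div_le_one_div_of_le (by norm_num) hpR
  set r : ℝ := (p : ℝ)⁻¹ with hr
  have hr2 : 1 - r ≠ 0 := by linarith
  -- the polynomials
  set N := A + B with hN
  set X := A * B + B * A with hX
  set Fp := (1 - r)⁻¹ • (N - X) with hFp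
  set M := N - Fp with hM
  set D := 1 - Z with hD
  have hsos := Sos.sos_abstract (A := A) (B := B) (Z := Z) (r := r) (s := 1 / 10) (e := 1 / 8)
    hr2 (by norm_num) hAA hBB hZZ hZA hZB hZAB hABA hBAB hN hX hFp hM hD
  have rA : RA H 1 A A := RA.av hp.pos hx hxH
  have rB : RA H 1 B B := RA.av hp.pos hy hyH
  have rZ : RA H 1 Z Z := RA.av hp.pos hz hzH
  have r1 : RA H 1 1 (1 : MonoidAlgebra ℝ G) := RA.one
  have r1A : RA H 2 (1 - A) (1 - A) := (r1.sub rA).mono (by norm_num)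
  have r1B : RA H 2 (1 - B) (1 - B) := (r1.sub rB).mono (by norm_num)
  have rN : RA H 2 N N := (rA.add rB).mono (by norm_num)
  have rX : RA H 2 X X := by
    have := (rA.mul rB).add (rB.mul rA)
    have h' : RA H (1 * 1 + 1 * 1) (A * B + B * A) (A * B + B * A) := by
      rw [add_comm (B * A) (A * B)] at this
      exact this
    exact h'.mono (by norm_num)
  have hinv : (1 - r)⁻¹ ≤ 5 / 4 := by
    rw [inv_le_comm₀ (by linarith) (by norm_num)]
    linarith
  have hinv0 : 0 ≤ (1 - r)⁻¹ := inv_nonneg.2 (by linarith)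
  have rF : RA H 5 Fp Fp := ((rN.sub rX).smul _).mono (by
    rw [abs_of_nonneg hinv0]; linarith)
  have rM : RA H 7 M M := (rN.sub rF).mono (by norm_num)
  have rD : RA H 2 D D := (r1.sub rZ).mono (by norm_num)
  have rG : RA H 8 ((1 / 10 : ℝ) • Fp - M) ((1 / 10 : ℝ) • Fp - M) :=
    ((rF.smul (1 / 10)).sub rM).mono (by
      rw [abs_of_nonneg (by norm_num : (0 : ℝ) ≤ 1 / 10)]; norm_num)
  have t1 := ev_pos hv hF hδ1 ((rZ.mul r1A).mul r1B) T
  have t2 := ev_pos hv hF hδ1 (rZ.mul r1A) T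
  have t3 := ev_pos hv hF hδ1 (rZ.mul r1B) T
  have t4 := ev_pos hv hF hδ1 (rD.mul (r1.sub rN)) T
  have t5 := ev_pos hv hF hδ1 (rD.mul (r1.sub rF)) T
  have t6 := ev_pos hv hF hδ1 (rD.mul rF) T
  have t7 := ev_pos hv hF hδ1 (rD.mul rG) T
  -- evaluate the identity
  have hev := congrArg (fun f => (⟪T, ev v f T⟫_ℂ).re) hsos
  simp only [ev_add, ev_smul, ContinuousLinearMap.add_apply, ContinuousLinearMap.smul_apply,
    inner_add_right, inner_smul_right, Complex.add_re, Complex.re_ofReal_mul] at hev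
  have m1 := abs_re_inner_le (ev v (1 - A) * ev v (1 - B)) (ev v ((1 - A) * (1 - B))) T
    (ev_mul hv hF r1A r1B)
  have m2 := abs_re_inner_le (ev v (1 - B) * ev v (1 - A)) (ev v ((1 - B) * (1 - A))) T
    (ev_mul hv hF r1B r1A)
  rw [ContinuousLinearMap.add_apply, inner_add_right, Complex.add_re]
  have hT : 0 ≤ ‖T‖ ^ 2 := by positivity
  have hδT : 0 ≤ δ * ‖T‖ ^ 2 := mul_nonneg hδ hT
  rw [mul_assoc (1 - B) (1 - A) Z] at hev
  have hc6 : 0 ≤ (1 / 8 : ℝ) - (1 + 1 / 8) * (((1 / 10) ^ 2 + r) / (2 * (1 / 10))) := by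
    have : ((1 / 10 : ℝ) ^ 2 + r) / (2 * (1 / 10)) = 5 * (1 / 100 + r) := by ring
    rw [this]; linarith
  have hc6' : (1 / 8 : ℝ) - (1 + 1 / 8) * (((1 / 10) ^ 2 + r) / (2 * (1 / 10))) ≤ 1 := by
    have : ((1 / 10 : ℝ) ^ 2 + r) / (2 * (1 / 10)) = 5 * (1 / 100 + r) := by ring
    rw [this]; linarith
  have bd : ∀ {u w c : ℝ}, |u - w ^ 2| ≤ c → -c ≤ u := by
    intro u w c h
    have := (abs_le.1 h).1
    nlinarith [sq_nonneg w]
  have b1 := bd t1
  have b2 := bd t2
  have b3 := bd t3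
  have b4 := bd t4
  have b5 := bd t5
  have b6' := bd t6
  have b7 := bd t7
  clear t1 t2 t3 t4 t5 t6 t7
  have m1' := (abs_le.1 m1).1
  have m2' := (abs_le.1 m2).1
  set c6 := (1 / 8 : ℝ) - (1 + 1 / 8) * (((1 / 10) ^ 2 + r) / (2 * (1 / 10))) with hc6d
  set E := δ * ‖T‖ ^ 2 with hE
  have b6 : -(300 * E) ≤ c6 * (⟪T, (ev v (Fp * D * (D * Fp))) T⟫_ℂ).re := by
    have l1 : -(300 * E) ≤ (⟪T, (ev v (Fp * D * (D * Fp))) T⟫_ℂ).re := by
      rw [hE]; linarith
    generalize (⟪T, (ev v (Fp * D * (D * Fp))) T⟫_ℂ).re = q at *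
    rcases le_total 0 q with h | h
    · have := mul_nonneg hc6 h
      linarith
    · have : q ≤ c6 * q := by nlinarith
      linarith
  have hconst : (1 + 1 / 8 : ℝ) / (2 * (1 / 10)) = 45 / 8 := by norm_num
  rw [hconst] at hev
  linarith

end

end Crest.Agent.R073.Quant
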