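import Crest.Agent.R073.Defs
import Crest.Prelude.Def_CStarEmbedding

/-!
Row 73 (S0098), general half of M8b: the permutation representation of a group action on
`ℓ²(X)` and the norm estimate from an eigenvector.
-/

set_option autoImplicit false

namespace Crest.Agent.R073

open scoped ComplexConjugate ENNReal
open Crest.AnalysisR.CStarEmbedding

noncomputable section

namespace PermOrbit

variable {X : Type}

/-- `ℓ²(X)` -/
abbrev L2 (X : Type) : Type := lp (fun _ : X => ℂ) 2

theorem memℓp_comp (σ : Equiv.Perm X) (f : L2 X) :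
    Memℓp (fun x => f (σ.symm x)) (2 : ℝ≥0∞) := by
  have h := lp.memℓp f
  rw [memℓp_gen_iff (by norm_num)] at h ⊢
  exact (σ.symm.summable_iff (f := fun x => ‖f x‖ ^ (2 : ℝ≥0∞).toReal)).2 h

/-- the isometry of `ℓ²(X)` given by a permutation of `X` -/
def permIso (σ : Equiv.Perm X) : L2 X ≃ₗᵢ[ℂ] L2 X where
  toFun f := ⟨fun x => f (σ.symm x), memℓp_comp σ f⟩
  invFun f := ⟨fun x => f (σ x), memℓp_comp σ.symm f⟩
  left_inv f := by ext x; simp
  right_inv f := by ext x; simp
  map_add' f g := by ext x; rfl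
  map_smul' c f := by ext x; rfl
  norm_map' f := by
    have h2 : 0 < (2 : ℝ≥0∞).toReal := by norm_num
    rw [lp.norm_eq_tsum_rpow h2, lp.norm_eq_tsum_rpow h2]
    congr 1
    exact σ.symm.tsum_eq (fun x => ‖f x‖ ^ (2 : ℝ≥0∞).toReal)

theorem permIso_apply (σ : Equiv.Perm X) (f : L2 X) (x : X) :
    permIso σ f x = f (σ.symm x) := rfl

end PermOrbit

open PermOrbit

variable {G : Type} [Group G] {X : Type} [MulAction G X]

/-- the permutation representation as a homomorphism to linear isometries -/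
def permIsoHom (G X : Type) [Group G] [MulAction G X] : G →* (L2 X ≃ₗᵢ[ℂ] L2 X) where
  toFun g := permIso (MulAction.toPerm g)
  map_one' := by
    ext f x
    simp [permIso_apply]
  map_mul' g h := by
    ext f x
    simp [permIso_apply, mul_smul]

/-- the permutation representation of `G` on `ℓ²(X)` -/
def permRep (G X : Type) [Group G] [MulAction G X] :
    G →* unitary (L2 X →L[ℂ] L2 X) :=
  (Unitary.linearIsometryEquiv (𝕜 := ℂ) (H := L2 X)).symm.toMonoidHom.comp (permIsoHom G X)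

theorem permRep_apply (g : G) (f : L2 X) (x : X) :
    ((permRep G X g : unitary (L2 X →L[ℂ] L2 X)) : L2 X →L[ℂ] L2 X) f x = f (g⁻¹ • x) := rfl

theorem permRep_single [DecidableEq X] (g : G) (x : X) (z : ℂ) :
    ((permRep G X g : unitary (L2 X →L[ℂ] L2 X)) : L2 X →L[ℂ] L2 X) (lp.single 2 x z)
      = lp.single 2 (g • x) z := by
  ext y
  rw [permRep_apply]
  by_cases h : y = g • x
  · subst h
    simp
  · have h' : g⁻¹ • y ≠ x := fun e => h (by rw [← e]; simp)
    rw [lp.single_apply_ne _ _ _ h', lp.single_apply_ne _ _ _ h]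

/-- an eigenvector in some unitary representation forces the norm of the sum in the full group
C⋆-algebra to be at least `5`. -/
theorem norm_ge_of_eigenvector {G : Type} [Group G] {A : Type} [CStarAlgebra A]
    {u : G →* unitary A} (hu : IsFullGroupCStar A u)
    {H : Type} [NormedAddCommGroup H] [InnerProductSpace ℂ H] [CompleteSpace H]
    (w : G →* unitary (H →L[ℂ] H)) (ζ : H) (hζ : ‖ζ‖ = 1)
    (a b c d : G) (χ : ℂ) (hχ : ‖χ‖ = 1)
    (ha : ((w a : unitary (H →L[ℂ] H)) : H →L[ℂ] H) ζ = ζ)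
    (hb : ((w b : unitary (H →L[ℂ] H)) : H →L[ℂ] H) ζ = ζ)
    (hc : ((w c : unitary (H →L[ℂ] H)) : H →L[ℂ] H) ζ = ζ)
    (hd : ((w d : unitary (H →L[ℂ] H)) : H →L[ℂ] H) ζ = χ • ζ) :
    5 ≤ ‖(1 : A) + (u a : A) + (u b : A) + (u c : A) + conj χ • (u d : A)‖ := by
  obtain ⟨φ, hφ⟩ := hu.2 (H →L[ℂ] H) w
  set h : A := (1 : A) + (u a : A) + (u b : A) + (u c : A) + conj χ • (u d : A) with hh
  have h1 : φ h ζ = (5 : ℂ) • ζ := by
    have hχ' : conj χ * χ = 1 := by
      rw [mul_comm, Complex.mul_conj, Complex.normSq_eq_norm_sq, hχ]; simp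
    simp only [hh, map_add, map_one, map_smul, hφ, add_apply,
      smul_apply, ha, hb, hc, hd, smul_smul, hχ', one_smul]
    simp only [one_apply_eq_self]
    module
  have h2 : ‖φ h ζ‖ = 5 := by
    rw [h1, norm_smul, hζ]; simp
  calc (5 : ℝ) = ‖φ h ζ‖ := h2.symm
    _ ≤ ‖φ h‖ * ‖ζ‖ := (φ h).le_opNorm ζ
    _ = ‖φ h‖ := by rw [hζ, mul_one]
    _ ≤ ‖h‖ := NonUnitalStarAlgHom.norm_apply_le φ h

/-- orbit form: if `f : ZMod p → X` is injective, `d` shifts it and `a, b, c` fix it pointwise,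
then the norm in the full group C⋆-algebra is at least `5`. -/
theorem norm_ge_of_orbit (p : ℕ) [Fact p.Prime] {G X : Type} [Group G] [MulAction G X]
    {A : Type} [CStarAlgebra A] {u : G →* unitary A} (hu : IsFullGroupCStar A u)
    (a b c d : G) (f : ZMod p → X) (hf : Function.Injective f)
    (hd : ∀ j, d • f j = f (j + 1)) (ha : ∀ j, a • f j = f j) (hb : ∀ j, b • f j = f j)
    (hc : ∀ j, c • f j = f j) :
    5 ≤ ‖(1 : A) + (u a : A) + (u b : A) + (u c : A) + conj (psi p 1) • (u d : A)‖ := by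
  classical
  set ζ₀ : L2 X := ∑ j : ZMod p, lp.single 2 (f j) (conj (psi p j)) with hζ₀
  -- the vector is nonzero
  have hne : ζ₀ ≠ 0 := by
    intro h0
    have h1 : ζ₀ (f 0) = 0 := by rw [h0]; rfl
    have h2 : ζ₀ (f 0) = ∑ j : ZMod p, (lp.single 2 (f j) (conj (psi p j)) : L2 X) (f 0) := by
      rw [hζ₀, lp.coeFn_sum]
      exact Finset.sum_apply _ _ _
    rw [h2, Finset.sum_eq_single 0] at h1
    · rw [lp.single_apply_self] at h1
      have h3 := norm_psi p 0
      have h4 : psi p 0 = 0 := by simpa using h1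
      rw [h4] at h3
      simp at h3
    · intro j _ hj
      exact lp.single_apply_ne _ _ _ (fun e => hj (hf e).symm)
    · simp
  have hfix : ∀ g : G, (∀ j, g • f j = f j) →
      ((permRep G X g : unitary (L2 X →L[ℂ] L2 X)) : L2 X →L[ℂ] L2 X) ζ₀ = ζ₀ := by
    intro g hg
    rw [hζ₀, map_sum]
    refine Finset.sum_congr rfl fun j _ => ?_
    rw [permRep_single, hg]
  have hshift : ((permRep G X d : unitary (L2 X →L[ℂ] L2 X)) : L2 X →L[ℂ] L2 X) ζ₀
      = psi p 1 • ζ₀ := by
    rw [hζ₀, map_sum, Finset.smul_sum]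
    rw [← Equiv.sum_comp (Equiv.addRight (1 : ZMod p))
      (fun j => psi p 1 • (lp.single 2 (f j) (conj (psi p j)) : L2 X))]
    refine Finset.sum_congr rfl fun j _ => ?_
    rw [permRep_single, hd, Equiv.coe_addRight, ← lp.single_smul]
    congr 1
    have h1 : psi p (j + 1) = psi p j * psi p 1 := by
      unfold psi; exact AddChar.map_add_eq_mul _ _ _
    have h2 : psi p 1 * conj (psi p 1) = 1 := by
      rw [Complex.mul_conj, Complex.normSq_eq_norm_sq, norm_psi]; simp
    rw [smul_eq_mul, h1, map_mul]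
    calc conj (psi p j) = conj (psi p j) * (psi p 1 * conj (psi p 1)) := by rw [h2, mul_one]
      _ = psi p 1 * (conj (psi p j) * conj (psi p 1)) := by ring
  have hn : ‖ζ₀‖ ≠ 0 := norm_ne_zero_iff.2 hne
  refine norm_ge_of_eigenvector hu (permRep G X) (((‖ζ₀‖⁻¹ : ℝ) : ℂ) • ζ₀) ?_ a b c d (psi p 1)
    (norm_psi p 1) ?_ ?_ ?_ ?_
  · rw [norm_smul, Complex.norm_real, norm_inv, norm_norm, inv_mul_cancel₀ hn]
  · rw [map_smul, hfix a ha]
  · rw [map_smul, hfix b hb]
  · rw [map_smul, hfix c hc]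
  · rw [map_smul, hshift, smul_comm]

end

end Crest.Agent.R073
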