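import Crest.Agent.R073.Stmts

/-!
Row 73 (S0098), module M8b (group independent half): the permutation representation of a group
acting on a set `X` on `ℓ²(X)`, and the norm estimate in the full group C⋆-algebra.
-/

set_option autoImplicit false

namespace Crest.Agent.R073.PermRep

open scoped ENNReal ComplexConjugate
open Crest.AnalysisR.CStarEmbedding

noncomputable section

variable {X : Type}

/-- `ℓ²(X)` -/
abbrev L2 (X : Type) : Type := lp (fun _ : X => ℂ) 2

theorem memℓp_comp (f : L2 X) (e : Equiv.Perm X) :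
    Memℓp (fun x => f (e x)) 2 := by
  have h := lp.memℓp f
  rw [memℓp_gen_iff (by norm_num)] at h ⊢
  exact (e.summable_iff (f := fun i => ‖f i‖ ^ (2 : ℝ≥0∞).toReal)).2 h

/-- reindexing -/
def reindex (e : Equiv.Perm X) : L2 X ≃ₗᵢ[ℂ] L2 X where
  toFun f := ⟨fun x => f (e.symm x), memℓp_comp f e.symm⟩
  invFun f := ⟨fun x => f (e x), memℓp_comp f e⟩
  left_inv f := by ext x; simp
  right_inv f := by ext x; simp
  map_add' f g := by ext x; rfl
  map_smul' c f := by ext x; simp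
  norm_map' f := by
    have h1 := lp.norm_rpow_eq_tsum (p := 2) (by norm_num) f
    have h2 := lp.norm_rpow_eq_tsum (p := 2) (by norm_num)
      (⟨fun x => f (e.symm x), memℓp_comp f e.symm⟩ : L2 X)
    have h3 : (∑' i, ‖f (e.symm i)‖ ^ (2 : ℝ≥0∞).toReal) = ∑' i, ‖f i‖ ^ (2 : ℝ≥0∞).toReal :=
      e.symm.tsum_eq (fun i => ‖f i‖ ^ (2 : ℝ≥0∞).toReal)
    have h4 : ‖(⟨fun x => f (e.symm x), memℓp_comp f e.symm⟩ : L2 X)‖ ^ (2 : ℝ≥0∞).toReal
        = ‖f‖ ^ (2 : ℝ≥0∞).toReal := by
      rw [h1, h2]; exact h3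
    have h5 : (2 : ℝ≥0∞).toReal ≠ 0 := by norm_num
    exact (Real.rpow_left_inj (norm_nonneg _) (norm_nonneg _) h5).1 h4

theorem reindex_apply (e : Equiv.Perm X) (f : L2 X) (x : X) :
    (reindex e f : L2 X) x = f (e.symm x) := rfl

open Classical in
/-- basis vectors -/
def dl (x : X) : L2 X := lp.single 2 x (1 : ℂ)

theorem dl_same (x : X) : (dl x) x = 1 := by
  classical
  rw [dl, lp.single_apply]; simp

theorem dl_ne {x y : X} (h : y ≠ x) : (dl x) y = 0 := by
  classical
  rw [dl, lp.single_apply]; simp [h]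

theorem reindex_dl (e : Equiv.Perm X) (x : X) :
    reindex e (dl x) = dl (e x) := by
  ext y
  rw [reindex_apply]
  by_cases h : y = e x
  · subst h; rw [Equiv.symm_apply_apply, dl_same, dl_same]
  · have : e.symm y ≠ x := fun h' => h (by rw [← h']; simp)
    rw [dl_ne h, dl_ne this]

variable {G : Type} [Group G] [MulAction G X]

/-- the permutation representation -/
def rep (G X : Type) [Group G] [MulAction G X] : G →* unitary (L2 X →L[ℂ] L2 X) where
  toFun g := Unitary.linearIsometryEquiv.symm (reindex (MulAction.toPerm g))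
  map_one' := by
    rw [MulEquiv.symm_apply_eq, map_one]
    ext f x
    simp [reindex_apply]
  map_mul' g h := by
    rw [← map_mul]
    congr 1
    ext f x
    simp [reindex_apply, mul_smul]

theorem rep_apply (g : G) (f : L2 X) (x : X) :
    ((rep G X g : L2 X →L[ℂ] L2 X) f) x = f (g⁻¹ • x) := rfl

theorem rep_dl (g : G) (x : X) :
    (rep G X g : L2 X →L[ℂ] L2 X) (dl x) = dl (g • x) :=
  reindex_dl (MulAction.toPerm g) x

/-- lower bound for the norm in the full group C⋆-algebra from an eigenvector in `ℓ²(X)` -/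
theorem le_norm {A : Type} [CStarAlgebra A] {u : G →* unitary A} (hu : IsFullGroupCStar A u)
    {ι : Type} (s : Finset ι) (c : ι → ℂ) (g : ι → G) (ξ : L2 X) (hξ : ξ ≠ 0) (r : ℝ)
    (h : ∑ i ∈ s, c i • (rep G X (g i) : L2 X →L[ℂ] L2 X) ξ = (r : ℂ) • ξ) :
    r ≤ ‖∑ i ∈ s, c i • (u (g i) : A)‖ := by
  obtain ⟨φ, hφ⟩ := hu.2 (L2 X →L[ℂ] L2 X) (rep G X)
  have h1 : φ (∑ i ∈ s, c i • (u (g i) : A)) ξ = (r : ℂ) • ξ := by
    rw [← h, map_sum, sum_apply]
    refine Finset.sum_congr rfl fun i _ => ?_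
    rw [map_smul, hφ]; rfl
  have h2 : ‖φ (∑ i ∈ s, c i • (u (g i) : A)) ξ‖
      ≤ ‖∑ i ∈ s, c i • (u (g i) : A)‖ * ‖ξ‖ :=
    (ContinuousLinearMap.le_opNorm _ _).trans
      (mul_le_mul_of_nonneg_right (NonUnitalStarAlgHom.norm_apply_le φ _) (norm_nonneg _))
  rw [h1, norm_smul] at h2
  have h3 : 0 < ‖ξ‖ := norm_pos_iff.2 hξ
  have h4 := le_of_mul_le_mul_right h2 h3
  exact (le_abs_self r).trans (by simpa using h4)

end

end Crest.Agent.R073.PermRep
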