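import Crest.Agent.R073.Pair
import Crest.Agent.R073.Stmts

/-!
Row 73, M6b/c: robust spectral gap and quantisation.
-/

set_option autoImplicit false

namespace Crest.Agent.R073.Quant

open MonoidAlgebra Finset
open scoped InnerProductSpace

noncomputable section

variable {G : Type} [Group G] {L : Type} [NormedAddCommGroup L] [InnerProductSpace ℂ L]
  [CompleteSpace L]

/-- Cauchy–Schwarz for a positive operator. -/
lemma pos_cs {P : L →L[ℂ] L} {B : ℝ} (hB : 0 < B) (hP : ‖P‖ ≤ B)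
    (hsa : ∀ a b : L, ⟪P a, b⟫_ℂ = ⟪a, P b⟫_ℂ) (hpos : ∀ u : L, 0 ≤ (⟪u, P u⟫_ℂ).re) (T : L) :
    ‖P T‖ ^ 2 ≤ B * (⟪T, P T⟫_ℂ).re := by
  set t : ℝ := B⁻¹ with ht
  have h := hpos (T - (t : ℂ) • P T)
  have e1 : (⟪P T, P T⟫_ℂ).re = ‖P T‖ ^ 2 := inner_self_eq_norm_sq (𝕜 := ℂ) (P T)
  have e2 : (⟪T, P (P T)⟫_ℂ).re = ‖P T‖ ^ 2 := by rw [← hsa, e1]
  have e3 : (⟪P T, P (P T)⟫_ℂ).re ≤ B * ‖P T‖ ^ 2 := by
    refine (Complex.re_le_norm _).trans ?_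
    refine (norm_inner_le_norm _ _).trans ?_
    have := (P.le_opNorm (P T)).trans (mul_le_mul_of_nonneg_right hP (norm_nonneg _))
    nlinarith [norm_nonneg (P T)]
  have e4 : (⟪T - (t : ℂ) • P T, P (T - (t : ℂ) • P T)⟫_ℂ).re =
      (⟪T, P T⟫_ℂ).re - t * (⟪T, P (P T)⟫_ℂ).re - t * (⟪P T, P T⟫_ℂ).re
        + t ^ 2 * (⟪P T, P (P T)⟫_ℂ).re := by
    rw [map_sub, map_smul, inner_sub_left, inner_sub_right, inner_sub_right, inner_smul_left,
      inner_smul_left, inner_smul_right, inner_smul_right, Complex.conj_ofReal]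
    simp only [Complex.sub_re, Complex.re_ofReal_mul]
    ring
  rw [e4, e1, e2] at h
  have ht0 : 0 < t := inv_pos.2 hB
  have htB : t * B = 1 := inv_mul_cancel₀ hB.ne'
  have h2 : t ^ 2 * (⟪P T, P (P T)⟫_ℂ).re ≤ t * ‖P T‖ ^ 2 := by
    calc t ^ 2 * (⟪P T, P (P T)⟫_ℂ).re ≤ t ^ 2 * (B * ‖P T‖ ^ 2) :=
          mul_le_mul_of_nonneg_left e3 (by positivity)
      _ = (t * B) * (t * ‖P T‖ ^ 2) := by ring
      _ = t * ‖P T‖ ^ 2 := by rw [htB, one_mul]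
  have h3 : t * ‖P T‖ ^ 2 ≤ (⟪T, P T⟫_ℂ).re := by linarith
  calc ‖P T‖ ^ 2 = B * (t * ‖P T‖ ^ 2) := by rw [← mul_assoc, mul_comm B t, htB, one_mul]
    _ ≤ B * (⟪T, P T⟫_ℂ).re := mul_le_mul_of_nonneg_left h3 hB.le

/-- `Re ⟨T, S² T⟩ ≤ ‖(Re S) T‖²` -/
lemma re_sq_le (S : L →L[ℂ] L) (T : L) :
    (⟪T, S (S T)⟫_ℂ).re ≤
      ‖(2⁻¹ : ℂ) • (S T + ContinuousLinearMap.adjoint S T)‖ ^ 2 := by
  set u := S T
  set w := ContinuousLinearMap.adjoint S T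
  have e1 : ⟪T, S u⟫_ℂ = ⟪w, u⟫_ℂ := (ContinuousLinearMap.adjoint_inner_left S u T).symm
  rw [e1, norm_smul, mul_pow]
  have h1 : ‖u + w‖ ^ 2 = ‖u‖ ^ 2 + 2 * (⟪u, w⟫_ℂ).re + ‖w‖ ^ 2 :=
    norm_add_sq (𝕜 := ℂ) u w
  have h2 : ‖u - w‖ ^ 2 = ‖u‖ ^ 2 - 2 * (⟪u, w⟫_ℂ).re + ‖w‖ ^ 2 :=
    norm_sub_sq (𝕜 := ℂ) u w
  have h3 : (⟪w, u⟫_ℂ).re = (⟪u, w⟫_ℂ).re := inner_re_symm (𝕜 := ℂ) w u
  have h4 : 0 ≤ ‖u - w‖ ^ 2 := by positivity
  have h5 : ‖(2⁻¹ : ℂ)‖ = 2⁻¹ := by norm_num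
  rw [h3, h5]
  nlinarith

/-- abstract quantisation -/
theorem quantise {S : L →L[ℂ] L} {κ ε B : ℝ} (hκ : 0 < κ) (hε : 0 < ε) (hB : ‖S‖ ≤ B)
    (hS : ∀ T : L, κ * (⟪T, S T⟫_ℂ).re - ε * ‖T‖ ^ 2 ≤ (⟪T, S (S T)⟫_ℂ).re)
    (h0 : ∃ T : L, ‖T‖ = 1 ∧ (⟪T, S T⟫_ℂ).re ≤ κ / 4) :
    ∃ T : L, ‖T‖ = 1 ∧ (⟪T, S T⟫_ℂ).re < 2 * ε / κ := by
  by_contra hcon
  push Not at hcon
  have hB0 : 0 ≤ B := (norm_nonneg _).trans hB
  set R : Set ℝ := {q | ∃ T : L, ‖T‖ = 1 ∧ (⟪T, S T⟫_ℂ).re = q} with hR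
  have hRne : R.Nonempty := by
    obtain ⟨T, hT, _⟩ := h0
    exact ⟨_, T, hT, rfl⟩
  have hRlow : ∀ q ∈ R, 2 * ε / κ ≤ q := by
    rintro q ⟨T, hT, rfl⟩
    exact hcon T hT
  have hRbdd : BddBelow R := ⟨_, hRlow⟩
  set μ := sInf R with hμ
  have hμlow : 2 * ε / κ ≤ μ := le_csInf hRne hRlow
  have hμ0 : 0 < μ := lt_of_lt_of_le (by positivity) hμlow
  have hμup : μ ≤ κ / 4 := by
    obtain ⟨T, hT, hT2⟩ := h0
    exact (csInf_le hRbdd ⟨T, hT, rfl⟩).trans hT2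
  have hall : ∀ T : L, μ * ‖T‖ ^ 2 ≤ (⟪T, S T⟫_ℂ).re := by
    intro T
    by_cases hT : T = 0
    · subst hT; simp
    have hn : 0 < ‖T‖ := norm_pos_iff.2 hT
    have hmem : (⟪((‖T‖⁻¹ : ℝ) : ℂ) • T, S (((‖T‖⁻¹ : ℝ) : ℂ) • T)⟫_ℂ).re ∈ R := by
      refine ⟨_, ?_, rfl⟩
      rw [norm_smul, Complex.norm_real, Real.norm_eq_abs, abs_of_pos (inv_pos.2 hn),
        inv_mul_cancel₀ hn.ne']
    have h1 := csInf_le hRbdd hmem
    rw [map_smul, inner_smul_left, inner_smul_right, Complex.conj_ofReal,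
      Complex.re_ofReal_mul, Complex.re_ofReal_mul] at h1
    have h2 : μ ≤ ‖T‖⁻¹ * (‖T‖⁻¹ * (⟪T, S T⟫_ℂ).re) := h1
    calc μ * ‖T‖ ^ 2 ≤ ‖T‖⁻¹ * (‖T‖⁻¹ * (⟪T, S T⟫_ℂ).re) * ‖T‖ ^ 2 :=
          mul_le_mul_of_nonneg_right h2 (by positivity)
      _ = (⟪T, S T⟫_ℂ).re := by field_simp
  -- the self-adjoint operator P - μ
  set P : L →L[ℂ] L := (2⁻¹ : ℂ) • (S + ContinuousLinearMap.adjoint S) with hP
  set P' : L →L[ℂ] L := P - (μ : ℂ) • (1 : L →L[ℂ] L) with hP'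
  have hre : ∀ T : L, (⟪T, ContinuousLinearMap.adjoint S T⟫_ℂ).re = (⟪T, S T⟫_ℂ).re := by
    intro T
    rw [ContinuousLinearMap.adjoint_inner_right]
    exact inner_re_symm (𝕜 := ℂ) _ _
  have hPT : ∀ T : L, (⟪T, P' T⟫_ℂ).re = (⟪T, S T⟫_ℂ).re - μ * ‖T‖ ^ 2 := by
    intro T
    have e : P' T = (2⁻¹ : ℂ) • (S T + ContinuousLinearMap.adjoint S T) - (μ : ℂ) • T := rfl
    rw [e, inner_sub_right, inner_smul_right, inner_add_right, inner_smul_right, Complex.sub_re,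
      Complex.re_ofReal_mul]
    have h1 : (⟪T, T⟫_ℂ).re = ‖T‖ ^ 2 := inner_self_eq_norm_sq (𝕜 := ℂ) T
    have h2 : ((2⁻¹ : ℂ) * (⟪T, S T⟫_ℂ + ⟪T, ContinuousLinearMap.adjoint S T⟫_ℂ)).re =
        (⟪T, S T⟫_ℂ).re := by
      have : (2⁻¹ : ℂ) = ((2⁻¹ : ℝ) : ℂ) := by push_cast; rfl
      rw [this, Complex.re_ofReal_mul, Complex.add_re, hre]
      ring
    rw [h1, h2]
  have hsa : ∀ a b : L, ⟪P' a, b⟫_ℂ = ⟪a, P' b⟫_ℂ := by
    intro a b
    have ea : P' a = (2⁻¹ : ℂ) • (S a + ContinuousLinearMap.adjoint S a) - (μ : ℂ) • a := rfl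
    have eb : P' b = (2⁻¹ : ℂ) • (S b + ContinuousLinearMap.adjoint S b) - (μ : ℂ) • b := rfl
    rw [ea, eb, inner_sub_left, inner_sub_right, inner_smul_left, inner_smul_right,
      inner_smul_left, inner_smul_right, inner_add_left, inner_add_right, Complex.conj_ofReal,
      ContinuousLinearMap.adjoint_inner_right, ContinuousLinearMap.adjoint_inner_left]
    have : (starRingEnd ℂ) (2⁻¹ : ℂ) = 2⁻¹ := by
      rw [map_inv₀, Complex.conj_ofNat]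
    rw [this]
    ring
  have hposP : ∀ u : L, 0 ≤ (⟪u, P' u⟫_ℂ).re := by
    intro u
    rw [hPT]; linarith [hall u]
  have hnP : ‖P'‖ ≤ B + μ + 1 := by
    have h1 : ‖P‖ ≤ B := by
      rw [hP, norm_smul]
      have h2 : ‖S + ContinuousLinearMap.adjoint S‖ ≤ B + B := by
        refine (norm_add_le _ _).trans (add_le_add hB ?_)
        rw [LinearIsometryEquiv.norm_map]; exact hB
      have h5 : ‖(2⁻¹ : ℂ)‖ = 2⁻¹ := by norm_num
      rw [h5]; linarith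
    have h2 : ‖(μ : ℂ) • (1 : L →L[ℂ] L)‖ ≤ μ := by
      rw [norm_smul, Complex.norm_real, Real.norm_eq_abs, abs_of_pos hμ0]
      have : ‖(1 : L →L[ℂ] L)‖ ≤ 1 := ContinuousLinearMap.norm_id_le
      nlinarith
    exact (norm_sub_le _ _).trans (by linarith)
  have hB' : 0 < B + μ + 1 := by linarith
  -- choose parameters
  set η : ℝ := min 1 (ε / (4 * (μ + 1))) with hη
  have hη0 : 0 < η := lt_min one_pos (by positivity)
  have hη1 : η ≤ 1 := min_le_left _ _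
  have hη2 : η ≤ ε / (4 * (μ + 1)) := min_le_right _ _
  have hη3 : η * (4 * (μ + 1)) ≤ ε := by
    rwa [le_div_iff₀ (by positivity)] at hη2
  obtain ⟨q, ⟨T, hT, rfl⟩, hq⟩ := exists_lt_of_csInf_lt hRne
    (show sInf R < μ + η ^ 2 / (B + μ + 1) from by
      have : 0 < η ^ 2 / (B + μ + 1) := by positivity
      linarith)
  have hcs := pos_cs hB' hnP hsa hposP T
  rw [hPT, hT] at hcs
  have h6 : ‖P' T‖ ^ 2 ≤ η ^ 2 := by
    refine hcs.trans ?_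
    have : (⟪T, S T⟫_ℂ).re - μ * 1 ^ 2 ≤ η ^ 2 / (B + μ + 1) := by linarith
    calc (B + μ + 1) * ((⟪T, S T⟫_ℂ).re - μ * 1 ^ 2)
        ≤ (B + μ + 1) * (η ^ 2 / (B + μ + 1)) := mul_le_mul_of_nonneg_left this hB'.le
      _ = η ^ 2 := by field_simp
  have h7 : ‖P' T‖ ≤ η := by
    nlinarith [norm_nonneg (P' T), abs_le_of_sq_le_sq' h6 hη0.le]
  have h8 : ‖P T‖ ≤ μ + η := by
    have : P T = P' T + (μ : ℂ) • T := by
      rw [hP', ContinuousLinearMap.sub_apply]; simp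
    rw [this]
    refine (norm_add_le _ _).trans ?_
    rw [norm_smul, Complex.norm_real, Real.norm_eq_abs, abs_of_pos hμ0, hT]
    linarith
  have h9 : (⟪T, S (S T)⟫_ℂ).re ≤ ‖P T‖ ^ 2 := re_sq_le S T
  have h10 := hS T
  rw [hT] at h10
  have h11 := hall T
  rw [hT] at h11
  have h12 : ‖P T‖ ^ 2 ≤ (μ + η) ^ 2 := by
    apply pow_le_pow_left₀ (norm_nonneg _) h8
  have h13 : κ * μ ≤ κ * (⟪T, S T⟫_ℂ).re := by
    apply mul_le_mul_of_nonneg_left _ hκ.le; linarith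
  have h14 : 2 * ε ≤ κ * μ := by
    rw [div_le_iff₀ hκ] at hμlow; linarith
  nlinarith [h9, h10, h12, h13, h14, hη3, mul_le_mul_of_nonneg_left hμup hμ0.le,
    mul_nonneg hη0.le (sub_nonneg.2 hη1), mul_pos hη0 hμ0]


variable {v : G → L →L[ℂ] L} {F : Set G} {δ : ℝ} {p : ℕ}

lemma av_idem' (hp : 0 < p) {x : G} (hx : x ^ p = 1) : av p x * av p x = av p x :=
  Sos.avg_idem hp (single_pow_one hx)

lemma one_sub_av_idem (hp : 0 < p) {x : G} (hx : x ^ p = 1) :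
    (1 - av p x) * (1 - av p x) = 1 - av p x := by
  rw [mul_sub, sub_mul, sub_mul, av_idem' hp hx]; simp

lemma ev_av (v : G → L →L[ℂ] L) (x : G) :
    ev v (av p x) = (((p : ℝ)⁻¹ : ℝ) : ℂ) • ∑ i ∈ range p, v (x ^ i) := by
  unfold av Sos.avg
  rw [ev_smul, ev_sum]
  congr 1
  apply Finset.sum_congr rfl
  intro i _
  rw [MonoidAlgebra.single_pow, one_pow, ev_single]
  simp

/-- almost invariance under a generator gives almost invariance under its powers -/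
lemma pow_inv_bound {x : G} (hF : ∀ i : ℕ, x ^ i ∈ F) (hv : AlmostRep v F δ) (hδ1 : δ ≤ 1)
    {T : L} (hT : ‖T‖ = 1) {η : ℝ} (h : ‖v x T - T‖ ≤ η) (i : ℕ) :
    ‖v (x ^ i) T - T‖ ≤ δ + i * (δ + 2 * η) := by
  have hδ := delta_nonneg hv
  induction i with
  | zero =>
    have h1 := (v 1 - 1).le_opNorm T
    rw [hT, mul_one] at h1
    have h2 : (v 1 - 1) T = v (x ^ 0) T - T := by rw [pow_zero]; rfl
    rw [h2] at h1
    have := hv.one
    simp only [Nat.cast_zero, zero_mul, add_zero]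
    linarith
  | succ n ih =>
    have hx1 : x ∈ F := by simpa using hF 1
    have h1 : ‖(v (x ^ n) ∘L v x - v (x ^ n * x)) T‖ ≤ δ := by
      have := (v (x ^ n) ∘L v x - v (x ^ n * x)).le_opNorm T
      rw [hT, mul_one] at this
      exact this.trans (hv.mul _ (hF n) _ hx1)
    have h2 : ‖v (x ^ n) (v x T - T)‖ ≤ 2 * η := by
      have h3 := (v (x ^ n)).le_opNorm (v x T - T)
      have h4 := hv.norm _ (hF n)
      have h5 : 0 ≤ ‖v x T - T‖ := norm_nonneg _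
      nlinarith [norm_nonneg (v (x ^ n))]
    have e : v (x ^ (n + 1)) T - T = -((v (x ^ n) ∘L v x - v (x ^ n * x)) T) +
        v (x ^ n) (v x T - T) + (v (x ^ n) T - T) := by
      have e1 : (v (x ^ n) ∘L v x - v (x ^ n * x)) T =
        v (x ^ n) (v x T) - v (x ^ n * x) T := rfl
      rw [e1, map_sub, pow_succ]
      abel
    rw [e]
    refine (norm_add₃_le).trans ?_
    rw [norm_neg, Nat.cast_succ]
    linarith

lemma Q_small (hp : 0 < p) {x : G} (hF : ∀ i : ℕ, x ^ i ∈ F) (hv : AlmostRep v F δ)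
    (hδ1 : δ ≤ 1) {T : L} (hT : ‖T‖ = 1) {η : ℝ} (hη : 0 ≤ η) (h : ‖v x T - T‖ ≤ η) :
    ‖ev v (1 - av p x) T‖ ≤ 2 * δ + p * (δ + 2 * η) := by
  have hδ := delta_nonneg hv
  have hpR : (0 : ℝ) < p := by exact_mod_cast hp
  have e1 : ev v (av p x) T - T = (((p : ℝ)⁻¹ : ℝ) : ℂ) • ∑ i ∈ range p, (v (x ^ i) T - T) := by
    rw [ev_av, Finset.sum_sub_distrib, smul_sub]
    congr 1
    · simp
    · rw [Finset.sum_const, card_range, ← Nat.cast_smul_eq_nsmul ℂ, smul_smul]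
      push_cast
      rw [inv_mul_cancel₀ (by exact_mod_cast hp.ne'), one_smul]
  have h1 : ‖ev v (av p x) T - T‖ ≤ δ + p * (δ + 2 * η) := by
    rw [e1, norm_smul, Complex.norm_real, Real.norm_eq_abs, abs_of_pos (inv_pos.2 hpR)]
    have h2 : ‖∑ i ∈ range p, (v (x ^ i) T - T)‖ ≤ p * (δ + p * (δ + 2 * η)) := by
      refine (norm_sum_le _ _).trans ?_
      refine le_trans (Finset.sum_le_sum (g := fun _ => δ + p * (δ + 2 * η)) ?_) ?_
      · intro i hi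
        refine (pow_inv_bound hF hv hδ1 hT h i).trans ?_
        have : (i : ℝ) ≤ p := by exact_mod_cast (mem_range.1 hi).le
        have h3 : 0 ≤ δ + 2 * η := by linarith
        nlinarith
      · rw [Finset.sum_const, card_range, nsmul_eq_mul]
    calc (p : ℝ)⁻¹ * ‖∑ i ∈ range p, (v (x ^ i) T - T)‖
        ≤ (p : ℝ)⁻¹ * (p * (δ + p * (δ + 2 * η))) :=
          mul_le_mul_of_nonneg_left h2 (inv_nonneg.2 hpR.le)
      _ = δ + p * (δ + 2 * η) := by field_simp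
  have h4 : ‖v 1 T - T‖ ≤ δ := by
    have h5 := (v 1 - 1).le_opNorm T
    rw [hT, mul_one] at h5
    exact h5.trans hv.one
  have e2 : ev v (1 - av p x) T = (v 1 T - T) - (ev v (av p x) T - T) := by
    rw [ev_sub, ev_one]
    have : (v 1 - ev v (av p x)) T = v 1 T - ev v (av p x) T := rfl
    rw [this]; abel
  rw [e2]
  refine (norm_sub_le _ _).trans ?_
  linarith

set_option maxHeartbeats 1000000 in
theorem stmtQuant (p : ℕ) [Fact p.Prime] (hp : 101 ≤ p) : StmtQuant p := by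
  have hpp : p.Prime := Fact.out
  have hp0 : 0 < p := hpp.pos
  have hpR : (101 : ℝ) ≤ p := by exact_mod_cast hp
  refine ⟨100000 * p, by linarith, ?_⟩
  intro G _ L _ _ _ x hx v F δ hWd hδ0 hCδ hv hT0
  have hδ1 : δ ≤ 1 := by nlinarith
  -- windows
  have hself : ∀ s : Fin 4, ((Subgroup.closure ({x s, x s} : Set G) : Subgroup G) : Set G) ⊆ F :=
    fun s => (closure_sub_Wd hp0 (hx.pow s) (hx.pow s) (by simp [cm]) (by simp [cm])).trans hWd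
  have hxs : ∀ s : Fin 4, x s ∈ Subgroup.closure ({x s, x s} : Set G) :=
    fun s => Subgroup.subset_closure (by simp)
  have hpow : ∀ (s : Fin 4) (i : ℕ), x s ^ i ∈ F := fun s i =>
    hself s ((Subgroup.closure ({x s, x s} : Set G)).pow_mem (hxs s) i)
  have hcomm : ∀ {y z : G}, Commute y z → cm y z = 1 := by
    intro y z h
    unfold cm
    rw [h.eq]; group
  have hpair : ∀ i j : Fin 4, Commute (cm (x i) (x j)) (x i) ∧ Commute (cm (x i) (x j)) (x j) →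
      ∀ T : L, -(100000 * δ) * ‖T‖ ^ 2 ≤
      (⟪T, (ev v (1 - av p (x i)) * ev v (1 - av p (x j))
        + ev v (1 - av p (x j)) * ev v (1 - av p (x i))) T⟫_ℂ).re
      + 1 / 8 * ((⟪T, ev v (1 - av p (x i)) T⟫_ℂ).re + (⟪T, ev v (1 - av p (x j)) T⟫_ℂ).re) := by
    intro i j h T
    exact pair_ineq hpp hp (hx.pow i) (hx.pow j) h.1 h.2 hv
      ((closure_sub_Wd hp0 (hx.pow i) (hx.pow j) h.1 h.2).trans hWd) hδ1 T
  have h03 : Commute (cm (x 0) (x 3)) (x 0) ∧ Commute (cm (x 0) (x 3)) (x 3) := by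
    rw [hcomm hx.c03]; exact ⟨Commute.one_left _, Commute.one_left _⟩
  have h23 : Commute (cm (x 2) (x 3)) (x 2) ∧ Commute (cm (x 2) (x 3)) (x 3) := by
    rw [hcomm hx.c23]; exact ⟨Commute.one_left _, Commute.one_left _⟩
  have p01 := hpair 0 1 hx.h01
  have p12 := hpair 1 2 hx.h12
  have p20 := hpair 2 0 hx.h20
  have p13 := hpair 1 3 hx.h13
  have p03 := hpair 0 3 h03
  have p23 := hpair 2 3 h23
  -- single element facts
  have r1 : ∀ s : Fin 4, RA (Subgroup.closure ({x s, x s} : Set G)) 2 (1 - av p (x s))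
      (1 - av p (x s)) := fun s =>
    (RA.one.sub (RA.av hp0 (hx.pow s) (hxs s))).mono (by norm_num)
  have hsq : ∀ (s : Fin 4) (T : L), (⟪T, ev v (1 - av p (x s)) T⟫_ℂ).re - 4 * δ * ‖T‖ ^ 2 ≤
      (⟪T, (ev v (1 - av p (x s)) * ev v (1 - av p (x s))) T⟫_ℂ).re := by
    intro s T
    have h1 := abs_re_inner_le _ _ T (ev_mul hv (hself s) (r1 s) (r1 s))
    rw [one_sub_av_idem hp0 (hx.pow s)] at h1
    have := (abs_le.1 h1).1
    linarith
  have hpos : ∀ (s : Fin 4) (T : L), ‖ev v (1 - av p (x s)) T‖ ^ 2 - 12 * δ * ‖T‖ ^ 2 ≤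
      (⟪T, ev v (1 - av p (x s)) T⟫_ℂ).re := by
    intro s T
    have h1 := ev_pos hv (hself s) hδ1 (r1 s) T
    rw [one_sub_av_idem hp0 (hx.pow s)] at h1
    have := (abs_le.1 h1).1
    linarith
  have hnorm : ∀ s : Fin 4, ‖ev v (1 - av p (x s))‖ ≤ 4 := by
    intro s
    have := ev_norm hv (hself s) (r1 s)
    linarith
  set Q : Fin 4 → L →L[ℂ] L := fun s => ev v (1 - av p (x s)) with hQ
  set S : L →L[ℂ] L := Q 0 + Q 1 + Q 2 + Q 3 with hSdef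
  have hSre : ∀ T : L, (⟪T, S T⟫_ℂ).re = (⟪T, Q 0 T⟫_ℂ).re + (⟪T, Q 1 T⟫_ℂ).re
      + (⟪T, Q 2 T⟫_ℂ).re + (⟪T, Q 3 T⟫_ℂ).re := by
    intro T
    have : S T = Q 0 T + Q 1 T + Q 2 T + Q 3 T := rfl
    rw [this, inner_add_right, inner_add_right, inner_add_right]
    simp only [Complex.add_re]
  have hB : ‖S‖ ≤ 16 := by
    have h1 : ‖S‖ ≤ ‖Q 0‖ + ‖Q 1‖ + ‖Q 2‖ + ‖Q 3‖ := norm_add₄_le
    have := hnorm 0
    have := hnorm 1
    have := hnorm 2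
    have := hnorm 3
    simp only [hQ] at h1 ⊢
    linarith
  have hS : ∀ T : L, 5 / 8 * (⟪T, S T⟫_ℂ).re - 1000000 * δ * ‖T‖ ^ 2 ≤ (⟪T, S (S T)⟫_ℂ).re := by
    intro T
    have e1 : S (S T) = (Q 0 * Q 0) T + (Q 1 * Q 1) T + (Q 2 * Q 2) T + (Q 3 * Q 3) T
        + (Q 0 * Q 1 + Q 1 * Q 0) T + (Q 1 * Q 2 + Q 2 * Q 1) T + (Q 2 * Q 0 + Q 0 * Q 2) T
        + (Q 1 * Q 3 + Q 3 * Q 1) T + (Q 0 * Q 3 + Q 3 * Q 0) T + (Q 2 * Q 3 + Q 3 * Q 2) T := by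
      have : S (S T) = (S * S) T := rfl
      rw [this]
      have e2 : S * S = Q 0 * Q 0 + Q 1 * Q 1 + Q 2 * Q 2 + Q 3 * Q 3
        + (Q 0 * Q 1 + Q 1 * Q 0) + (Q 1 * Q 2 + Q 2 * Q 1) + (Q 2 * Q 0 + Q 0 * Q 2)
        + (Q 1 * Q 3 + Q 3 * Q 1) + (Q 0 * Q 3 + Q 3 * Q 0) + (Q 2 * Q 3 + Q 3 * Q 2) := by
        rw [hSdef]; noncomm_ring
      rw [e2]; rfl
    rw [e1]
    simp only [inner_add_right, Complex.add_re]
    have a0 := hsq 0 T
    have a1 := hsq 1 T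
    have a2 := hsq 2 T
    have a3 := hsq 3 T
    have b01 := p01 T
    have b12 := p12 T
    have b20 := p20 T
    have b13 := p13 T
    have b03 := p03 T
    have b23 := p23 T
    have hc : 0 ≤ δ * ‖T‖ ^ 2 := by positivity
    rw [hSre]
    simp only [hQ]
    linarith
  -- the starting vector
  obtain ⟨T0, hT0, hT0'⟩ := hT0
  have hC0 : (0 : ℝ) < 100000 * p := by positivity
  have hη : (1 : ℝ) / (100000 * p) ≥ 0 := by positivity
  have hδC : δ ≤ 1 / (100000 * p) := by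
    rw [le_div_iff₀ hC0]; linarith
  have hQ0 : ∀ s : Fin 4, (⟪T0, Q s T0⟫_ℂ).re ≤ 1 / 10000 := by
    intro s
    have h1 := Q_small hp0 (hpow s) hv hδ1 hT0 hη (hT0' s)
    have h2 : (⟪T0, Q s T0⟫_ℂ).re ≤ ‖Q s T0‖ := by
      refine (Complex.re_le_norm _).trans ?_
      refine (norm_inner_le_norm _ _).trans ?_
      rw [hT0, one_mul]
    have h3 : 2 * δ + p * (δ + 2 * (1 / (100000 * p))) ≤ 1 / 10000 := by
      have h4 : (p : ℝ) * (1 / (100000 * p)) = 1 / 100000 := by field_simp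
      have h5 : (p : ℝ) * δ ≤ 1 / 100000 := by
        rw [← h4]; exact mul_le_mul_of_nonneg_left hδC (by positivity)
      nlinarith
    linarith
  have h0 : ∃ T : L, ‖T‖ = 1 ∧ (⟪T, S T⟫_ℂ).re ≤ 5 / 8 / 4 := by
    refine ⟨T0, hT0, ?_⟩
    rw [hSre]
    have := hQ0 0
    have := hQ0 1
    have := hQ0 2
    have := hQ0 3
    linarith
  obtain ⟨T, hT, hTS⟩ := quantise (κ := 5 / 8) (ε := 1000000 * δ) (B := 16) (by norm_num)
    (by positivity) hB hS h0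
  refine ⟨T, hT, ?_⟩
  have hTS' : (⟪T, S T⟫_ℂ).re < 3200000 * δ := by
    have : 2 * (1000000 * δ) / (5 / 8) = 3200000 * δ := by ring
    rw [this] at hTS; exact hTS
  rw [hSre] at hTS'
  have hall : ∀ s : Fin 4, ‖Q s T‖ ^ 2 ≤ 4000000 * δ := by
    have a0 := hpos 0 T
    have a1 := hpos 1 T
    have a2 := hpos 2 T
    have a3 := hpos 3 T
    rw [hT] at a0 a1 a2 a3
    have c0 : 0 ≤ ‖Q 0 T‖ ^ 2 := by positivity
    have c1 : 0 ≤ ‖Q 1 T‖ ^ 2 := by positivity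
    have c2 : 0 ≤ ‖Q 2 T‖ ^ 2 := by positivity
    have c3 : 0 ≤ ‖Q 3 T‖ ^ 2 := by positivity
    intro s
    simp only [hQ] at c0 c1 c2 c3 hTS' ⊢
    fin_cases s
    · simp only [Fin.zero_eta, Fin.isValue]; linarith
    · simp only [Fin.mk_one, Fin.isValue]; linarith
    · simp only [Fin.reduceFinMk, Fin.isValue]; linarith
    · simp only [Fin.reduceFinMk, Fin.isValue]; linarith
  intro s
  have hsδ : δ ≤ Real.sqrt δ := by
    have h1 : Real.sqrt δ * Real.sqrt δ = δ := Real.mul_self_sqrt hδ0.le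
    have h2 : Real.sqrt δ ≤ 1 := by
      rw [Real.sqrt_le_left (by norm_num)]; linarith
    nlinarith [Real.sqrt_nonneg δ]
  have hQs : ‖Q s T‖ ≤ 2000 * Real.sqrt δ := by
    have h1 : Real.sqrt δ * Real.sqrt δ = δ := Real.mul_self_sqrt hδ0.le
    have h2 := hall s
    have h3 : ‖Q s T‖ ^ 2 ≤ (2000 * Real.sqrt δ) ^ 2 := by nlinarith
    exact le_of_sq_le_sq h3 (by positivity)
  have hv1 : ‖v 1 T - T‖ ≤ δ := by
    have h5 := (v 1 - 1).le_opNorm T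
    rw [hT, mul_one] at h5
    exact h5.trans hv.one
  have hxA : MonoidAlgebra.single (x s) (1 : ℝ) * av p (x s) = av p (x s) :=
    Sos.avg_mul_self_left hp0 (single_pow_one (hx.pow s))
  have hvP : ‖v (x s) (ev v (av p (x s)) T) - ev v (av p (x s)) T‖ ≤ δ := by
    have h1 := ev_mul hv (hself s) (RA.single (hxs s) (1 : ℝ)) (RA.av hp0 (hx.pow s) (hxs s))
    rw [hxA, ev_single] at h1
    have h2 := ContinuousLinearMap.le_opNorm
      (((1 : ℝ) : ℂ) • v (x s) * ev v (av p (x s)) - ev v (av p (x s))) T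
    rw [hT, mul_one] at h2
    have h3 : (((1 : ℝ) : ℂ) • v (x s) * ev v (av p (x s)) - ev v (av p (x s))) T =
        v (x s) (ev v (av p (x s)) T) - ev v (av p (x s)) T := by
      have : ((1 : ℝ) : ℂ) • v (x s) = v (x s) := by simp
      rw [this]; rfl
    rw [h3] at h2
    have h4 : δ * (|(1 : ℝ)| * 1) = δ := by simp
    rw [h4] at h1
    exact h2.trans h1
  have eT : ev v (av p (x s)) T = T + (v 1 T - T) - Q s T := by
    have : Q s T = v 1 T - ev v (av p (x s)) T := by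
      simp only [hQ]
      rw [ev_sub, ev_one]; rfl
    rw [this]; abel
  have e : v (x s) T - T = (v (x s) (ev v (av p (x s)) T) - ev v (av p (x s)) T)
      - v (x s) (v 1 T - T) + v (x s) (Q s T) + ((v 1 T - T) - Q s T) := by
    rw [eT, map_sub, map_add]
    abel
  have hvx := hv.norm _ (hself s (hxs s))
  have n1 : ‖v (x s) (v 1 T - T)‖ ≤ 2 * δ := by
    have := (v (x s)).le_opNorm (v 1 T - T)
    nlinarith [norm_nonneg (v (x s)), norm_nonneg (v 1 T - T)]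
  have n2 : ‖v (x s) (Q s T)‖ ≤ 2 * ‖Q s T‖ := by
    have := (v (x s)).le_opNorm (Q s T)
    nlinarith [norm_nonneg (v (x s)), norm_nonneg (Q s T)]
  have n3 : ‖(v 1 T - T) - Q s T‖ ≤ δ + ‖Q s T‖ :=
    (norm_sub_le _ _).trans (by linarith)
  have n4 : ‖(v (x s) (ev v (av p (x s)) T) - ev v (av p (x s)) T)
      - v (x s) (v 1 T - T)‖ ≤ δ + 2 * δ := (norm_sub_le _ _).trans (by linarith)
  rw [e]
  refine (norm_add₃_le).trans ?_
  have hfin : δ + 2 * δ + 2 * ‖Q s T‖ + (δ + ‖Q s T‖) ≤ 100000 * p * Real.sqrt δ := by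
    have h1 : 0 ≤ Real.sqrt δ := Real.sqrt_nonneg δ
    have h2 : 4 * δ + 3 * ‖Q s T‖ ≤ 6004 * Real.sqrt δ := by linarith
    have h3 : 6004 * Real.sqrt δ ≤ 100000 * p * Real.sqrt δ := by
      apply mul_le_mul_of_nonneg_right _ h1
      linarith
    linarith
  linarith

end

end Crest.Agent.R073.Quant
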