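import Mathlib

/-!
# Near-minimiser lemma (row 73, task 1009)

For a bounded, almost self-adjoint, almost positive operator `Δ` with
`Δ² ≥ (5/8) Δ - ε` and one unit vector of Rayleigh quotient `≤ 1/10` there is a unit
vector of Rayleigh quotient `≤ 1000 ε`.
-/

namespace Crest.Agent.R073

open ContinuousLinearMap

variable {L : Type*} [NormedAddCommGroup L] [InnerProductSpace ℂ L] [CompleteSpace L]

/-- Expansion of the Rayleigh form along a line. -/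
theorem rayleigh_expand (Δ : L →L[ℂ] L) (T W : L) (s : ℝ) :
    (inner ℂ (Δ (T - (s : ℂ) • W)) (T - (s : ℂ) • W)).re
      = (inner ℂ (Δ T) T).re
        - s * (inner ℂ (Δ T + ContinuousLinearMap.adjoint Δ T) W).re
        + s ^ 2 * (inner ℂ (Δ W) W).re := by
  have h1 : (inner ℂ (Δ W) T).re = (inner ℂ (ContinuousLinearMap.adjoint Δ T) W).re := by
    rw [ContinuousLinearMap.adjoint_inner_left]
    rw [← inner_conj_symm (Δ W) T]
    exact Complex.conj_re _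
  rw [inner_add_left, Complex.add_re, ← h1]
  simp only [map_sub, map_smul, inner_sub_left, inner_sub_right, inner_smul_left,
    inner_smul_right, Complex.conj_ofReal, Complex.sub_re, Complex.mul_re, Complex.ofReal_re,
    Complex.ofReal_im, zero_mul, sub_zero]
  ring

omit [CompleteSpace L] in
/-- Expansion of the norm along a line. -/
theorem norm_sq_expand (T W : L) (s : ℝ) :
    ‖T - (s : ℂ) • W‖ ^ 2 = ‖T‖ ^ 2 - 2 * s * (inner ℂ T W).re + s ^ 2 * ‖W‖ ^ 2 := by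
  have := @norm_sub_sq ℂ L _ _ _ T ((s : ℂ) • W)
  rw [this, inner_smul_right, norm_smul]
  simp only [RCLike.re_to_complex, Complex.mul_re, Complex.ofReal_re, Complex.ofReal_im, zero_mul,
    sub_zero, Complex.norm_real, mul_pow, Real.norm_eq_abs, sq_abs]
  ring

theorem rayleigh (L : Type*) [NormedAddCommGroup L] [InnerProductSpace ℂ L] [CompleteSpace L]
    (Δ : L →L[ℂ] L) (ε : ℝ) (hε : 0 < ε) (_hε1 : ε ≤ 1 / 100)
    (hadj : ‖Δ - ContinuousLinearMap.adjoint Δ‖ ≤ ε)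
    (_hnn : ∀ T, -(ε * ‖T‖ ^ 2) ≤ (inner ℂ (Δ T) T).re) (hnorm : ‖Δ‖ ≤ 10)
    (hgap : ∀ T, 5 / 8 * (inner ℂ (Δ T) T).re - ε * ‖T‖ ^ 2 ≤ ‖Δ T‖ ^ 2)
    (hT : ∃ T : L, ‖T‖ = 1 ∧ (inner ℂ (Δ T) T).re ≤ 1 / 10) :
    ∃ T : L, ‖T‖ = 1 ∧ (inner ℂ (Δ T) T).re ≤ 1000 * ε := by
  by_contra hcon
  push Not at hcon
  obtain ⟨T₀, hT₀, hT₀'⟩ := hT
  -- the infimum
  set A : Set ℝ := {r | ∃ T : L, ‖T‖ = 1 ∧ (inner ℂ (Δ T) T).re = r} with hA
  have hAne : A.Nonempty := ⟨_, T₀, hT₀, rfl⟩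
  have hAbdd : BddBelow A := ⟨1000 * ε, by
    rintro r ⟨T, hT, rfl⟩
    exact (hcon T hT).le⟩
  set μ : ℝ := sInf A with hμ
  have hμlow : 1000 * ε ≤ μ := le_csInf hAne (by
    rintro r ⟨T, hT, rfl⟩
    exact (hcon T hT).le)
  have hμup : μ ≤ 1 / 10 := le_trans (csInf_le hAbdd ⟨T₀, hT₀, rfl⟩) hT₀'
  have hμunit : ∀ T : L, ‖T‖ = 1 → μ ≤ (inner ℂ (Δ T) T).re := fun T hT =>
    csInf_le hAbdd ⟨T, hT, rfl⟩
  have hμall : ∀ V : L, μ * ‖V‖ ^ 2 ≤ (inner ℂ (Δ V) V).re := by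
    intro V
    by_cases hV : V = 0
    · simp [hV]
    have hVn : ‖V‖ ≠ 0 := norm_ne_zero_iff.mpr hV
    have hVp : 0 < ‖V‖ := norm_pos_iff.mpr hV
    have h1 : ‖((‖V‖⁻¹ : ℝ) : ℂ) • V‖ = 1 := by
      rw [norm_smul, Complex.norm_real, norm_inv, norm_norm, inv_mul_cancel₀ hVn]
    have h2 := hμunit _ h1
    rw [map_smul, inner_smul_left, inner_smul_right, Complex.conj_ofReal] at h2
    simp only [Complex.mul_re, Complex.ofReal_re, Complex.ofReal_im, zero_mul, sub_zero] at h2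
    have h3 : μ * ‖V‖ ^ 2 ≤ (‖V‖⁻¹ * (‖V‖⁻¹ * (inner ℂ (Δ V) V).re)) * ‖V‖ ^ 2 :=
      mul_le_mul_of_nonneg_right h2 (by positivity)
    have h4 : (‖V‖⁻¹ * (‖V‖⁻¹ * (inner ℂ (Δ V) V).re)) * ‖V‖ ^ 2 = (inner ℂ (Δ V) V).re := by
      field_simp
    linarith [h3, h4.le]
  -- a near minimiser
  obtain ⟨r, ⟨T, hT, rfl⟩, hr⟩ : ∃ r ∈ A, r < μ + ε ^ 2 / 10 :=
    exists_lt_of_csInf_lt hAne (by
      have : 0 < ε ^ 2 / 10 := by positivity
      linarith)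
  set W : L := (2⁻¹ : ℂ) • (Δ T + ContinuousLinearMap.adjoint Δ T) - (μ : ℂ) • T with hW
  have hsum : Δ T + ContinuousLinearMap.adjoint Δ T = (2 : ℂ) • (W + (μ : ℂ) • T) := by
    rw [hW, sub_add_cancel, smul_smul, mul_inv_cancel₀ (by norm_num), one_smul]
  have hexp := rayleigh_expand Δ T W (1 / 10)
  have hnsq := norm_sq_expand T W (1 / 10)
  have hlow := hμall (T - ((1 / 10 : ℝ) : ℂ) • W)
  have hinner : (inner ℂ (Δ T + ContinuousLinearMap.adjoint Δ T) W).re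
      = 2 * ‖W‖ ^ 2 + 2 * μ * (inner ℂ T W).re := by
    rw [hsum, inner_smul_left, inner_add_left, inner_smul_left, Complex.conj_ofReal]
    have h0 : (inner ℂ W W) = ((‖W‖ ^ 2 : ℝ) : ℂ) := by
      rw [inner_self_eq_norm_sq_to_K]; norm_cast
    rw [h0]
    have h2 : (starRingEnd ℂ) 2 = ((2 : ℝ) : ℂ) := by
      rw [show (2 : ℂ) = ((2 : ℝ) : ℂ) by norm_num, Complex.conj_ofReal]
    rw [h2]
    simp only [Complex.mul_re, Complex.ofReal_re, Complex.ofReal_im, zero_mul, sub_zero,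
      Complex.add_re]
    ring
  have hWup : (inner ℂ (Δ W) W).re ≤ 10 * ‖W‖ ^ 2 := by
    calc (inner ℂ (Δ W) W).re ≤ ‖inner ℂ (Δ W) W‖ := Complex.re_le_norm _
      _ ≤ ‖Δ W‖ * ‖W‖ := norm_inner_le_norm _ _
      _ ≤ (‖Δ‖ * ‖W‖) * ‖W‖ := by gcongr; exact Δ.le_opNorm W
      _ ≤ (10 * ‖W‖) * ‖W‖ := by gcongr
      _ = 10 * ‖W‖ ^ 2 := by ring
  rw [hexp, hnsq, hinner, hT] at hlow
  have hWsq : ‖W‖ ^ 2 ≤ ε ^ 2 := by
    have hμpos : 0 ≤ μ * ‖W‖ ^ 2 := by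
      have : 0 ≤ μ := by linarith
      positivity
    nlinarith [hlow, hWup, hr, hμpos]
  have hWn : ‖W‖ ≤ ε := by
    exact le_of_sq_le_sq hWsq hε.le
  -- bound of ‖Δ T‖
  have hΔT : Δ T = W + (μ : ℂ) • T + (2⁻¹ : ℂ) • ((Δ - ContinuousLinearMap.adjoint Δ) T) := by
    rw [hW, sub_apply]
    module
  have hΔTn : ‖Δ T‖ ≤ μ + 3 / 2 * ε := by
    have h1 : ‖(Δ - ContinuousLinearMap.adjoint Δ) T‖ ≤ ε := by
      calc _ ≤ ‖Δ - ContinuousLinearMap.adjoint Δ‖ * ‖T‖ := ContinuousLinearMap.le_opNorm _ _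
        _ ≤ ε := by rw [hT, mul_one]; exact hadj
    have h2 : ‖(μ : ℂ) • T‖ = μ := by
      rw [norm_smul, hT, mul_one, Complex.norm_real, Real.norm_eq_abs, abs_of_nonneg (by linarith)]
    have h3 : ‖(2⁻¹ : ℂ) • ((Δ - ContinuousLinearMap.adjoint Δ) T)‖ ≤ 1 / 2 * ε := by
      rw [norm_smul]
      have : ‖(2⁻¹ : ℂ)‖ = 1 / 2 := by norm_num
      rw [this]
      gcongr
    calc ‖Δ T‖ = ‖W + (μ : ℂ) • T + (2⁻¹ : ℂ) • ((Δ - ContinuousLinearMap.adjoint Δ) T)‖ := by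
          rw [← hΔT]
      _ ≤ ‖W‖ + ‖(μ : ℂ) • T‖ + ‖(2⁻¹ : ℂ) • ((Δ - ContinuousLinearMap.adjoint Δ) T)‖ :=
          norm_add₃_le
      _ ≤ ε + μ + 1 / 2 * ε := by rw [h2]; gcongr
      _ = μ + 3 / 2 * ε := by ring
  have hg := hgap T
  rw [hT] at hg
  have hsq : ‖Δ T‖ ^ 2 ≤ (μ + 3 / 2 * ε) ^ 2 := by gcongr
  have hμT := hμunit T hT
  nlinarith [hg, hsq, hμT, hμlow, hμup, hε]

end Crest.Agent.R073
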