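import Crest.Agent.R073.SigmaRel
import Crest.Agent.R073.SigmaIrr

/-!
Row 73, M5: the frozen statement `StmtSigma`.
-/

set_option autoImplicit false

namespace Crest.Agent.R073

theorem stmtSigma (p : ℕ) [Fact p.Prime] : StmtSigma p := fun n =>
  ⟨sigma_pairRel p n, fun R h => sigma_irr p n R h, card_Y p n⟩

end Crest.Agent.R073
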