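import Crest.Agent.R073.Stmts

/-!
Row 73, M5a: relations for `σ_n` and the number of words.
-/

set_option autoImplicit false

namespace Crest.Agent.R073

open scoped Matrix ComplexConjugate

/-! ### monomial matrices -/

theorem monoM_mul {ι : Type} [Fintype ι] [DecidableEq ι] (s t : Equiv.Perm ι) (l m : ι → ℂ) :
    monoM s l * monoM t m = monoM (s * t) (fun j => l (t j) * m j) := by
  ext i j
  rw [Matrix.mul_apply, Finset.sum_eq_single (t j)]
  · simp only [monoM, Matrix.of_apply, if_true, Equiv.Perm.mul_apply, ite_mul, zero_mul]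
    all_goals rfl
  · intro k _ hk
    simp [monoM, hk]
  · simp

theorem monoM_one {ι : Type} [DecidableEq ι] :
    monoM (1 : Equiv.Perm ι) (fun _ => 1) = 1 := by
  ext i j
  simp only [monoM, Matrix.of_apply, Equiv.Perm.one_apply, Matrix.one_apply]
  all_goals rfl

namespace SigmaRel

/-- permutation matrices -/
noncomputable def P {ι : Type} [Fintype ι] [DecidableEq ι] :
    Equiv.Perm ι →* Matrix.unitaryGroup ι ℂ where
  toFun σ := ⟨monoM σ (fun _ => 1), monoM_mem _ _ (fun _ => by simp)⟩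
  map_one' := Subtype.ext monoM_one
  map_mul' s t := Subtype.ext (by
    show monoM (s * t) (fun _ => 1) = monoM s (fun _ => 1) * monoM t (fun _ => 1)
    rw [monoM_mul]; simp)

/-- diagonal matrices -/
noncomputable def Dg {ι : Type} [Fintype ι] [DecidableEq ι] :
    (ι → Circle) →* Matrix.unitaryGroup ι ℂ where
  toFun l := ⟨monoM (Equiv.refl ι) (fun j => (l j : ℂ)), monoM_mem _ _ (fun _ => Circle.norm_coe _)⟩
  map_one' := Subtype.ext (by
    show monoM (Equiv.refl ι) (fun j => (((1 : ι → Circle) j : Circle) : ℂ)) = 1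
    rw [← monoM_one]; simp [Equiv.Perm.one_def])
  map_mul' s t := Subtype.ext (by
    show monoM (Equiv.refl ι) (fun j => (((s * t) j : Circle) : ℂ))
      = monoM (Equiv.refl ι) (fun j => (s j : ℂ)) * monoM (Equiv.refl ι) (fun j => (t j : ℂ))
    rw [monoM_mul]; rfl)

theorem P_mul_Dg {ι : Type} [Fintype ι] [DecidableEq ι] (σ : Equiv.Perm ι) (l : ι → Circle) :
    P σ * Dg l = Dg (fun j => l (σ⁻¹ j)) * P σ := by
  apply Subtype.ext
  show monoM σ (fun _ => 1) * monoM (Equiv.refl ι) (fun j => (l j : ℂ))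
    = monoM (Equiv.refl ι) (fun j => ((l (σ⁻¹ j) : Circle) : ℂ)) * monoM σ (fun _ => 1)
  rw [monoM_mul, monoM_mul]
  congr 1
  ext j
  simp

/-! ### the linear model on infinite words -/

variable {p : ℕ}

/-- a word as an infinite word -/
def emb : ∀ {n : ℕ}, Y p n → ℕ → V3 p
  | 0, _ => fun i => if i = 0 then ![0, 0, 1] else 0
  | _ + 1, y => fun i => Nat.casesOn i y.1 (fun j => emb y.2 j)

theorem emb_zero_zero (y : Y p 0) : emb y 0 = ![0, 0, 1] := rfl
theorem emb_zero_succ (y : Y p 0) (i : ℕ) : emb y (i + 1) = 0 := rfl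
theorem emb_succ_zero {n : ℕ} (y : Y p (n + 1)) : emb y 0 = y.1 := rfl
theorem emb_succ_succ {n : ℕ} (y : Y p (n + 1)) (i : ℕ) : emb y (i + 1) = emb y.2 i := rfl

theorem emb_hd {n : ℕ} (y : Y p n) : emb y 0 = hd y := by
  cases n <;> rfl

theorem emb_injective : ∀ n : ℕ, Function.Injective (emb : Y p n → ℕ → V3 p)
  | 0 => fun _ _ _ => rfl
  | n + 1 => by
    intro y z h
    have h0 : y.1 = z.1 := congrFun h 0
    have h1 : y.2 = z.2 := emb_injective n (funext fun i => congrFun h (i + 1))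
    exact Prod.ext h0 h1

/-- `a` on infinite words -/
def GA (p : ℕ) : Equiv.Perm (ℕ → V3 p) where
  toFun y i := ![y i 0, y i 1 - y i 0, y i 2]
  invFun y i := ![y i 0, y i 1 + y i 0, y i 2]
  left_inv y := by funext i j; fin_cases j <;> simp
  right_inv y := by funext i j; fin_cases j <;> simp

/-- `b` on infinite words -/
def GB (p : ℕ) : Equiv.Perm (ℕ → V3 p) where
  toFun y i := ![y i 0, y i 1, y i 2 - y i 1]
  invFun y i := ![y i 0, y i 1, y i 2 + y i 1]
  left_inv y := by funext i j; fin_cases j <;> simp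
  right_inv y := by funext i j; fin_cases j <;> simp

/-- `c` on infinite words -/
def GC (p : ℕ) : Equiv.Perm (ℕ → V3 p) where
  toFun y i := ![y i 0 - y (i + 1) 2, y i 1, y i 2]
  invFun y i := ![y i 0 + y (i + 1) 2, y i 1, y i 2]
  left_inv y := by funext i j; fin_cases j <;> simp
  right_inv y := by funext i j; fin_cases j <;> simp

theorem emb_permA : ∀ {n : ℕ} (y : Y p n), emb (permA p n y) = GA p (emb y)
  | 0, y => by
    funext i j
    cases i <;> fin_cases j <;> simp [GA, emb]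
  | n + 1, y => by
    funext i j
    cases i with
    | zero => fin_cases j <;> rfl
    | succ i =>
      have := congrFun (congrFun (emb_permA y.2) i) j
      exact this

theorem emb_permB : ∀ {n : ℕ} (y : Y p n), emb (permB p n y) = GB p (emb y)
  | 0, y => by
    funext i j
    cases i <;> fin_cases j <;> simp [GB, emb]
  | n + 1, y => by
    funext i j
    cases i with
    | zero => fin_cases j <;> rfl
    | succ i =>
      have := congrFun (congrFun (emb_permB y.2) i) j
      exact this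

theorem emb_permC : ∀ {n : ℕ} (y : Y p n), emb (permC p n y) = GC p (emb y)
  | 0, y => by
    funext i j
    cases i <;> fin_cases j <;> simp [GC, emb]
  | n + 1, y => by
    funext i j
    cases i with
    | zero =>
      have h := emb_hd y.2
      have h2 : GC p (emb y) 0 = letC p (hd y.2 2) y.1 := by
        rw [← h]; rfl
      rw [h2]; rfl
    | succ i =>
      have := congrFun (congrFun (emb_permC y.2) i) j
      exact this

/-! ### relations in the linear model -/

theorem rel_ab : Commute (cm (GA p) (GB p)) (GA p) ∧ Commute (cm (GA p) (GB p)) (GB p) := by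
  constructor <;>
  · ext y i j
    fin_cases j <;> simp [cm, GA, GB, Equiv.Perm.inv_def, Equiv.symm] <;> ring

theorem rel_bc : Commute (cm (GB p) (GC p)) (GB p) ∧ Commute (cm (GB p) (GC p)) (GC p) := by
  constructor <;>
  · ext y i j
    fin_cases j <;> simp [cm, GC, GB, Equiv.Perm.inv_def, Equiv.symm] <;> ring

theorem rel_ca : Commute (cm (GC p) (GA p)) (GC p) ∧ Commute (cm (GC p) (GA p)) (GA p) := by
  constructor <;>
  · ext y i j
    fin_cases j <;> simp [cm, GC, GA, Equiv.Perm.inv_def, Equiv.symm] <;> ring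

theorem GA_pow (k : ℕ) (y : ℕ → V3 p) (i : ℕ) :
    (GA p ^ k) y i = ![y i 0, y i 1 - k * y i 0, y i 2] := by
  induction k with
  | zero => funext j; fin_cases j <;> simp
  | succ k ih =>
    rw [pow_succ']
    show GA p ((GA p ^ k) y) i = _
    have h : GA p ((GA p ^ k) y) i
      = ![(GA p ^ k) y i 0, (GA p ^ k) y i 1 - (GA p ^ k) y i 0, (GA p ^ k) y i 2] := rfl
    rw [h, ih]
    funext j; fin_cases j <;> (simp; try ring)

theorem GB_pow (k : ℕ) (y : ℕ → V3 p) (i : ℕ) :
    (GB p ^ k) y i = ![y i 0, y i 1, y i 2 - k * y i 1] := by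
  induction k with
  | zero => funext j; fin_cases j <;> simp
  | succ k ih =>
    rw [pow_succ']
    show GB p ((GB p ^ k) y) i = _
    have h : GB p ((GB p ^ k) y) i
      = ![(GB p ^ k) y i 0, (GB p ^ k) y i 1, (GB p ^ k) y i 2 - (GB p ^ k) y i 1] := rfl
    rw [h, ih]
    funext j; fin_cases j <;> (simp; try ring)

theorem GC_pow (k : ℕ) : ∀ (y : ℕ → V3 p) (i : ℕ),
    (GC p ^ k) y i = ![y i 0 - k * y (i + 1) 2, y i 1, y i 2] := by
  induction k with
  | zero => intro y i; funext j; fin_cases j <;> simp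
  | succ k ih =>
    intro y i
    rw [pow_succ']
    show GC p ((GC p ^ k) y) i = _
    have h : GC p ((GC p ^ k) y) i
      = ![(GC p ^ k) y i 0 - (GC p ^ k) y (i + 1) 2, (GC p ^ k) y i 1, (GC p ^ k) y i 2] := rfl
    rw [h, ih, ih]
    funext j; fin_cases j <;> (simp; try ring)

theorem GA_pow_p : GA p ^ p = 1 := by
  ext1 y; funext i; rw [GA_pow]; funext j; fin_cases j <;> simp

theorem GB_pow_p : GB p ^ p = 1 := by
  ext1 y; funext i; rw [GB_pow]; funext j; fin_cases j <;> simp

theorem GC_pow_p : GC p ^ p = 1 := by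
  ext1 y; funext i; rw [GC_pow]; funext j; fin_cases j <;> simp

/-! ### transfer -/

/-- `σ` is the restriction of `g` -/
def Rel {n : ℕ} (σ : Equiv.Perm (Y p n)) (g : Equiv.Perm (ℕ → V3 p)) : Prop :=
  ∀ y, emb (σ y) = g (emb y)

theorem Rel.mul {n : ℕ} {σ τ : Equiv.Perm (Y p n)} {g h : Equiv.Perm (ℕ → V3 p)}
    (h1 : Rel σ g) (h2 : Rel τ h) : Rel (σ * τ) (g * h) := by
  intro y
  show emb (σ (τ y)) = g (h (emb y))
  rw [h1, h2]

theorem Rel.inv {n : ℕ} {σ : Equiv.Perm (Y p n)} {g : Equiv.Perm (ℕ → V3 p)}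
    (h1 : Rel σ g) : Rel σ⁻¹ g⁻¹ := by
  intro y
  have h2 : emb (σ (σ.symm y)) = g (emb (σ.symm y)) := h1 (σ.symm y)
  rw [Equiv.apply_symm_apply] at h2
  show emb (σ.symm y) = g.symm (emb y)
  rw [h2, Equiv.symm_apply_apply]

theorem Rel.one {n : ℕ} : Rel (1 : Equiv.Perm (Y p n)) 1 := fun _ => rfl

theorem Rel.pow {n : ℕ} {σ : Equiv.Perm (Y p n)} {g : Equiv.Perm (ℕ → V3 p)}
    (h1 : Rel σ g) (k : ℕ) : Rel (σ ^ k) (g ^ k) := by
  induction k with
  | zero => simpa using Rel.one
  | succ k ih => rw [pow_succ, pow_succ]; exact ih.mul h1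

theorem Rel.cm {n : ℕ} {σ τ : Equiv.Perm (Y p n)} {g h : Equiv.Perm (ℕ → V3 p)}
    (h1 : Rel σ g) (h2 : Rel τ h) : Rel (cm σ τ) (cm g h) :=
  ((h1.mul h2).mul h1.inv).mul h2.inv

theorem Rel.eq {n : ℕ} {σ τ : Equiv.Perm (Y p n)} {g : Equiv.Perm (ℕ → V3 p)}
    (h1 : Rel σ g) (h2 : Rel τ g) : σ = τ := by
  ext1 y
  exact emb_injective n ((h1 y).trans (h2 y).symm)

theorem Rel.commute {n : ℕ} {σ τ : Equiv.Perm (Y p n)} {g h : Equiv.Perm (ℕ → V3 p)}
    (h1 : Rel σ g) (h2 : Rel τ h) (H : Commute g h) : Commute σ τ :=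
  (h1.mul h2).eq (by rw [H.eq]; exact h2.mul h1)

theorem relA (n : ℕ) : Rel (permA p n) (GA p) := fun y => emb_permA y
theorem relB (n : ℕ) : Rel (permB p n) (GB p) := fun y => emb_permB y
theorem relC (n : ℕ) : Rel (permC p n) (GC p) := fun y => emb_permC y

theorem cm_map {G G' : Type} [Group G] [Group G'] (f : G →* G') (x y : G) :
    Crest.Agent.R073.cm (f x) (f y) = f (Crest.Agent.R073.cm x y) := by
  simp [Crest.Agent.R073.cm]

theorem Dg_commute {ι : Type} [Fintype ι] [DecidableEq ι] (l m : ι → Circle) :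
    Commute (Dg l) (Dg m) := by
  show Dg l * Dg m = Dg m * Dg l
  rw [← map_mul, ← map_mul, mul_comm]

theorem P_Dg_commute {ι : Type} [Fintype ι] [DecidableEq ι] (σ : Equiv.Perm ι) (l : ι → Circle)
    (h : ∀ j, l (σ j) = l j) : Commute (P σ) (Dg l) := by
  show P σ * Dg l = Dg l * P σ
  rw [P_mul_Dg]
  congr 2
  funext j
  have := h (σ⁻¹ j)
  rw [← this]
  show l (σ (σ.symm j)) = l j
  rw [Equiv.apply_symm_apply]

theorem cm_P_Dg {ι : Type} [Fintype ι] [DecidableEq ι] (σ : Equiv.Perm ι) (l : ι → Circle) :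
    Crest.Agent.R073.cm (P σ) (Dg l) = Dg (fun j => l (σ⁻¹ j) * (l j)⁻¹) := by
  have h : (fun j => l (σ⁻¹ j) * (l j)⁻¹) = (fun j => l (σ⁻¹ j)) * l⁻¹ := rfl
  rw [Crest.Agent.R073.cm, P_mul_Dg, h, map_mul, map_inv, mul_assoc (Dg _) (P σ) (P σ)⁻¹,
    mul_inv_cancel, mul_one]

variable [Fact p.Prime]

/-- the diagonal entries of `σ_n(d)` -/
noncomputable def dl (p : ℕ) [Fact p.Prime] (n : ℕ) : Y p n → Circle :=
  fun y => ZMod.toCircle (hd y 2)

theorem sigmaU_zero (n : ℕ) : sigmaU p n 0 = P (permA p n) := rfl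
theorem sigmaU_one (n : ℕ) : sigmaU p n 1 = P (permB p n) := rfl
theorem sigmaU_two (n : ℕ) : sigmaU p n 2 = P (permC p n) := rfl
theorem sigmaU_three (n : ℕ) : sigmaU p n 3 = Dg (dl p n) := by
  apply Subtype.ext
  show monoM (Equiv.refl _) (fun y => psi p (hd y 2)) = monoM (Equiv.refl _) _
  congr 1

theorem hd_permA {n : ℕ} (y : Y p n) : hd (permA p n y) = ![hd y 0, hd y 1 - hd y 0, hd y 2] := by
  rw [← emb_hd, ← emb_hd, emb_permA]; rfl

theorem hd_permB {n : ℕ} (y : Y p n) : hd (permB p n y) = ![hd y 0, hd y 1, hd y 2 - hd y 1] := by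
  rw [← emb_hd, ← emb_hd, emb_permB]; rfl

theorem hd_permC {n : ℕ} (y : Y p n) :
    hd (permC p n y) = ![hd y 0 - emb y 1 2, hd y 1, hd y 2] := by
  rw [← emb_hd, ← emb_hd, emb_permC]; rfl

end SigmaRel

open SigmaRel in
/-- the four unitaries `σ_n(a), σ_n(b), σ_n(c), σ_n(d)` satisfy the local relations. -/
theorem sigma_pairRel (p : ℕ) [Fact p.Prime] (n : ℕ) : PairRel p (sigmaU p n) where
  pow i := by
    fin_cases i
    · show sigmaU p n 0 ^ p = 1
      rw [sigmaU_zero, ← map_pow, ((relA n).pow p).eq (by rw [GA_pow_p]; exact Rel.one), map_one]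
    · show sigmaU p n 1 ^ p = 1
      rw [sigmaU_one, ← map_pow, ((relB n).pow p).eq (by rw [GB_pow_p]; exact Rel.one), map_one]
    · show sigmaU p n 2 ^ p = 1
      rw [sigmaU_two, ← map_pow, ((relC n).pow p).eq (by rw [GC_pow_p]; exact Rel.one), map_one]
    · show sigmaU p n 3 ^ p = 1
      rw [sigmaU_three, ← map_pow]
      have : dl p n ^ p = 1 := by
        funext y
        show (ZMod.toCircle (hd y 2)) ^ p = 1
        rw [← AddChar.map_nsmul_eq_pow]
        simp
      rw [this, map_one]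
  h01 := by
    rw [sigmaU_zero, sigmaU_one, cm_map]
    exact ⟨(((relA n).cm (relB n)).commute (relA n) rel_ab.1).map P,
      (((relA n).cm (relB n)).commute (relB n) rel_ab.2).map P⟩
  h12 := by
    rw [sigmaU_one, sigmaU_two, cm_map]
    exact ⟨(((relB n).cm (relC n)).commute (relB n) rel_bc.1).map P,
      (((relB n).cm (relC n)).commute (relC n) rel_bc.2).map P⟩
  h20 := by
    rw [sigmaU_two, sigmaU_zero, cm_map]
    exact ⟨(((relC n).cm (relA n)).commute (relC n) rel_ca.1).map P,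
      (((relC n).cm (relA n)).commute (relA n) rel_ca.2).map P⟩
  h13 := by
    rw [sigmaU_one, sigmaU_three, cm_P_Dg]
    refine ⟨?_, Dg_commute _ _⟩
    have key : ∀ y : Y p n, dl p n ((permB p n)⁻¹ y) * (dl p n y)⁻¹ = ZMod.toCircle (hd y 1) := by
      intro y
      obtain ⟨z, rfl⟩ := (permB p n).surjective y
      have h1 : (permB p n)⁻¹ (permB p n z) = z := (permB p n).symm_apply_apply z
      rw [h1]
      show ZMod.toCircle (hd z 2) * (ZMod.toCircle (hd (permB p n z) 2))⁻¹ = _
      rw [hd_permB, ← AddChar.map_neg_eq_inv, ← AddChar.map_add_eq_mul]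
      congr 1
      simp
    refine (P_Dg_commute _ _ fun y => ?_).symm
    rw [key, key, hd_permB]
    simp
  c03 := by
    rw [sigmaU_zero, sigmaU_three]
    refine P_Dg_commute _ _ fun y => ?_
    show ZMod.toCircle (hd (permA p n y) 2) = ZMod.toCircle (hd y 2)
    rw [hd_permA]; simp
  c23 := by
    rw [sigmaU_two, sigmaU_three]
    refine P_Dg_commute _ _ fun y => ?_
    show ZMod.toCircle (hd (permC p n y) 2) = ZMod.toCircle (hd y 2)
    rw [hd_permC]; simp

/-- the number of words -/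
theorem card_Y (p : ℕ) [Fact p.Prime] : ∀ n : ℕ, Fintype.card (Y p n) = p ^ (3 * n)
  | 0 => rfl
  | n + 1 => by
    have h : Fintype.card (Y p (n + 1)) = Fintype.card (V3 p × Y p n) := rfl
    rw [h, Fintype.card_prod, card_Y p n]
    simp only [Fintype.card_pi, ZMod.card, Finset.prod_const, Finset.card_univ, Fintype.card_fin]
    ring

end Crest.Agent.R073
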