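import Crest.Agent.R073.Stmts

/-!
Row 73 (S0098), module M4a: slicing of an approximately intertwining operator.
-/

set_option autoImplicit false

namespace Crest.Agent.R073

open scoped Matrix ComplexConjugate InnerProductSpace

noncomputable section

namespace Slice

/-- pigeonhole for weighted sums -/
theorem exists_good {β : Type} [Fintype β] (f g : β → ℝ) (hf : ∀ b, 0 ≤ f b) (hg : ∀ b, 0 ≤ g b)
    (c : ℝ) (hsum : ∑ b, f b = 1) (hle : ∑ b, g b ≤ c) : ∃ b, 0 < f b ∧ g b ≤ c * f b := by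
  by_contra hcon
  push Not at hcon
  obtain ⟨b₀, hb₀⟩ : ∃ b, 0 < f b := by
    by_contra h
    push Not at h
    have : ∑ b, f b ≤ 0 := Finset.sum_nonpos fun b _ => h b
    linarith
  have h1 : ∑ b, c * f b < ∑ b, g b := by
    apply Finset.sum_lt_sum
    · intro b _
      rcases (hf b).lt_or_eq with h | h
      · exact (hcon b h).le
      · rw [← h]; simpa using hg b
    · exact ⟨b₀, Finset.mem_univ _, hcon b₀ hb₀⟩
  rw [← Finset.mul_sum, hsum, mul_one] at h1
  linarith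

theorem frob_nonneg {m n : Type} [Fintype m] [Fintype n] (X : Matrix m n ℂ) : 0 ≤ frob X := by
  unfold frob; positivity

theorem frob_smul {m n : Type} [Fintype m] [Fintype n] (c : ℂ) (X : Matrix m n ℂ) :
    frob (c • X) = ‖c‖ ^ 2 * frob X := by
  unfold frob
  simp only [Matrix.smul_apply, smul_eq_mul, norm_mul, mul_pow, Finset.mul_sum]

/-- finite dimensional subspace and Parseval -/
theorem exists_slices {H : Type} [NormedAddCommGroup H] [InnerProductSpace ℂ H] {κ : Type}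
    [Finite κ] (W : κ → H) :
    ∃ (N : ℕ) (φ : Fin N → H →ₗ[ℂ] ℂ), ∀ x ∈ Submodule.span ℂ (Set.range W),
      ∑ b, ‖φ b x‖ ^ 2 = ‖x‖ ^ 2 := by
  classical
  set S : Submodule ℂ H := Submodule.span ℂ (Set.range W) with hS
  have : FiniteDimensional ℂ S := FiniteDimensional.span_of_finite ℂ (Set.finite_range _)
  let e := stdOrthonormalBasis ℂ S
  refine ⟨Module.finrank ℂ S, fun b => innerₛₗ ℂ ((e b : S) : H), fun x hx => ?_⟩
  have := e.sum_sq_norm_inner_right ⟨x, hx⟩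
  simpa using this

theorem unitary_sum {H : Type} [NormedAddCommGroup H] [InnerProductSpace ℂ H] {ι : Type}
    [Fintype ι] [DecidableEq ι] (U : Matrix.unitaryGroup ι ℂ) (R : ι → H) :
    ∑ y, ‖∑ z, (U : Matrix ι ι ℂ) z y • R z‖ ^ 2 = ∑ y, ‖R y‖ ^ 2 := by
  have hU : (U : Matrix ι ι ℂ) * star (U : Matrix ι ι ℂ) = 1 :=
    Matrix.mem_unitaryGroup_iff.mp U.2
  have key : ∀ z z', ∑ y, conj ((U : Matrix ι ι ℂ) z y) * (U : Matrix ι ι ℂ) z' y
      = if z' = z then 1 else 0 := by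
    intro z z'
    have := congrFun (congrFun hU z') z
    rw [Matrix.mul_apply, Matrix.one_apply] at this
    rw [← this]
    refine Finset.sum_congr rfl fun y _ => ?_
    rw [Matrix.star_apply, mul_comm]; rfl
  have h1 : ∀ y, ((‖∑ z, (U : Matrix ι ι ℂ) z y • R z‖ ^ 2 : ℝ) : ℂ)
      = ∑ z, ∑ z', (conj ((U : Matrix ι ι ℂ) z y) * (U : Matrix ι ι ℂ) z' y) * ⟪R z, R z'⟫_ℂ := by
    intro y
    have := inner_self_eq_norm_sq_to_K (𝕜 := ℂ) (∑ z, (U : Matrix ι ι ℂ) z y • R z)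
    rw [Complex.ofReal_pow]
    refine Eq.trans this.symm ?_
    rw [sum_inner]
    refine Finset.sum_congr rfl fun z _ => ?_
    rw [inner_sum]
    refine Finset.sum_congr rfl fun z' _ => ?_
    rw [inner_smul_left, inner_smul_right]; ring
  have h2 : ((∑ y, ‖∑ z, (U : Matrix ι ι ℂ) z y • R z‖ ^ 2 : ℝ) : ℂ)
      = ((∑ y, ‖R y‖ ^ 2 : ℝ) : ℂ) := by
    rw [Complex.ofReal_sum, Complex.ofReal_sum]
    simp only [h1]
    rw [Finset.sum_comm]
    refine Finset.sum_congr rfl fun z _ => ?_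
    rw [Finset.sum_comm]
    simp only [← Finset.sum_mul, key]
    simp only [ite_mul, one_mul, zero_mul, Finset.sum_ite_eq', Finset.mem_univ, if_true]
    refine (inner_self_eq_norm_sq_to_K (𝕜 := ℂ) (R z)).trans ?_
    simp
  exact_mod_cast h2

theorem norm_add_sq_le {H : Type} [NormedAddCommGroup H] (a b : H) :
    ‖a + b‖ ^ 2 ≤ 2 * (‖a‖ ^ 2 + ‖b‖ ^ 2) := by
  have := norm_add_le a b
  nlinarith [sq_nonneg (‖a‖ - ‖b‖), norm_nonneg (a + b), norm_nonneg a, norm_nonneg b]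

end Slice

open Slice

theorem stmtSlice : StmtSlice := by
  intro H _ _ _ k V α E η hη hV hα hα' ι _ _ _ U T hT hTU
  classical
  let W : Fin k → ι → H := fun i y => V i (T y)
  obtain ⟨N, φ, hφ⟩ := exists_slices (fun q : Fin k × ι => W q.1 q.2)
  set S := Submodule.span ℂ (Set.range fun q : Fin k × ι => W q.1 q.2) with hS
  have hWS : ∀ i y, W i y ∈ S := fun i y => Submodule.subset_span ⟨(i, y), rfl⟩
  -- norm of T
  have hT2 : ∑ y, ‖T y‖ ^ 2 = 1 := by
    rw [← PiLp.norm_sq_eq_of_L2, hT]; norm_num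
  -- residual of the intertwining relation
  have hres : ∀ s, ∑ y, ‖E s (T y) - ∑ z, (U s : Matrix ι ι ℂ) z y • T z‖ ^ 2 ≤ η ^ 2 := by
    intro s
    have hU : star (U s : Matrix ι ι ℂ) * (U s : Matrix ι ι ℂ) = 1 :=
      Matrix.mem_unitaryGroup_iff'.mp (U s).2
    have h1 : ‖tens (E s) (U s : Matrix ι ι ℂ) T - T‖ ^ 2 ≤ η ^ 2 :=
      pow_le_pow_left₀ (norm_nonneg _) (hTU s) 2
    rw [PiLp.norm_sq_eq_of_L2, ← unitary_sum (U s)] at h1
    refine le_trans (le_of_eq ?_) h1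
    refine Finset.sum_congr rfl fun y _ => ?_
    congr 2
    simp only [PiLp.sub_apply, tens_apply, smul_sub, Finset.sum_sub_distrib]
    congr 1
    simp only [Finset.smul_sum, smul_smul]
    rw [Finset.sum_comm]
    simp only [← Finset.sum_smul]
    have key : ∀ j, ∑ z, (U s : Matrix ι ι ℂ) z y * conj ((U s : Matrix ι ι ℂ) z j)
        = if j = y then 1 else 0 := by
      intro j
      have := congrFun (congrFun hU j) y
      rw [Matrix.mul_apply, Matrix.one_apply] at this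
      rw [← this]
      refine Finset.sum_congr rfl fun z _ => ?_
      rw [Matrix.star_apply, mul_comm]; rfl
    simp only [key, ite_smul, one_smul, zero_smul, Finset.sum_ite_eq', Finset.mem_univ, if_true]
  -- the two families of vectors
  let P : Fin 4 → Fin k → ι → H := fun s i y =>
    ∑ j, α s i j • W j y - ∑ z, (U s : Matrix ι ι ℂ) z y • W i z
  let Q : Fin 4 → Fin k → ι → H := fun s i y =>
    ∑ j, ((α s)ᴴ * α s) i j • W j y - W i y
  have hPS : ∀ s i y, P s i y ∈ S := fun s i y =>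
    S.sub_mem (S.sum_mem fun j _ => S.smul_mem _ (hWS j y))
      (S.sum_mem fun z _ => S.smul_mem _ (hWS i z))
  have hQS : ∀ s i y, Q s i y ∈ S := fun s i y =>
    S.sub_mem (S.sum_mem fun j _ => S.smul_mem _ (hWS j y)) (hWS i y)
  have hW1 : ∑ i, ∑ y, ‖W i y‖ ^ 2 = 1 := by
    rw [Finset.sum_comm]
    simp only [W, hV]
    exact hT2
  have hP1 : ∀ s, ∑ i, ∑ y, ‖P s i y‖ ^ 2 ≤ 4 * η ^ 2 := by
    intro s
    have hdec : ∀ i y, P s i y = -(V i (E s (T y)) - ∑ j, α s i j • V j (T y))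
        + V i (E s (T y) - ∑ z, (U s : Matrix ι ι ℂ) z y • T z) := by
      intro i y
      simp only [P, W, map_sub, map_sum, map_smul]
      abel
    have hle : ∀ i y, ‖P s i y‖ ^ 2 ≤ 2 * (‖V i (E s (T y)) - ∑ j, α s i j • V j (T y)‖ ^ 2
        + ‖V i (E s (T y) - ∑ z, (U s : Matrix ι ι ℂ) z y • T z)‖ ^ 2) := by
      intro i y
      rw [hdec]
      refine (norm_add_sq_le _ _).trans ?_
      rw [norm_neg]
    calc ∑ i, ∑ y, ‖P s i y‖ ^ 2
        ≤ ∑ i, ∑ y, 2 * (‖V i (E s (T y)) - ∑ j, α s i j • V j (T y)‖ ^ 2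
        + ‖V i (E s (T y) - ∑ z, (U s : Matrix ι ι ℂ) z y • T z)‖ ^ 2) :=
          Finset.sum_le_sum fun i _ => Finset.sum_le_sum fun y _ => hle i y
      _ = 2 * (∑ y, ∑ i, ‖V i (E s (T y)) - ∑ j, α s i j • V j (T y)‖ ^ 2
          + ∑ y, ∑ i, ‖V i (E s (T y) - ∑ z, (U s : Matrix ι ι ℂ) z y • T z)‖ ^ 2) := by
          rw [Finset.sum_comm]
          simp only [← Finset.mul_sum, Finset.sum_add_distrib]
      _ ≤ 2 * (∑ y, η ^ 2 * ‖T y‖ ^ 2
          + ∑ y, ‖E s (T y) - ∑ z, (U s : Matrix ι ι ℂ) z y • T z‖ ^ 2) := by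
          gcongr with y _ y _
          · exact hα s (T y)
          · exact (hV _).le
      _ ≤ 2 * (η ^ 2 + η ^ 2) := by
          rw [← Finset.mul_sum, hT2, mul_one]
          gcongr
          exact hres s
      _ = 4 * η ^ 2 := by ring
  have hQ1 : ∀ s, ∑ i, ∑ y, ‖Q s i y‖ ^ 2 ≤ η ^ 2 := by
    intro s
    calc ∑ i, ∑ y, ‖Q s i y‖ ^ 2
        = ∑ y, ∑ i, ‖V i (T y) - ∑ j, ((α s)ᴴ * α s) i j • V j (T y)‖ ^ 2 := by
          rw [Finset.sum_comm]
          refine Finset.sum_congr rfl fun y _ => Finset.sum_congr rfl fun i _ => ?_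
          rw [norm_sub_rev]
      _ ≤ ∑ y, η ^ 2 * ‖T y‖ ^ 2 := Finset.sum_le_sum fun y _ => hα' s (T y)
      _ = η ^ 2 := by rw [← Finset.mul_sum, hT2, mul_one]
  -- slices
  let Wb : Fin N → Matrix (Fin k) ι ℂ := fun b => Matrix.of fun i y => φ b (W i y)
  have hPb : ∀ s b, frob (α s * Wb b - Wb b * (U s : Matrix ι ι ℂ))
      = ∑ i, ∑ y, ‖φ b (P s i y)‖ ^ 2 := by
    intro s b
    unfold frob
    refine Finset.sum_congr rfl fun i _ => Finset.sum_congr rfl fun y _ => ?_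
    congr 2
    simp only [P, Wb, Matrix.sub_apply, Matrix.mul_apply, Matrix.of_apply, map_sub, map_sum,
      map_smul, smul_eq_mul]
    congr 1
    exact Finset.sum_congr rfl fun z _ => mul_comm _ _
  have hQb : ∀ s b, frob (((α s)ᴴ * α s - 1) * Wb b) = ∑ i, ∑ y, ‖φ b (Q s i y)‖ ^ 2 := by
    intro s b
    unfold frob
    refine Finset.sum_congr rfl fun i _ => Finset.sum_congr rfl fun y _ => ?_
    congr 2
    rw [Matrix.sub_mul, Matrix.one_mul]
    simp only [Q, Wb, Matrix.sub_apply, Matrix.mul_apply (M := (α s)ᴴ * α s), Matrix.of_apply,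
      map_sub, map_sum, map_smul, smul_eq_mul]
  have hslice : ∀ Z : Fin k → ι → H, (∀ i y, Z i y ∈ S) →
      ∑ b, ∑ i, ∑ y, ‖φ b (Z i y)‖ ^ 2 = ∑ i, ∑ y, ‖Z i y‖ ^ 2 := by
    intro Z hZ
    rw [Finset.sum_comm]
    refine Finset.sum_congr rfl fun i _ => ?_
    rw [Finset.sum_comm]
    exact Finset.sum_congr rfl fun y _ => hφ _ (hZ i y)
  have hsumW : ∑ b, frob (Wb b) = 1 := by
    rw [← hW1, ← hslice W hWS]
    rfl
  let g : Fin N → ℝ := fun b => ∑ s, (frob (α s * Wb b - Wb b * (U s : Matrix ι ι ℂ))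
    + frob (((α s)ᴴ * α s - 1) * Wb b))
  have hg : ∑ b, g b ≤ 20 * η ^ 2 := by
    have h1 : ∑ b, g b = ∑ s, (∑ i, ∑ y, ‖P s i y‖ ^ 2 + ∑ i, ∑ y, ‖Q s i y‖ ^ 2) := by
      simp only [g]
      rw [Finset.sum_comm]
      refine Finset.sum_congr rfl fun s _ => ?_
      rw [Finset.sum_add_distrib]
      simp only [hPb, hQb]
      rw [hslice _ (hPS s), hslice _ (hQS s)]
    rw [h1]
    calc ∑ s : Fin 4, (∑ i, ∑ y, ‖P s i y‖ ^ 2 + ∑ i, ∑ y, ‖Q s i y‖ ^ 2)
        ≤ ∑ _s : Fin 4, (4 * η ^ 2 + η ^ 2) := Finset.sum_le_sum fun s _ =>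
          add_le_add (hP1 s) (hQ1 s)
      _ = 20 * η ^ 2 := by simp; ring
  obtain ⟨b, hb0, hb⟩ := exists_good (fun b => frob (Wb b)) g (fun b => frob_nonneg _)
    (fun b => Finset.sum_nonneg fun s _ => add_nonneg (frob_nonneg _) (frob_nonneg _))
    (20 * η ^ 2) hsumW hg
  -- normalise
  set f := frob (Wb b) with hf
  let c : ℂ := ((Real.sqrt f)⁻¹ : ℝ)
  have hc : ‖c‖ ^ 2 = f⁻¹ := by
    simp only [c, Complex.norm_real, norm_inv, Real.norm_eq_abs, inv_pow, sq_abs]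
    rw [Real.sq_sqrt hb0.le]
  have hfin : ∀ x, x ≤ 20 * η ^ 2 * f → ‖c‖ ^ 2 * x ≤ (6 * η) ^ 2 := by
    intro x hx
    rw [hc]
    have : f⁻¹ * x ≤ f⁻¹ * (20 * η ^ 2 * f) := mul_le_mul_of_nonneg_left hx (inv_nonneg.mpr hb0.le)
    have h2 : f⁻¹ * (20 * η ^ 2 * f) = 20 * η ^ 2 := by
      field_simp
    nlinarith [sq_nonneg η]
  refine ⟨c • Wb b, ?_, fun s => ?_, fun s => ?_⟩
  · rw [frob_smul, hc, ← hf, inv_mul_cancel₀ hb0.ne']
  · have h1 : α s * (c • Wb b) - (c • Wb b) * (U s : Matrix ι ι ℂ)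
        = c • (α s * Wb b - Wb b * (U s : Matrix ι ι ℂ)) := by
      rw [Matrix.mul_smul, Matrix.smul_mul, smul_sub]
    rw [h1, frob_smul]
    apply hfin
    refine le_trans ?_ hb
    refine le_trans ?_ (Finset.single_le_sum
      (f := fun s => frob (α s * Wb b - Wb b * (U s : Matrix ι ι ℂ))
        + frob (((α s)ᴴ * α s - 1) * Wb b))
      (fun s _ => add_nonneg (frob_nonneg _) (frob_nonneg _)) (Finset.mem_univ s))
    exact le_add_of_nonneg_right (frob_nonneg _)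
  · rw [Matrix.mul_smul, frob_smul]
    apply hfin
    refine le_trans ?_ hb
    refine le_trans ?_ (Finset.single_le_sum
      (f := fun s => frob (α s * Wb b - Wb b * (U s : Matrix ι ι ℂ))
        + frob (((α s)ᴴ * α s - 1) * Wb b))
      (fun s _ => add_nonneg (frob_nonneg _) (frob_nonneg _)) (Finset.mem_univ s))
    exact le_add_of_nonneg_left (frob_nonneg _)

end

end Crest.Agent.R073
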