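import Crest.Agent.R073.StepA

/-!
Row 73, M7b: `StmtStep`.
-/

set_option autoImplicit false

namespace Crest.Agent.R073

open scoped ComplexConjugate InnerProductSpace
open Finset

noncomputable section

namespace Step

variable {p : ℕ} [Fact p.Prime] {G : Type} [Group G] (K : KGroup p G)
  {H : Type} [NormedAddCommGroup H] [InnerProductSpace ℂ H]
  [CompleteSpace H] {w : G → H →L[ℂ] H} {δ : ℝ} {n : ℕ}

/-- the new vector -/
def Tn (w : G → H →L[ℂ] H) (T : PiLp 2 (fun _ : Y p n => H)) :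
    PiLp 2 (fun _ : Y p (n + 1) => H) :=
  WithLp.toLp 2 (fun z : V3 p × Y p n => Mq K w z.1 (T z.2))

lemma Tn_apply (w : G → H →L[ℂ] H) (T : PiLp 2 (fun _ : Y p n => H)) (q : V3 p) (y : Y p n) :
    (Tn K w T) ((q, y) : V3 p × Y p n) = Mq K w q (T y) := rfl

omit [CompleteSpace H] in
lemma norm_sq_succ (Z : PiLp 2 (fun _ : Y p (n + 1) => H)) :
    ‖Z‖ ^ 2 = ∑ q : V3 p, ∑ y : Y p n, ‖Z ((q, y) : V3 p × Y p n)‖ ^ 2 := by
  rw [PiLp.norm_sq_eq_of_L2]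
  exact Fintype.sum_prod_type (fun z : V3 p × Y p n => ‖Z z‖ ^ 2)

lemma cubic (p : ℕ) (hp : 1 ≤ p) (x : ℝ) : (p : ℝ) ^ 3 * x ^ 2 ≤ ((p : ℝ) ^ 2 * x) ^ 2 := by
  have h1 : (1 : ℝ) ≤ p := by exact_mod_cast hp
  have h2 : (p : ℝ) ^ 3 ≤ (p : ℝ) ^ 4 := pow_le_pow_right₀ h1 (by norm_num)
  calc (p : ℝ) ^ 3 * x ^ 2 ≤ (p : ℝ) ^ 4 * x ^ 2 := mul_le_mul_of_nonneg_right h2 (sq_nonneg x)
    _ = ((p : ℝ) ^ 2 * x) ^ 2 := by ring

omit [CompleteSpace H] in
lemma fiber (Z : PiLp 2 (fun _ : Y p (n + 1) => H)) (σ : Equiv.Perm (Y p (n + 1)))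
    (B : PiLp 2 (fun _ : Y p n => ℝ))
    (h : ∀ (q : V3 p) (y : Y p n), ‖Z (σ ((q, y) : V3 p × Y p n))‖ ≤ B y) :
    ‖Z‖ ≤ (p : ℝ) ^ 2 * ‖B‖ := by
  have hp := (Fact.out : p.Prime).one_le
  have h1 : ‖Z‖ ^ 2 = ∑ q : V3 p, ∑ y : Y p n, ‖Z (σ ((q, y) : V3 p × Y p n))‖ ^ 2 := by
    rw [PiLp.norm_sq_eq_of_L2, ← Equiv.sum_comp σ]
    exact Fintype.sum_prod_type (fun z : V3 p × Y p n => ‖Z (σ z)‖ ^ 2)
  have h2 : ‖B‖ ^ 2 = ∑ y : Y p n, B y ^ 2 := by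
    rw [PiLp.norm_sq_eq_of_L2]
    exact Finset.sum_congr rfl fun y _ => by rw [Real.norm_eq_abs, sq_abs]
  have h3 : ‖Z‖ ^ 2 ≤ (p : ℝ) ^ 3 * ‖B‖ ^ 2 := by
    rw [h1, h2]
    calc _ ≤ ∑ _q : V3 p, ∑ y : Y p n, B y ^ 2 :=
          Finset.sum_le_sum fun q _ => Finset.sum_le_sum fun y _ =>
            pow_le_pow_left₀ (norm_nonneg _) (h q y) 2
      _ = (p : ℝ) ^ 3 * ∑ y : Y p n, B y ^ 2 := by
          rw [Finset.sum_const, Finset.card_univ, card_V3, nsmul_eq_mul]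
          push_cast
          ring
  exact (pow_le_pow_iff_left₀ (norm_nonneg _) (by positivity) two_ne_zero).mp
    (h3.trans (cubic p hp _))

/-- the vector of norms -/
def nv (f : PiLp 2 (fun _ : Y p n => H)) (σ : Equiv.Perm (Y p n)) :
    PiLp 2 (fun _ : Y p n => ℝ) :=
  WithLp.toLp 2 (fun y => ‖f (σ y)‖)

omit [CompleteSpace H] in
lemma nv_apply (f : PiLp 2 (fun _ : Y p n => H)) (σ : Equiv.Perm (Y p n)) (y : Y p n) :
    nv f σ y = ‖f (σ y)‖ := rfl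

omit [CompleteSpace H] in
lemma norm_nv (f : PiLp 2 (fun _ : Y p n => H)) (σ : Equiv.Perm (Y p n)) : ‖nv f σ‖ = ‖f‖ := by
  have h : ‖nv f σ‖ ^ 2 = ‖f‖ ^ 2 := by
    rw [PiLp.norm_sq_eq_of_L2, PiLp.norm_sq_eq_of_L2,
      ← Equiv.sum_comp σ (fun y => ‖f y‖ ^ 2)]
    exact Finset.sum_congr rfl fun y _ => by rw [nv_apply, norm_norm]
  exact (sq_eq_sq₀ (norm_nonneg _) (norm_nonneg _)).mp h

omit [CompleteSpace H] in
lemma tens_mono (E : H →L[ℂ] H) (σ : Equiv.Perm (Y p n)) (lam : Y p n → ℂ)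
    (T : PiLp 2 (fun _ : Y p n => H)) (y : Y p n) :
    tens E (monoM σ lam) T (σ y) = conj (lam y) • E (T y) := by
  rw [tens_monoM_apply, Equiv.symm_apply_apply]

/-- primal `e12` as an equivalence -/
def eqA (p : ℕ) : V3 p ≃ V3 p where
  toFun := e12
  invFun m := ![m 0 - m 1, m 1, m 2]
  left_inv m := by funext i; fin_cases i <;> simp [e12]
  right_inv m := by funext i; fin_cases i <;> simp [e12]

/-- primal `e23` as an equivalence -/
def eqB (p : ℕ) : V3 p ≃ V3 p where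
  toFun := e23
  invFun m := ![m 0, m 1 - m 2, m 2]
  left_inv m := by funext i; fin_cases i <;> simp [e23]
  right_inv m := by funext i; fin_cases i <;> simp [e23]

lemma dot_A (q m : V3 p) : dot (letA p q) (eqA p m) = dot q m := by
  simp only [dot, letA, eqA, e12, Equiv.coe_fn_mk, Matrix.cons_val_zero, Matrix.cons_val_one,
    Matrix.cons_val]
  ring

lemma dot_B (q m : V3 p) : dot (letB p q) (eqB p m) = dot q m := by
  simp only [dot, letB, eqB, e23, Equiv.coe_fn_mk, Matrix.cons_val_zero, Matrix.cons_val_one,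
    Matrix.cons_val]
  ring

omit [CompleteSpace H] in
lemma norm_conj_smul_sub (j : ZMod p) (u v : H) :
    ‖conj (psi p j) • u - v‖ = ‖u - psi p j • v‖ := by
  have h2 : psi p j * conj (psi p j) = 1 := by
    rw [Complex.mul_conj', norm_psi]; simp
  have h1 : u - psi p j • v = psi p j • (conj (psi p j) • u - v) := by
    rw [smul_sub, smul_smul, h2, one_smul]
  rw [h1, norm_smul, norm_psi, one_mul]

lemma step_a (hw : AlmostRep w (F0 K) δ) (hδ0 : 0 ≤ δ) (hδ1 : δ ≤ 1)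
    (T : PiLp 2 (fun _ : Y p n => H)) :
    ‖tens (w K.a) (monoM (permA p (n + 1)) (fun _ => 1)) (Tn K w T) - Tn K w T‖
      ≤ (p : ℝ) ^ 2 * (6 * δ * ‖T‖
        + 4 * ‖tens (w K.a) (monoM (permA p n) (fun _ => 1)) T - T‖) := by
  set R := tens (w K.a) (monoM (permA p n) (fun _ => 1)) T - T with hR
  have hRy : ∀ y, R (permA p n y) = w K.a (T y) - T (permA p n y) := fun y => by
    rw [hR, PiLp.sub_apply, tens_mono, map_one, one_smul]
  have hB : ‖((6 * δ) • nv T (Equiv.refl _) + (4 : ℝ) • nv R (permA p n) :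
      PiLp 2 (fun _ : Y p n => ℝ))‖ ≤ 6 * δ * ‖T‖ + 4 * ‖R‖ := by
    refine (norm_add_le _ _).trans ?_
    rw [norm_smul, norm_smul, norm_nv, norm_nv, Real.norm_of_nonneg (by positivity),
      Real.norm_of_nonneg (by norm_num)]
  refine (fiber _ (permA p (n + 1)) _ fun q y => ?_).trans
    (mul_le_mul_of_nonneg_left hB (by positivity))
  rw [PiLp.sub_apply, tens_mono, map_one, one_smul, Tn_apply]
  have h1 := letter_ab K hw hδ0 hδ1 (a_mem K) (eqA p) q (letA p q) (dot_A q)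
    (fun m => by
      show K.a * _ * K.t = K.D (Multiplicative.ofAdd (e12 m)) * K.t * K.a
      rw [K.aD, mul_assoc, ← K.ta, mul_assoc]) (T y) (T (permA p n y))
  rw [← hRy] at h1
  exact h1

lemma step_b (hw : AlmostRep w (F0 K) δ) (hδ0 : 0 ≤ δ) (hδ1 : δ ≤ 1)
    (T : PiLp 2 (fun _ : Y p n => H)) :
    ‖tens (w K.b) (monoM (permB p (n + 1)) (fun _ => 1)) (Tn K w T) - Tn K w T‖
      ≤ (p : ℝ) ^ 2 * (6 * δ * ‖T‖
        + 4 * ‖tens (w K.b) (monoM (permB p n) (fun _ => 1)) T - T‖) := by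
  set R := tens (w K.b) (monoM (permB p n) (fun _ => 1)) T - T with hR
  have hRy : ∀ y, R (permB p n y) = w K.b (T y) - T (permB p n y) := fun y => by
    rw [hR, PiLp.sub_apply, tens_mono, map_one, one_smul]
  have hB : ‖((6 * δ) • nv T (Equiv.refl _) + (4 : ℝ) • nv R (permB p n) :
      PiLp 2 (fun _ : Y p n => ℝ))‖ ≤ 6 * δ * ‖T‖ + 4 * ‖R‖ := by
    refine (norm_add_le _ _).trans ?_
    rw [norm_smul, norm_smul, norm_nv, norm_nv, Real.norm_of_nonneg (by positivity),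
      Real.norm_of_nonneg (by norm_num)]
  refine (fiber _ (permB p (n + 1)) _ fun q y => ?_).trans
    (mul_le_mul_of_nonneg_left hB (by positivity))
  rw [PiLp.sub_apply, tens_mono, map_one, one_smul, Tn_apply]
  have h1 := letter_ab K hw hδ0 hδ1 (b_mem K) (eqB p) q (letB p q) (dot_B q)
    (fun m => by
      show K.b * _ * K.t = K.D (Multiplicative.ofAdd (e23 m)) * K.t * K.b
      rw [K.bD, mul_assoc, ← K.tb, mul_assoc]) (T y) (T (permB p n y))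
  rw [← hRy] at h1
  exact h1

lemma step_c (hw : AlmostRep w (F0 K) δ) (hδ0 : 0 ≤ δ) (hδ1 : δ ≤ 1)
    (T : PiLp 2 (fun _ : Y p n => H)) :
    ‖tens (w K.c) (monoM (permC p (n + 1)) (fun _ => 1)) (Tn K w T) - Tn K w T‖
      ≤ (p : ℝ) ^ 2 * (10 * δ * ‖T‖
        + 8 * ‖tens (w K.c) (monoM (permC p n) (fun _ => 1)) T - T‖
        + 8 * p * ‖tens (w (K.D (Multiplicative.ofAdd ![0, 0, 1])))
            (monoM (Equiv.refl _) (fun y => psi p (hd y 2))) T - T‖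
        + (4 * p + 4) * δ * ‖T‖) := by
  set R := tens (w K.c) (monoM (permC p n) (fun _ => 1)) T - T with hR
  set Rd := tens (w (K.D (Multiplicative.ofAdd ![0, 0, 1])))
            (monoM (Equiv.refl _) (fun y => psi p (hd y 2))) T - T with hRd
  have hRy : ∀ y, R (permC p n y) = w K.c (T y) - T (permC p n y) := fun y => by
    rw [hR, PiLp.sub_apply, tens_mono, map_one, one_smul]
  have hRdy : ∀ y, ‖Rd y‖ = ‖w (K.D (Multiplicative.ofAdd ![0, 0, 1])) (T y)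
      - psi p (hd y 2) • T y‖ := fun y => by
    rw [hRd, PiLp.sub_apply]
    have := tens_mono (w (K.D (Multiplicative.ofAdd ![0, 0, 1]))) (Equiv.refl (Y p n))
      (fun y => psi p (hd y 2)) T y
    rw [Equiv.refl_apply] at this
    rw [this, norm_conj_smul_sub]
  have hB : ‖((10 * δ) • nv T (Equiv.refl _) + (8 : ℝ) • nv R (permC p n)
      + (8 * p : ℝ) • nv Rd (permC p n) + ((4 * p + 4) * δ) • nv T (permC p n) :
      PiLp 2 (fun _ : Y p n => ℝ))‖ ≤ 10 * δ * ‖T‖ + 8 * ‖R‖ + 8 * p * ‖Rd‖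
        + (4 * p + 4) * δ * ‖T‖ := by
    refine (norm_add_le _ _).trans ?_
    refine (add_le_add_left norm_add₃_le _).trans ?_
    rw [norm_smul, norm_smul, norm_smul, norm_smul, norm_nv, norm_nv, norm_nv, norm_nv,
      Real.norm_of_nonneg (by positivity), Real.norm_of_nonneg (by norm_num),
      Real.norm_of_nonneg (by positivity), Real.norm_of_nonneg (by positivity)]
  refine (fiber _ (permC p (n + 1)) _ fun q y => ?_).trans
    (mul_le_mul_of_nonneg_left hB (by positivity))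
  rw [PiLp.sub_apply, tens_mono, map_one, one_smul, Tn_apply]
  have h1 := letter_c K hw hδ0 hδ1 q (hd y 2) (T y) (T (permC p n y))
  rw [← hRy] at h1
  have h2 := hRdy (permC p n y)
  have h3 : hd (permC p n y) 2 = hd y 2 := by
    rw [SigmaRel.hd_permC]; simp
  rw [h3] at h2
  change _ ≤ (10 * δ) * ‖T y‖ + 8 * ‖R (permC p n y)‖ + (8 * p) * ‖Rd (permC p n y)‖
    + ((4 * p + 4) * δ) * ‖T (permC p n y)‖
  have h4 : w (K.D (Multiplicative.ofAdd (v3 1))) (T (permC p n y))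
      - psi p (hd y 2) • T (permC p n y)
      = w (K.D (Multiplicative.ofAdd ![0, 0, 1])) (T (permC p n y))
      - psi p (hd y 2) • T (permC p n y) := rfl
  rw [h4, ← h2] at h1
  refine (le_of_eq ?_).trans (h1.trans (le_of_eq ?_))
  · rfl
  · ring

lemma step_d (hw : AlmostRep w (F0 K) δ) (hδ0 : 0 ≤ δ) (hδ1 : δ ≤ 1)
    (T : PiLp 2 (fun _ : Y p n => H)) :
    ‖tens (w (K.D (Multiplicative.ofAdd ![0, 0, 1])))
        (monoM (Equiv.refl _) (fun y => psi p (hd y 2))) (Tn K w T) - Tn K w T‖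
      ≤ (p : ℝ) ^ 2 * (2 * δ * ‖T‖) := by
  have hB : ‖((2 * δ) • nv T (Equiv.refl _) : PiLp 2 (fun _ : Y p n => ℝ))‖ ≤ 2 * δ * ‖T‖ := by
    rw [norm_smul, norm_nv, Real.norm_of_nonneg (by positivity)]
  refine (fiber _ (Equiv.refl _) _ fun q y => ?_).trans
    (mul_le_mul_of_nonneg_left hB (by positivity))
  rw [PiLp.sub_apply, tens_mono, Equiv.refl_apply, norm_conj_smul_sub, Tn_apply]
  exact letter_d K hw hδ0 hδ1 q (T y)

lemma lower2 (hw : AlmostRep w (F0 K) δ) (hδ0 : 0 ≤ δ) (hδ1 : δ ≤ 1 / 8)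
    (T : PiLp 2 (fun _ : Y p n => H)) : ‖T‖ ≤ 4 * (p : ℝ) ^ 2 * ‖Tn K w T‖ := by
  have hp := (Fact.out : p.Prime).one_le
  have h1 : ‖T‖ ^ 2 ≤ 16 * ((p : ℝ) ^ 3 * ‖Tn K w T‖ ^ 2) := by
    rw [norm_sq_succ, PiLp.norm_sq_eq_of_L2, Finset.sum_comm, Finset.mul_sum, Finset.mul_sum]
    refine Finset.sum_le_sum fun y _ => ?_
    have e1 := lower K hw hδ0 hδ1 (T y)
    have e2 : (∑ q : V3 p, ‖Mq K w q (T y)‖) ^ 2
        ≤ (p : ℝ) ^ 3 * ∑ q : V3 p, ‖Mq K w q (T y)‖ ^ 2 := by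
      have := sq_sum_le_card_mul_sum_sq (s := (Finset.univ : Finset (V3 p)))
        (f := fun q => ‖Mq K w q (T y)‖)
      rw [Finset.card_univ, card_V3] at this
      push_cast at this
      exact this
    have e3 : ‖T y‖ ^ 2 ≤ (4 * ∑ q : V3 p, ‖Mq K w q (T y)‖) ^ 2 :=
      pow_le_pow_left₀ (norm_nonneg _) e1 2
    calc ‖T y‖ ^ 2 ≤ (4 * ∑ q : V3 p, ‖Mq K w q (T y)‖) ^ 2 := e3
      _ = 16 * (∑ q : V3 p, ‖Mq K w q (T y)‖) ^ 2 := by ring
      _ ≤ 16 * ((p : ℝ) ^ 3 * ∑ q : V3 p, ‖Mq K w q (T y)‖ ^ 2) := by linarith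
  have h2 := cubic p hp ‖Tn K w T‖
  have h3 : ‖T‖ ^ 2 ≤ (4 * (p : ℝ) ^ 2 * ‖Tn K w T‖) ^ 2 := by
    calc ‖T‖ ^ 2 ≤ 16 * ((p : ℝ) ^ 3 * ‖Tn K w T‖ ^ 2) := h1
      _ ≤ 16 * ((p : ℝ) ^ 2 * ‖Tn K w T‖) ^ 2 := by linarith
      _ = (4 * (p : ℝ) ^ 2 * ‖Tn K w T‖) ^ 2 := by ring
  exact (pow_le_pow_iff_left₀ (norm_nonneg _) (by positivity) two_ne_zero).mp h3

end Step

open Step in
theorem stmtStep (p : ℕ) [Fact p.Prime] : StmtStep p := by
  intro G _ K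
  have hp2 : (2 : ℝ) ≤ p := by exact_mod_cast (Fact.out : p.Prime).two_le
  have hp5 : (1 : ℝ) ≤ (p : ℝ) ^ 5 := one_le_pow₀ (by linarith)
  refine ⟨F0 K, 80 * (p : ℝ) ^ 5, F0_finite K, by linarith, ?_⟩
  intro H _ _ _ w δ hδ0 hCδ hw n η hη0 hη1 ⟨T, hT1, hT⟩
  have hδ8 : δ ≤ 1 / 8 := by
    have : 80 * δ ≤ 80 * (p : ℝ) ^ 5 * δ := by nlinarith
    linarith
  have hδ1 : δ ≤ 1 := by linarith
  have hTa : ‖tens (w K.a) (monoM (permA p n) (fun _ => 1)) T - T‖ ≤ η := hT 0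
  have hTb : ‖tens (w K.b) (monoM (permB p n) (fun _ => 1)) T - T‖ ≤ η := hT 1
  have hTc : ‖tens (w K.c) (monoM (permC p n) (fun _ => 1)) T - T‖ ≤ η := hT 2
  have hTd : ‖tens (w (K.D (Multiplicative.ofAdd ![0, 0, 1])))
    (monoM (Equiv.refl _) (fun y => psi p (hd y 2))) T - T‖ ≤ η := hT 3
  have hlow := lower2 K hw hδ0 hδ8 T
  rw [hT1] at hlow
  set T' := Tn K w T with hT'
  have hpos : 0 < ‖T'‖ := by
    by_contra hc
    have : ‖T'‖ = 0 := le_antisymm (not_lt.mp hc) (norm_nonneg _)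
    rw [this] at hlow
    linarith
  have hbound : ∀ s, ‖tens (w (K.gen s)) (sigmaU p (n + 1) s : Matrix (Y p (n + 1)) (Y p (n + 1)) ℂ)
      T' - T'‖ ≤ (p : ℝ) ^ 2 * (20 * p * (η + δ)) := by
    have h0 := step_a K hw hδ0 hδ1 T
    have h1 := step_b K hw hδ0 hδ1 T
    have h2 := step_c K hw hδ0 hδ1 T
    have h3 := step_d K hw hδ0 hδ1 T
    rw [hT1] at h0 h1 h2 h3
    have hpp : (0 : ℝ) ≤ (p : ℝ) ^ 2 := by positivity
    have hpd : 2 * δ ≤ p * δ := mul_le_mul_of_nonneg_right hp2 hδ0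
    have hph : 2 * η ≤ p * η := mul_le_mul_of_nonneg_right hp2 hη0
    intro s
    fin_cases s
    · refine h0.trans (mul_le_mul_of_nonneg_left ?_ hpp)
      linarith
    · refine h1.trans (mul_le_mul_of_nonneg_left ?_ hpp)
      linarith
    · refine h2.trans (mul_le_mul_of_nonneg_left ?_ hpp)
      have : 8 * (p : ℝ) * ‖tens (w (K.D (Multiplicative.ofAdd ![0, 0, 1])))
        (monoM (Equiv.refl _) (fun y => psi p (hd y 2))) T - T‖ ≤ 8 * p * η :=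
        mul_le_mul_of_nonneg_left hTd (by positivity)
      nlinarith
    · refine h3.trans (mul_le_mul_of_nonneg_left ?_ hpp)
      linarith
  refine ⟨((‖T'‖ : ℂ))⁻¹ • T', ?_, fun s => ?_⟩
  · rw [norm_smul, norm_inv, Complex.norm_real, norm_norm, inv_mul_cancel₀ hpos.ne']
  · rw [map_smul, ← smul_sub, norm_smul, norm_inv, Complex.norm_real, norm_norm,
      inv_mul_le_iff₀ hpos]
    refine (hbound s).trans ?_
    have hηδ : 0 ≤ η + δ := by linarith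
    have h1 : (p : ℝ) ^ 2 * (20 * p * (η + δ)) * 1
        ≤ (p : ℝ) ^ 2 * (20 * p * (η + δ)) * (4 * (p : ℝ) ^ 2 * ‖T'‖) :=
      mul_le_mul_of_nonneg_left hlow (by positivity)
    calc (p : ℝ) ^ 2 * (20 * p * (η + δ)) = (p : ℝ) ^ 2 * (20 * p * (η + δ)) * 1 := by ring
      _ ≤ _ := h1
      _ = ‖T'‖ * (80 * (p : ℝ) ^ 5 * (η + δ)) := by ring

end

end Crest.Agent.R073
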