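import Crest.Agent.R073.Stmts

/-!
Row 73, M7a: the operators `tens E U`.
-/

set_option autoImplicit false

namespace Crest.Agent.R073

open scoped Matrix ComplexConjugate InnerProductSpace

section Tens

variable {H : Type} [NormedAddCommGroup H] [InnerProductSpace ℂ H] {ι : Type} [Fintype ι]

theorem tens_add (E E' : H →L[ℂ] H) (U : Matrix ι ι ℂ) :
    tens (E + E') U = tens E U + tens E' U := by
  ext T i
  simp [tens_apply, Finset.sum_add_distrib]

theorem tens_sub (E E' : H →L[ℂ] H) (U : Matrix ι ι ℂ) :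
    tens (E - E') U = tens E U - tens E' U := by
  ext T i
  simp [tens_apply, Finset.sum_sub_distrib, smul_sub]

theorem tens_smul (c : ℂ) (E : H →L[ℂ] H) (U : Matrix ι ι ℂ) :
    tens (c • E) U = c • tens E U := by
  ext T i
  simp only [tens_apply, smul_apply, PiLp.smul_apply, Finset.smul_sum]
  exact Finset.sum_congr rfl fun j _ => smul_comm _ _ _

theorem tens_zero (U : Matrix ι ι ℂ) : tens (0 : H →L[ℂ] H) U = 0 := by
  ext T i
  simp [tens_apply]

theorem tens_sum {κ : Type} (s : Finset κ) (E : κ → H →L[ℂ] H) (U : Matrix ι ι ℂ) :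
    tens (∑ k ∈ s, E k) U = ∑ k ∈ s, tens (E k) U := by
  classical
  induction s using Finset.induction_on with
  | empty => simp [tens_zero]
  | insert a s ha ih => rw [Finset.sum_insert ha, Finset.sum_insert ha, tens_add, ih]

theorem tens_comp (E E' : H →L[ℂ] H) (U W : Matrix ι ι ℂ) :
    tens E U ∘L tens E' W = tens (E ∘L E') (U * W) := by
  ext T i
  simp only [ContinuousLinearMap.comp_apply, tens_apply, map_sum, map_smul, Finset.smul_sum,
    Matrix.mul_apply, smul_smul, Finset.sum_smul, map_mul]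
  rw [Finset.sum_comm]

theorem tens_one_apply [DecidableEq ι] (E : H →L[ℂ] H) (T : PiLp 2 (fun _ : ι => H)) (i : ι) :
    tens E (1 : Matrix ι ι ℂ) T i = E (T i) := by
  rw [tens_apply, Finset.sum_eq_single i]
  · simp
  · intro j _ hj
    simp [Matrix.one_apply_ne hj.symm]
  · simp

theorem tens_one_one [DecidableEq ι] :
    tens (1 : H →L[ℂ] H) (1 : Matrix ι ι ℂ) = 1 := by
  ext T i
  rw [tens_one_apply]
  simp

/-- `tens E U` with a monomial matrix. -/
theorem tens_monoM_apply [DecidableEq ι] (E : H →L[ℂ] H) (σ : Equiv.Perm ι) (lam : ι → ℂ)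
    (T : PiLp 2 (fun _ : ι => H)) (i : ι) :
    tens E (monoM σ lam) T i = conj (lam (σ.symm i)) • E (T (σ.symm i)) := by
  rw [tens_apply, Finset.sum_eq_single (σ.symm i)]
  · simp [monoM]
  · intro j _ hj
    have : i ≠ σ j := fun e => hj (by rw [e]; simp)
    simp [monoM, this]
  · simp

theorem norm_tens_one_le [DecidableEq ι] (E : H →L[ℂ] H) :
    ‖tens E (1 : Matrix ι ι ℂ)‖ ≤ ‖E‖ := by
  refine ContinuousLinearMap.opNorm_le_bound _ (norm_nonneg _) fun T => ?_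
  refine le_of_sq_le_sq ?_ (by positivity)
  rw [mul_pow, PiLp.norm_sq_eq_of_L2, PiLp.norm_sq_eq_of_L2, Finset.mul_sum]
  refine Finset.sum_le_sum fun i _ => ?_
  rw [tens_one_apply, ← mul_pow]
  exact pow_le_pow_left₀ (norm_nonneg _) (E.le_opNorm _) 2

theorem adjoint_tens [CompleteSpace H] (E : H →L[ℂ] H) (U : Matrix ι ι ℂ) :
    ContinuousLinearMap.adjoint (tens E U) = tens (ContinuousLinearMap.adjoint E) Uᴴ := by
  symm
  rw [ContinuousLinearMap.eq_adjoint_iff]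
  intro S T
  rw [PiLp.inner_apply, PiLp.inner_apply]
  simp only [tens_apply, sum_inner, inner_sum, inner_smul_left, inner_smul_right,
    Matrix.conjTranspose_apply, ContinuousLinearMap.adjoint_inner_left]
  rw [Finset.sum_comm]
  refine Finset.sum_congr rfl fun i _ => Finset.sum_congr rfl fun j _ => ?_
  simp

theorem norm_tens_unitary_apply [CompleteSpace H] [DecidableEq ι]
    (U : Matrix.unitaryGroup ι ℂ) (T : PiLp 2 (fun _ : ι => H)) :
    ‖tens (1 : H →L[ℂ] H) (U : Matrix ι ι ℂ) T‖ = ‖T‖ := by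
  have h : ‖tens (1 : H →L[ℂ] H) (U : Matrix ι ι ℂ) T‖ ^ 2 = ‖T‖ ^ 2 := by
    have h1 : ⟪tens (1 : H →L[ℂ] H) (U : Matrix ι ι ℂ) T,
        tens (1 : H →L[ℂ] H) (U : Matrix ι ι ℂ) T⟫_ℂ = ⟪T, T⟫_ℂ := by
      rw [← ContinuousLinearMap.adjoint_inner_right, adjoint_tens,
        ← ContinuousLinearMap.comp_apply, tens_comp]
      have hU : (U : Matrix ι ι ℂ)ᴴ * (U : Matrix ι ι ℂ) = 1 :=
        Matrix.mem_unitaryGroup_iff'.1 U.2
      have h2 : ContinuousLinearMap.adjoint (1 : H →L[ℂ] H) ∘L (1 : H →L[ℂ] H) = 1 := by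
        have : ContinuousLinearMap.adjoint (1 : H →L[ℂ] H) = 1 := star_one _
        rw [this]; rfl
      rw [hU, h2, tens_one_one]; simp
    rw [inner_self_eq_norm_sq_to_K, inner_self_eq_norm_sq_to_K] at h1
    exact_mod_cast h1
  exact (sq_eq_sq₀ (norm_nonneg _) (norm_nonneg _)).1 h

theorem norm_tens_le [CompleteSpace H] [DecidableEq ι] (E : H →L[ℂ] H)
    (U : Matrix.unitaryGroup ι ℂ) :
    ‖tens E (U : Matrix ι ι ℂ)‖ ≤ ‖E‖ := by
  have h : tens E (U : Matrix ι ι ℂ)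
      = tens E (1 : Matrix ι ι ℂ) ∘L tens (1 : H →L[ℂ] H) (U : Matrix ι ι ℂ) := by
    rw [tens_comp, one_mul]; rfl
  refine ContinuousLinearMap.opNorm_le_bound _ (norm_nonneg _) fun T => ?_
  rw [h, ContinuousLinearMap.comp_apply]
  refine ((tens E (1 : Matrix ι ι ℂ)).le_opNorm _).trans ?_
  rw [norm_tens_unitary_apply]
  exact mul_le_mul_of_nonneg_right (norm_tens_one_le E) (norm_nonneg _)

end Tens

/-- M7a -/
theorem stmtTens : StmtTens := by
  intro G _ H _ _ _ w F δ hδ hw ι _ _ _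
  refine ⟨?_, ?_, ?_, ?_⟩
  · intro g hg h hh
    show ‖tens (w g.1) (g.2 : Matrix ι ι ℂ) ∘L tens (w h.1) (h.2 : Matrix ι ι ℂ)
      - tens (w (g.1 * h.1)) ((g.2 * h.2 : Matrix.unitaryGroup ι ℂ) : Matrix ι ι ℂ)‖ ≤ δ
    rw [tens_comp]
    have : (g.2 : Matrix ι ι ℂ) * (h.2 : Matrix ι ι ℂ)
      = ((g.2 * h.2 : Matrix.unitaryGroup ι ℂ) : Matrix ι ι ℂ) := rfl
    rw [this, ← tens_sub]
    exact (norm_tens_le _ _).trans (hw.mul _ hg _ hh)
  · intro g hg
    show ‖ContinuousLinearMap.adjoint (tens (w g.1) (g.2 : Matrix ι ι ℂ))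
      - tens (w (g.1⁻¹)) ((g.2⁻¹ : Matrix.unitaryGroup ι ℂ) : Matrix ι ι ℂ)‖ ≤ δ
    rw [adjoint_tens]
    have : (g.2 : Matrix ι ι ℂ)ᴴ = ((g.2⁻¹ : Matrix.unitaryGroup ι ℂ) : Matrix ι ι ℂ) := rfl
    rw [this, ← tens_sub]
    exact (norm_tens_le _ _).trans (hw.star _ hg)
  · show ‖tens (w 1) ((1 : Matrix.unitaryGroup ι ℂ) : Matrix ι ι ℂ) - 1‖ ≤ δ
    have : (1 : PiLp 2 (fun _ : ι => H) →L[ℂ] PiLp 2 (fun _ : ι => H))
      = tens (1 : H →L[ℂ] H) ((1 : Matrix.unitaryGroup ι ℂ) : Matrix ι ι ℂ) := by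
      rw [show ((1 : Matrix.unitaryGroup ι ℂ) : Matrix ι ι ℂ) = 1 from rfl, tens_one_one]
    rw [this, ← tens_sub]
    exact (norm_tens_le _ _).trans hw.one
  · intro g hg
    exact (norm_tens_le _ _).trans (hw.norm _ hg)

end Crest.Agent.R073
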