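import Crest.Agent.R073.Stmts
import Crest.Agent.R73.UnivInst

/-! Row 73, module M1 in the frozen form. -/

set_option autoImplicit false

namespace Crest.Agent.R073

theorem stmtFull : StmtFull := fun G _ _ => Crest.Agent.R73.exists_fullGroupCStar G

theorem stmtO2 : StmtO2 := Crest.Agent.R73.exists_cuntzTwo

end Crest.Agent.R073
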